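import Vale.Agent.P211.Cert.Pair.Data.PairOuterL.Base

/-!
P211, data: the root `outerL` of the form across the gradient, generated from the exact search.
-/

namespace Vale.Agent.P211.Cert.Pair.PairOuterL

open Vale.Agent.P098.Check6 (Face St ofChunks reach)
open Vale.Agent.P098.Cert6.Kron (RootPar)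

/-- A subtree. -/
def tree0 : Check.Tree Check.Leaf :=
  .node 0
    (.node 3
    (.node 3
    (.node 0
    (.node 3
    (.node 3
    (.node 3
    (.node 0
    (.node 3
    (.node 3
    (.node 1
    (.node 0
    (.leaf (.skip 7))
    (.node 3
    (.leaf (.skip 7))
    (.leaf (.psd ⟨⟨⟨74, 0, 0⟩, ⟨8119, 1, 0⟩, ⟨0, 0, 1⟩⟩, ⟨⟨1, 0, 0⟩, ⟨(-8119), 74, 0⟩, ⟨0, 0, 74⟩⟩, 74, ⟨86, 1048576, 1⟩⟩))))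
    (.leaf (.skip 7)))
    (.leaf (.psd ⟨⟨⟨115, 0, 0⟩, ⟨8150, 1, 0⟩, ⟨0, 0, 1⟩⟩, ⟨⟨1, 0, 0⟩, ⟨(-8150), 115, 0⟩, ⟨0, 0, 115⟩⟩, 115, ⟨114, 1048576, 1⟩⟩)))
    (.leaf (.psd ⟨⟨⟨219, 0, 0⟩, ⟨8158, 1, 0⟩, ⟨0, 0, 1⟩⟩, ⟨⟨1, 0, 0⟩, ⟨(-8158), 219, 0⟩, ⟨0, 0, 219⟩⟩, 219, ⟨110, 1048576, 1⟩⟩)))
    (.node 1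
    (.node 3
    (.node 1
    (.node 3
    (.leaf (.psd ⟨⟨⟨151, 0, 0⟩, ⟨8156, 1, 0⟩, ⟨0, 0, 1⟩⟩, ⟨⟨1, 0, 0⟩, ⟨(-8156), 151, 0⟩, ⟨0, 0, 151⟩⟩, 151, ⟨32, 1048576, 1⟩⟩))
    (.leaf (.psd ⟨⟨⟨215, 0, 0⟩, ⟨8184, 1, 0⟩, ⟨0, 0, 1⟩⟩, ⟨⟨1, 0, 0⟩, ⟨(-8184), 215, 0⟩, ⟨0, 0, 215⟩⟩, 215, ⟨63, 1048576, 1⟩⟩)))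
    (.node 3
    (.node 3
    (.node 0
    (.leaf (.skip 7))
    (.leaf (.psd ⟨⟨⟨98, 0, 0⟩, ⟨8151, 1, 0⟩, ⟨0, 0, 1⟩⟩, ⟨⟨1, 0, 0⟩, ⟨(-8151), 98, 0⟩, ⟨0, 0, 98⟩⟩, 98, ⟨34, 1048576, 1⟩⟩)))
    (.leaf (.psd ⟨⟨⟨112, 0, 0⟩, ⟨8187, 1, 0⟩, ⟨0, 0, 1⟩⟩, ⟨⟨1, 0, 0⟩, ⟨(-8187), 112, 0⟩, ⟨0, 0, 112⟩⟩, 112, ⟨62, 1048576, 1⟩⟩)))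
    (.leaf (.psd ⟨⟨⟨169, 0, 0⟩, ⟨8161, 1, 0⟩, ⟨0, 0, 1⟩⟩, ⟨⟨1, 0, 0⟩, ⟨(-8161), 169, 0⟩, ⟨0, 0, 169⟩⟩, 169, ⟨74, 1048576, 1⟩⟩))))
    (.leaf (.psd ⟨⟨⟨302, 0, 0⟩, ⟨8185, 1, 0⟩, ⟨0, 0, 1⟩⟩, ⟨⟨1, 0, 0⟩, ⟨(-8185), 302, 0⟩, ⟨0, 0, 302⟩⟩, 302, ⟨80, 1048576, 1⟩⟩)))
    (.node 3
    (.node 3
    (.node 1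
    (.node 3
    (.leaf (.skip 7))
    (.leaf (.psd ⟨⟨⟨80, 0, 0⟩, ⟨8141, 1, 0⟩, ⟨0, 0, 1⟩⟩, ⟨⟨1, 0, 0⟩, ⟨(-8141), 80, 0⟩, ⟨0, 0, 80⟩⟩, 80, ⟨78, 1048576, 1⟩⟩)))
    (.leaf (.skip 7)))
    (.leaf (.psd ⟨⟨⟨133, 0, 0⟩, ⟨8176, 1, 0⟩, ⟨0, 0, 1⟩⟩, ⟨⟨1, 0, 0⟩, ⟨(-8176), 133, 0⟩, ⟨0, 0, 133⟩⟩, 133, ⟨92, 1048576, 1⟩⟩)))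
    (.leaf (.psd ⟨⟨⟨249, 0, 0⟩, ⟨8159, 1, 0⟩, ⟨0, 0, 1⟩⟩, ⟨⟨1, 0, 0⟩, ⟨(-8159), 249, 0⟩, ⟨0, 0, 249⟩⟩, 249, ⟨92, 1048576, 1⟩⟩)))))
    (.leaf (.psd ⟨⟨⟨447, 0, 0⟩, ⟨8184, 1, 0⟩, ⟨0, 0, 1⟩⟩, ⟨⟨1, 0, 0⟩, ⟨(-8184), 447, 0⟩, ⟨0, 0, 447⟩⟩, 447, ⟨104, 1048576, 1⟩⟩)))
    (.leaf (.psd ⟨⟨⟨808, 0, 0⟩, ⟨8191, 1, 0⟩, ⟨0, 0, 1⟩⟩, ⟨⟨1, 0, 0⟩, ⟨(-8191), 808, 0⟩, ⟨0, 0, 808⟩⟩, 808, ⟨101, 1048576, 1⟩⟩)))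
    (.leaf (.psd ⟨⟨⟨1024, 0, 0⟩, ⟨5931, 1, 0⟩, ⟨0, 0, 1⟩⟩, ⟨⟨1, 0, 0⟩, ⟨(-5931), 1024, 0⟩, ⟨0, 0, 1024⟩⟩, 1024, ⟨1, 4096, 1⟩⟩)))
    (.node 3
    (.node 1
    (.node 3
    (.node 1
    (.node 3
    (.leaf (.psd ⟨⟨⟨653, 0, 0⟩, ⟨8192, 1, 0⟩, ⟨0, 0, 1⟩⟩, ⟨⟨1, 0, 0⟩, ⟨(-8192), 653, 0⟩, ⟨0, 0, 653⟩⟩, 653, ⟨28, 1048576, 1⟩⟩))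
    (.leaf (.psd ⟨⟨⟨885, 0, 0⟩, ⟨8184, 1, 0⟩, ⟨0, 0, 1⟩⟩, ⟨⟨1, 0, 0⟩, ⟨(-8184), 885, 0⟩, ⟨0, 0, 885⟩⟩, 885, ⟨56, 1048576, 1⟩⟩)))
    (.node 3
    (.node 3
    (.leaf (.psd ⟨⟨⟨346, 0, 0⟩, ⟨8174, 1, 0⟩, ⟨0, 0, 1⟩⟩, ⟨⟨1, 0, 0⟩, ⟨(-8174), 346, 0⟩, ⟨0, 0, 346⟩⟩, 346, ⟨27, 1048576, 1⟩⟩))
    (.leaf (.psd ⟨⟨⟨487, 0, 0⟩, ⟨8185, 1, 0⟩, ⟨0, 0, 1⟩⟩, ⟨⟨1, 0, 0⟩, ⟨(-8185), 487, 0⟩, ⟨0, 0, 487⟩⟩, 487, ⟨55, 1048576, 1⟩⟩)))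
    (.leaf (.psd ⟨⟨⟨720, 0, 0⟩, ⟨8191, 1, 0⟩, ⟨0, 0, 1⟩⟩, ⟨⟨1, 0, 0⟩, ⟨(-8191), 720, 0⟩, ⟨0, 0, 720⟩⟩, 720, ⟨64, 1048576, 1⟩⟩))))
    (.leaf (.psd ⟨⟨⟨1024, 0, 0⟩, ⟨6988, 1, 0⟩, ⟨0, 0, 1⟩⟩, ⟨⟨1, 0, 0⟩, ⟨(-6988), 1024, 0⟩, ⟨0, 0, 1024⟩⟩, 1024, ⟨80, 1048576, 1⟩⟩)))
    (.node 3
    (.node 3
    (.node 1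
    (.node 3
    (.node 3
    (.node 1
    (.leaf (.psd ⟨⟨⟨174, 0, 0⟩, ⟨8179, 1, 0⟩, ⟨0, 0, 1⟩⟩, ⟨⟨1, 0, 0⟩, ⟨(-8179), 174, 0⟩, ⟨0, 0, 174⟩⟩, 174, ⟨28, 1048576, 1⟩⟩))
    (.node 0
    (.node 3
    (.leaf (.skip 7))
    (.leaf (.psd ⟨⟨⟨107, 0, 0⟩, ⟨8134, 1, 0⟩, ⟨0, 0, 1⟩⟩, ⟨⟨1, 0, 0⟩, ⟨(-8134), 107, 0⟩, ⟨0, 0, 107⟩⟩, 107, ⟨61, 1048576, 1⟩⟩)))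
    (.leaf (.psd ⟨⟨⟨152, 0, 0⟩, ⟨8177, 1, 0⟩, ⟨0, 0, 1⟩⟩, ⟨⟨1, 0, 0⟩, ⟨(-8177), 152, 0⟩, ⟨0, 0, 152⟩⟩, 152, ⟨28, 1048576, 1⟩⟩))))
    (.leaf (.psd ⟨⟨⟨227, 0, 0⟩, ⟨8191, 1, 0⟩, ⟨0, 0, 1⟩⟩, ⟨⟨1, 0, 0⟩, ⟨(-8191), 227, 0⟩, ⟨0, 0, 227⟩⟩, 227, ⟨58, 1048576, 1⟩⟩)))
    (.leaf (.psd ⟨⟨⟨361, 0, 0⟩, ⟨8181, 1, 0⟩, ⟨0, 0, 1⟩⟩, ⟨⟨1, 0, 0⟩, ⟨(-8181), 361, 0⟩, ⟨0, 0, 361⟩⟩, 361, ⟨66, 1048576, 1⟩⟩)))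
    (.node 3
    (.node 3
    (.node 0
    (.node 3
    (.leaf (.skip 7))
    (.leaf (.psd ⟨⟨⟨78, 0, 0⟩, ⟨8097, 1, 0⟩, ⟨0, 0, 1⟩⟩, ⟨⟨1, 0, 0⟩, ⟨(-8097), 78, 0⟩, ⟨0, 0, 78⟩⟩, 78, ⟨76, 1048576, 1⟩⟩)))
    (.node 1
    (.node 3
    (.leaf (.skip 7))
    (.leaf (.psd ⟨⟨⟨111, 0, 0⟩, ⟨8126, 1, 0⟩, ⟨0, 0, 1⟩⟩, ⟨⟨1, 0, 0⟩, ⟨(-8126), 111, 0⟩, ⟨0, 0, 111⟩⟩, 111, ⟨55, 1048576, 1⟩⟩)))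
    (.leaf (.skip 7))))
    (.leaf (.psd ⟨⟨⟨160, 0, 0⟩, ⟨8142, 1, 0⟩, ⟨0, 0, 1⟩⟩, ⟨⟨1, 0, 0⟩, ⟨(-8142), 160, 0⟩, ⟨0, 0, 160⟩⟩, 160, ⟨72, 1048576, 1⟩⟩)))
    (.leaf (.psd ⟨⟨⟨305, 0, 0⟩, ⟨8180, 1, 0⟩, ⟨0, 0, 1⟩⟩, ⟨⟨1, 0, 0⟩, ⟨(-8180), 305, 0⟩, ⟨0, 0, 305⟩⟩, 305, ⟨71, 1048576, 1⟩⟩))))
    (.leaf (.psd ⟨⟨⟨603, 0, 0⟩, ⟨8185, 1, 0⟩, ⟨0, 0, 1⟩⟩, ⟨⟨1, 0, 0⟩, ⟨(-8185), 603, 0⟩, ⟨0, 0, 603⟩⟩, 603, ⟨73, 1048576, 1⟩⟩)))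
    (.leaf (.psd ⟨⟨⟨1024, 0, 0⟩, ⟨7592, 1, 0⟩, ⟨0, 0, 1⟩⟩, ⟨⟨1, 0, 0⟩, ⟨(-7592), 1024, 0⟩, ⟨0, 0, 1024⟩⟩, 1024, ⟨77, 1048576, 1⟩⟩))))
    (.leaf (.psd ⟨⟨⟨1024, 0, 0⟩, ⟨4341, 1, 0⟩, ⟨0, 0, 1⟩⟩, ⟨⟨1, 0, 0⟩, ⟨(-4341), 1024, 0⟩, ⟨0, 0, 1024⟩⟩, 1024, ⟨1, 4096, 1⟩⟩))))
    (.leaf (.psd ⟨⟨⟨1024, 0, 0⟩, ⟨3075, 1, 0⟩, ⟨0, 0, 1⟩⟩, ⟨⟨1, 0, 0⟩, ⟨(-3075), 1024, 0⟩, ⟨0, 0, 1024⟩⟩, 1024, ⟨1, 4096, 1⟩⟩)))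
    (.leaf (.psd ⟨⟨⟨1024, 0, 0⟩, ⟨1796, 1, 0⟩, ⟨0, 0, 1⟩⟩, ⟨⟨1, 0, 0⟩, ⟨(-1796), 1024, 0⟩, ⟨0, 0, 1024⟩⟩, 1024, ⟨670, 1048576, 1⟩⟩)))
    (.node 3
    (.node 1
    (.node 3
    (.node 1
    (.leaf (.psd ⟨⟨⟨1024, 0, 0⟩, ⟨2530, 1, 0⟩, ⟨0, 0, 1⟩⟩, ⟨⟨1, 0, 0⟩, ⟨(-2530), 1024, 0⟩, ⟨0, 0, 1024⟩⟩, 1024, ⟨75, 1048576, 1⟩⟩))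
    (.node 0
    (.node 3
    (.leaf (.psd ⟨⟨⟨1024, 0, 0⟩, ⟨4766, 1, 0⟩, ⟨0, 0, 1⟩⟩, ⟨⟨1, 0, 0⟩, ⟨(-4766), 1024, 0⟩, ⟨0, 0, 1024⟩⟩, 1024, ⟨37, 1048576, 1⟩⟩))
    (.leaf (.psd ⟨⟨⟨1024, 0, 0⟩, ⟨2945, 1, 0⟩, ⟨0, 0, 1⟩⟩, ⟨⟨1, 0, 0⟩, ⟨(-2945), 1024, 0⟩, ⟨0, 0, 1024⟩⟩, 1024, ⟨1, 4096, 1⟩⟩)))
    (.leaf (.psd ⟨⟨⟨1024, 0, 0⟩, ⟨1812, 1, 0⟩, ⟨0, 0, 1⟩⟩, ⟨⟨1, 0, 0⟩, ⟨(-1812), 1024, 0⟩, ⟨0, 0, 1024⟩⟩, 1024, ⟨79, 1048576, 1⟩⟩))))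
    (.leaf (.psd ⟨⟨⟨1024, 0, 0⟩, ⟨1793, 1, 0⟩, ⟨0, 0, 1⟩⟩, ⟨⟨1, 0, 0⟩, ⟨(-1793), 1024, 0⟩, ⟨0, 0, 1024⟩⟩, 1024, ⟨1, 4096, 1⟩⟩)))
    (.node 3
    (.node 0
    (.node 3
    (.node 1
    (.node 3
    (.node 0
    (.node 3
    (.leaf (.psd ⟨⟨⟨529, 0, 0⟩, ⟨8190, 1, 0⟩, ⟨0, 0, 1⟩⟩, ⟨⟨1, 0, 0⟩, ⟨(-8190), 529, 0⟩, ⟨0, 0, 529⟩⟩, 529, ⟨20, 1048576, 1⟩⟩))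
    (.leaf (.psd ⟨⟨⟨906, 0, 0⟩, ⟨8189, 1, 0⟩, ⟨0, 0, 1⟩⟩, ⟨⟨1, 0, 0⟩, ⟨(-8189), 906, 0⟩, ⟨0, 0, 906⟩⟩, 906, ⟨48, 1048576, 1⟩⟩)))
    (.leaf (.psd ⟨⟨⟨1024, 0, 0⟩, ⟨7539, 1, 0⟩, ⟨0, 0, 1⟩⟩, ⟨⟨1, 0, 0⟩, ⟨(-7539), 1024, 0⟩, ⟨0, 0, 1024⟩⟩, 1024, ⟨16, 1048576, 1⟩⟩)))
    (.leaf (.psd ⟨⟨⟨1024, 0, 0⟩, ⟨4806, 1, 0⟩, ⟨0, 0, 1⟩⟩, ⟨⟨1, 0, 0⟩, ⟨(-4806), 1024, 0⟩, ⟨0, 0, 1024⟩⟩, 1024, ⟨77, 1048576, 1⟩⟩)))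
    (.node 0
    (.node 3
    (.node 3
    (.node 3
    (.node 1
    (.node 3
    (.leaf (.psd ⟨⟨⟨141, 0, 0⟩, ⟨8171, 1, 0⟩, ⟨0, 0, 1⟩⟩, ⟨⟨1, 0, 0⟩, ⟨(-8171), 141, 0⟩, ⟨0, 0, 141⟩⟩, 141, ⟨19, 1048576, 1⟩⟩))
    (.leaf (.psd ⟨⟨⟨247, 0, 0⟩, ⟨8168, 1, 0⟩, ⟨0, 0, 1⟩⟩, ⟨⟨1, 0, 0⟩, ⟨(-8168), 247, 0⟩, ⟨0, 0, 247⟩⟩, 247, ⟨46, 1048576, 1⟩⟩)))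
    (.node 3
    (.leaf (.skip 7))
    (.leaf (.psd ⟨⟨⟨206, 0, 0⟩, ⟨8175, 1, 0⟩, ⟨0, 0, 1⟩⟩, ⟨⟨1, 0, 0⟩, ⟨(-8175), 206, 0⟩, ⟨0, 0, 206⟩⟩, 206, ⟨50, 1048576, 1⟩⟩))))
    (.leaf (.psd ⟨⟨⟨420, 0, 0⟩, ⟨8174, 1, 0⟩, ⟨0, 0, 1⟩⟩, ⟨⟨1, 0, 0⟩, ⟨(-8174), 420, 0⟩, ⟨0, 0, 420⟩⟩, 420, ⟨50, 1048576, 1⟩⟩)))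
    (.leaf (.psd ⟨⟨⟨809, 0, 0⟩, ⟨8188, 1, 0⟩, ⟨0, 0, 1⟩⟩, ⟨⟨1, 0, 0⟩, ⟨(-8188), 809, 0⟩, ⟨0, 0, 809⟩⟩, 809, ⟨48, 1048576, 1⟩⟩)))
    (.leaf (.psd ⟨⟨⟨1024, 0, 0⟩, ⟨5247, 1, 0⟩, ⟨0, 0, 1⟩⟩, ⟨⟨1, 0, 0⟩, ⟨(-5247), 1024, 0⟩, ⟨0, 0, 1024⟩⟩, 1024, ⟨1, 4096, 1⟩⟩)))
    (.node 3
    (.node 3
    (.node 1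
    (.node 3
    (.leaf (.psd ⟨⟨⟨305, 0, 0⟩, ⟨8192, 1, 0⟩, ⟨0, 0, 1⟩⟩, ⟨⟨1, 0, 0⟩, ⟨(-8192), 305, 0⟩, ⟨0, 0, 305⟩⟩, 305, ⟨14, 1048576, 1⟩⟩))
    (.leaf (.psd ⟨⟨⟨575, 0, 0⟩, ⟨8185, 1, 0⟩, ⟨0, 0, 1⟩⟩, ⟨⟨1, 0, 0⟩, ⟨(-8185), 575, 0⟩, ⟨0, 0, 575⟩⟩, 575, ⟨37, 1048576, 1⟩⟩)))
    (.node 3
    (.node 3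
    (.node 3
    (.leaf (.skip 7))
    (.leaf (.psd ⟨⟨⟨140, 0, 0⟩, ⟨8172, 1, 0⟩, ⟨0, 0, 1⟩⟩, ⟨⟨1, 0, 0⟩, ⟨(-8172), 140, 0⟩, ⟨0, 0, 140⟩⟩, 140, ⟨39, 1048576, 1⟩⟩)))
    (.leaf (.psd ⟨⟨⟨267, 0, 0⟩, ⟨8190, 1, 0⟩, ⟨0, 0, 1⟩⟩, ⟨⟨1, 0, 0⟩, ⟨(-8190), 267, 0⟩, ⟨0, 0, 267⟩⟩, 267, ⟨38, 1048576, 1⟩⟩)))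
    (.leaf (.psd ⟨⟨⟨529, 0, 0⟩, ⟨8179, 1, 0⟩, ⟨0, 0, 1⟩⟩, ⟨⟨1, 0, 0⟩, ⟨(-8179), 529, 0⟩, ⟨0, 0, 529⟩⟩, 529, ⟨37, 1048576, 1⟩⟩))))
    (.leaf (.psd ⟨⟨⟨1024, 0, 0⟩, ⟨7759, 1, 0⟩, ⟨0, 0, 1⟩⟩, ⟨⟨1, 0, 0⟩, ⟨(-7759), 1024, 0⟩, ⟨0, 0, 1024⟩⟩, 1024, ⟨38, 1048576, 1⟩⟩)))
    (.leaf (.psd ⟨⟨⟨1024, 0, 0⟩, ⟨3731, 1, 0⟩, ⟨0, 0, 1⟩⟩, ⟨⟨1, 0, 0⟩, ⟨(-3731), 1024, 0⟩, ⟨0, 0, 1024⟩⟩, 1024, ⟨1, 4096, 1⟩⟩)))))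
    (.leaf (.psd ⟨⟨⟨1024, 0, 0⟩, ⟨2464, 1, 0⟩, ⟨0, 0, 1⟩⟩, ⟨⟨1, 0, 0⟩, ⟨(-2464), 1024, 0⟩, ⟨0, 0, 1024⟩⟩, 1024, ⟨1, 4096, 1⟩⟩)))
    (.node 1
    (.node 0
    (.node 3
    (.leaf (.psd ⟨⟨⟨1024, 0, 0⟩, ⟨3200, 1, 0⟩, ⟨0, 0, 1⟩⟩, ⟨⟨1, 0, 0⟩, ⟨(-3200), 1024, 0⟩, ⟨0, 0, 1024⟩⟩, 1024, ⟨25, 1048576, 1⟩⟩))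
    (.leaf (.psd ⟨⟨⟨1024, 0, 0⟩, ⟨1462, 1, 0⟩, ⟨0, 0, 1⟩⟩, ⟨⟨1, 0, 0⟩, ⟨(-1462), 1024, 0⟩, ⟨0, 0, 1024⟩⟩, 1024, ⟨1, 4096, 1⟩⟩)))
    (.leaf (.psd ⟨⟨⟨1024, 0, 0⟩, ⟨924, 1, 0⟩, ⟨0, 0, 1⟩⟩, ⟨⟨1, 0, 0⟩, ⟨(-924), 1024, 0⟩, ⟨0, 0, 1024⟩⟩, 1024, ⟨47, 1048576, 1⟩⟩)))
    (.node 0
    (.node 3
    (.node 3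
    (.node 1
    (.node 3
    (.leaf (.psd ⟨⟨⟨729, 0, 0⟩, ⟨8182, 1, 0⟩, ⟨0, 0, 1⟩⟩, ⟨⟨1, 0, 0⟩, ⟨(-8182), 729, 0⟩, ⟨0, 0, 729⟩⟩, 729, ⟨9, 1048576, 1⟩⟩))
    (.leaf (.psd ⟨⟨⟨1024, 0, 0⟩, ⟨5317, 1, 0⟩, ⟨0, 0, 1⟩⟩, ⟨⟨1, 0, 0⟩, ⟨(-5317), 1024, 0⟩, ⟨0, 0, 1024⟩⟩, 1024, ⟨39, 1048576, 1⟩⟩)))
    (.node 3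
    (.node 3
    (.node 3
    (.node 1
    (.leaf (.psd ⟨⟨⟨189, 0, 0⟩, ⟨8150, 1, 0⟩, ⟨0, 0, 1⟩⟩, ⟨⟨1, 0, 0⟩, ⟨(-8150), 189, 0⟩, ⟨0, 0, 189⟩⟩, 189, ⟨9, 1048576, 1⟩⟩))
    (.leaf (.skip 7)))
    (.leaf (.psd ⟨⟨⟨380, 0, 0⟩, ⟨8184, 1, 0⟩, ⟨0, 0, 1⟩⟩, ⟨⟨1, 0, 0⟩, ⟨(-8184), 380, 0⟩, ⟨0, 0, 380⟩⟩, 380, ⟨27, 1048576, 1⟩⟩)))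
    (.leaf (.psd ⟨⟨⟨774, 0, 0⟩, ⟨8187, 1, 0⟩, ⟨0, 0, 1⟩⟩, ⟨⟨1, 0, 0⟩, ⟨(-8187), 774, 0⟩, ⟨0, 0, 774⟩⟩, 774, ⟨26, 1048576, 1⟩⟩)))
    (.leaf (.psd ⟨⟨⟨1024, 0, 0⟩, ⟨4885, 1, 0⟩, ⟨0, 0, 1⟩⟩, ⟨⟨1, 0, 0⟩, ⟨(-4885), 1024, 0⟩, ⟨0, 0, 1024⟩⟩, 1024, ⟨39, 1048576, 1⟩⟩))))
    (.leaf (.psd ⟨⟨⟨1024, 0, 0⟩, ⟨2183, 1, 0⟩, ⟨0, 0, 1⟩⟩, ⟨⟨1, 0, 0⟩, ⟨(-2183), 1024, 0⟩, ⟨0, 0, 1024⟩⟩, 1024, ⟨1, 4096, 1⟩⟩)))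
    (.leaf (.psd ⟨⟨⟨1024, 0, 0⟩, ⟨729, 1, 0⟩, ⟨0, 0, 1⟩⟩, ⟨⟨1, 0, 0⟩, ⟨(-729), 1024, 0⟩, ⟨0, 0, 1024⟩⟩, 1024, ⟨1, 4096, 1⟩⟩)))
    (.node 3
    (.node 1
    (.leaf (.psd ⟨⟨⟨1, 0, 0⟩, ⟨0, 1, 0⟩, ⟨0, 0, 1⟩⟩, ⟨⟨1, 0, 0⟩, ⟨0, 1, 0⟩, ⟨0, 0, 1⟩⟩, 1, ⟨56, 4096, 1⟩⟩))
    (.node 3
    (.node 0
    (.node 3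
    (.node 3
    (.node 1
    (.leaf (.psd ⟨⟨⟨494, 0, 0⟩, ⟨8189, 1, 0⟩, ⟨0, 0, 1⟩⟩, ⟨⟨1, 0, 0⟩, ⟨(-8189), 494, 0⟩, ⟨0, 0, 494⟩⟩, 494, ⟨5, 1048576, 1⟩⟩))
    (.node 3
    (.leaf (.skip 7))
    (.leaf (.psd ⟨⟨⟨569, 0, 0⟩, ⟨8191, 1, 0⟩, ⟨0, 0, 1⟩⟩, ⟨⟨1, 0, 0⟩, ⟨(-8191), 569, 0⟩, ⟨0, 0, 569⟩⟩, 569, ⟨17, 1048576, 1⟩⟩))))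
    (.leaf (.psd ⟨⟨⟨1024, 0, 0⟩, ⟨6840, 1, 0⟩, ⟨0, 0, 1⟩⟩, ⟨⟨1, 0, 0⟩, ⟨(-6840), 1024, 0⟩, ⟨0, 0, 1024⟩⟩, 1024, ⟨20, 1048576, 1⟩⟩)))
    (.leaf (.psd ⟨⟨⟨1024, 0, 0⟩, ⟨2650, 1, 0⟩, ⟨0, 0, 1⟩⟩, ⟨⟨1, 0, 0⟩, ⟨(-2650), 1024, 0⟩, ⟨0, 0, 1024⟩⟩, 1024, ⟨1, 4096, 1⟩⟩)))
    (.node 3
    (.node 1
    (.leaf (.psd ⟨⟨⟨1024, 0, 0⟩, ⟨5607, 1, 0⟩, ⟨0, 0, 1⟩⟩, ⟨⟨1, 0, 0⟩, ⟨(-5607), 1024, 0⟩, ⟨0, 0, 1024⟩⟩, 1024, ⟨4, 1048576, 1⟩⟩))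
    (.node 3
    (.node 3
    (.leaf (.skip 7))
    (.leaf (.psd ⟨⟨⟨885, 0, 0⟩, ⟨8185, 1, 0⟩, ⟨0, 0, 1⟩⟩, ⟨⟨1, 0, 0⟩, ⟨(-8185), 885, 0⟩, ⟨0, 0, 885⟩⟩, 885, ⟨11, 1048576, 1⟩⟩)))
    (.leaf (.psd ⟨⟨⟨1024, 0, 0⟩, ⟨3662, 1, 0⟩, ⟨0, 0, 1⟩⟩, ⟨⟨1, 0, 0⟩, ⟨(-3662), 1024, 0⟩, ⟨0, 0, 1024⟩⟩, 1024, ⟨19, 1048576, 1⟩⟩))))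
    (.leaf (.psd ⟨⟨⟨1024, 0, 0⟩, ⟨1152, 1, 0⟩, ⟨0, 0, 1⟩⟩, ⟨⟨1, 0, 0⟩, ⟨(-1152), 1024, 0⟩, ⟨0, 0, 1024⟩⟩, 1024, ⟨1, 4096, 1⟩⟩))))
    (.leaf (.psd ⟨⟨⟨1024, 0, 0⟩, ⟨200, 1, 0⟩, ⟨0, 0, 1⟩⟩, ⟨⟨1, 0, 0⟩, ⟨(-200), 1024, 0⟩, ⟨0, 0, 1024⟩⟩, 1024, ⟨1, 4096, 1⟩⟩))))
    (.leaf (.psd ⟨⟨⟨1024, 0, 0⟩, ⟨(-207), 1, 0⟩, ⟨0, 0, 1⟩⟩, ⟨⟨1, 0, 0⟩, ⟨207, 1024, 0⟩, ⟨0, 0, 1024⟩⟩, 1024, ⟨1, 4096, 1⟩⟩))))))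
    (.leaf (.psd ⟨⟨⟨1024, 0, 0⟩, ⟨880, 1, 0⟩, ⟨0, 0, 1⟩⟩, ⟨⟨1, 0, 0⟩, ⟨(-880), 1024, 0⟩, ⟨0, 0, 1024⟩⟩, 1024, ⟨1, 4096, 1⟩⟩))))
    (.leaf (.psd ⟨⟨⟨1024, 0, 0⟩, ⟨945, 1, 0⟩, ⟨0, 0, 1⟩⟩, ⟨⟨1, 0, 0⟩, ⟨(-945), 1024, 0⟩, ⟨0, 0, 1024⟩⟩, 1024, ⟨442, 1048576, 1⟩⟩)))

theorem chunk0 : Check.Good ⟨false, false, false⟩ cfg (reach cfg base [(0, false)]) :=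
  Check.check_sound tree0 (by decide +kernel)

/-- A subtree. -/
def tree1 : Check.Tree Check.Leaf :=
  .node 3
    (.node 1
    (.leaf (.psd ⟨⟨⟨1024, 0, 0⟩, ⟨898, 1, 0⟩, ⟨0, 0, 1⟩⟩, ⟨⟨1, 0, 0⟩, ⟨(-898), 1024, 0⟩, ⟨0, 0, 1024⟩⟩, 1024, ⟨2, 4096, 1⟩⟩))
    (.node 0
    (.leaf (.psd ⟨⟨⟨1024, 0, 0⟩, ⟨394, 1, 0⟩, ⟨0, 0, 1⟩⟩, ⟨⟨1, 0, 0⟩, ⟨(-394), 1024, 0⟩, ⟨0, 0, 1024⟩⟩, 1024, ⟨1, 4096, 1⟩⟩))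
    (.node 1
    (.leaf (.psd ⟨⟨⟨1024, 0, 0⟩, ⟨(-60), 1, 0⟩, ⟨0, 0, 1⟩⟩, ⟨⟨1, 0, 0⟩, ⟨60, 1024, 0⟩, ⟨0, 0, 1024⟩⟩, 1024, ⟨1, 4096, 1⟩⟩))
    (.leaf (.psd ⟨⟨⟨1024, 0, 0⟩, ⟨(-798), 1, 0⟩, ⟨0, 0, 1⟩⟩, ⟨⟨1, 0, 0⟩, ⟨798, 1024, 0⟩, ⟨0, 0, 1024⟩⟩, 1024, ⟨217, 1048576, 1⟩⟩)))))
    (.leaf (.psd ⟨⟨⟨1024, 0, 0⟩, ⟨732, 1, 0⟩, ⟨0, 0, 1⟩⟩, ⟨⟨1, 0, 0⟩, ⟨(-732), 1024, 0⟩, ⟨0, 0, 1024⟩⟩, 1024, ⟨700, 1048576, 1⟩⟩))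

theorem chunk1 : Check.Good ⟨false, false, false⟩ cfg (reach cfg base [(1, false), (0, true)]) :=
  Check.check_sound tree1 (by decide +kernel)

/-- A subtree. -/
def tree2 : Check.Tree Check.Leaf :=
  .node 3
    (.node 0
    (.node 1
    (.leaf (.psd ⟨⟨⟨1024, 0, 0⟩, ⟨(-259), 1, 0⟩, ⟨0, 0, 1⟩⟩, ⟨⟨1, 0, 0⟩, ⟨259, 1024, 0⟩, ⟨0, 0, 1024⟩⟩, 1024, ⟨89, 1048576, 1⟩⟩))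
    (.node 3
    (.node 0
    (.node 3
    (.node 1
    (.leaf (.psd ⟨⟨⟨1024, 0, 0⟩, ⟨(-390), 1, 0⟩, ⟨0, 0, 1⟩⟩, ⟨⟨1, 0, 0⟩, ⟨390, 1024, 0⟩, ⟨0, 0, 1024⟩⟩, 1024, ⟨21, 1048576, 1⟩⟩))
    (.node 3
    (.node 0
    (.node 3
    (.node 1
    (.leaf (.psd ⟨⟨⟨1024, 0, 0⟩, ⟨2656, 1, 0⟩, ⟨0, 0, 1⟩⟩, ⟨⟨1, 0, 0⟩, ⟨(-2656), 1024, 0⟩, ⟨0, 0, 1024⟩⟩, 1024, ⟨4, 1048576, 1⟩⟩))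
    (.node 3
    (.node 3
    (.leaf (.skip 7))
    (.leaf (.psd ⟨⟨⟨1024, 0, 0⟩, ⟨4014, 1, 0⟩, ⟨0, 0, 1⟩⟩, ⟨⟨1, 0, 0⟩, ⟨(-4014), 1024, 0⟩, ⟨0, 0, 1024⟩⟩, 1024, ⟨10, 1048576, 1⟩⟩)))
    (.leaf (.psd ⟨⟨⟨1024, 0, 0⟩, ⟨739, 1, 0⟩, ⟨0, 0, 1⟩⟩, ⟨⟨1, 0, 0⟩, ⟨(-739), 1024, 0⟩, ⟨0, 0, 1024⟩⟩, 1024, ⟨20, 1048576, 1⟩⟩))))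
    (.leaf (.psd ⟨⟨⟨1024, 0, 0⟩, ⟨(-383), 1, 0⟩, ⟨0, 0, 1⟩⟩, ⟨⟨1, 0, 0⟩, ⟨383, 1024, 0⟩, ⟨0, 0, 1024⟩⟩, 1024, ⟨1, 4096, 1⟩⟩)))
    (.node 3
    (.node 1
    (.leaf (.psd ⟨⟨⟨1024, 0, 0⟩, ⟨(-357), 1, 0⟩, ⟨0, 0, 1⟩⟩, ⟨⟨1, 0, 0⟩, ⟨357, 1024, 0⟩, ⟨0, 0, 1024⟩⟩, 1024, ⟨5, 1048576, 1⟩⟩))
    (.node 3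
    (.node 3
    (.leaf (.skip 7))
    (.leaf (.psd ⟨⟨⟨1024, 0, 0⟩, ⟨(-1649), 1, 0⟩, ⟨0, 0, 1⟩⟩, ⟨⟨1, 0, 0⟩, ⟨1649, 1024, 0⟩, ⟨0, 0, 1024⟩⟩, 1024, ⟨11, 1048576, 1⟩⟩)))
    (.leaf (.psd ⟨⟨⟨1024, 0, 0⟩, ⟨(-2287), 1, 0⟩, ⟨0, 0, 1⟩⟩, ⟨⟨1, 0, 0⟩, ⟨2287, 1024, 0⟩, ⟨0, 0, 1024⟩⟩, 1024, ⟨1, 4096, 1⟩⟩))))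
    (.leaf (.psd ⟨⟨⟨1024, 0, 0⟩, ⟨(-1950), 1, 0⟩, ⟨0, 0, 1⟩⟩, ⟨⟨1, 0, 0⟩, ⟨1950, 1024, 0⟩, ⟨0, 0, 1024⟩⟩, 1024, ⟨1, 4096, 1⟩⟩))))
    (.leaf (.psd ⟨⟨⟨1024, 0, 0⟩, ⟨(-1520), 1, 0⟩, ⟨0, 0, 1⟩⟩, ⟨⟨1, 0, 0⟩, ⟨1520, 1024, 0⟩, ⟨0, 0, 1024⟩⟩, 1024, ⟨1, 4096, 1⟩⟩))))
    (.leaf (.psd ⟨⟨⟨1024, 0, 0⟩, ⟨(-1103), 1, 0⟩, ⟨0, 0, 1⟩⟩, ⟨⟨1, 0, 0⟩, ⟨1103, 1024, 0⟩, ⟨0, 0, 1024⟩⟩, 1024, ⟨1, 4096, 1⟩⟩)))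
    (.node 3
    (.node 1
    (.leaf (.psd ⟨⟨⟨1024, 0, 0⟩, ⟨(-2071), 1, 0⟩, ⟨0, 0, 1⟩⟩, ⟨⟨1, 0, 0⟩, ⟨2071, 1024, 0⟩, ⟨0, 0, 1024⟩⟩, 1024, ⟨26, 1048576, 1⟩⟩))
    (.node 3
    (.node 3
    (.node 1
    (.leaf (.psd ⟨⟨⟨1024, 0, 0⟩, ⟨(-4848), 1, 0⟩, ⟨0, 0, 1⟩⟩, ⟨⟨1, 0, 0⟩, ⟨4848, 1024, 0⟩, ⟨0, 0, 1024⟩⟩, 1024, ⟨5, 1048576, 1⟩⟩))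
    (.node 0
    (.node 3
    (.node 3
    (.leaf (.skip 7))
    (.leaf (.psd ⟨⟨⟨1024, 0, 0⟩, ⟨(-7524), 1, 0⟩, ⟨0, 0, 1⟩⟩, ⟨⟨1, 0, 0⟩, ⟨7524, 1024, 0⟩, ⟨0, 0, 1024⟩⟩, 1024, ⟨9, 1048576, 1⟩⟩)))
    (.leaf (.psd ⟨⟨⟨1024, 0, 0⟩, ⟨(-5405), 1, 0⟩, ⟨0, 0, 1⟩⟩, ⟨⟨1, 0, 0⟩, ⟨5405, 1024, 0⟩, ⟨0, 0, 1024⟩⟩, 1024, ⟨18, 1048576, 1⟩⟩)))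
    (.node 3
    (.node 3
    (.leaf (.skip 7))
    (.leaf (.psd ⟨⟨⟨616, 0, 0⟩, ⟨(-8180), 1, 0⟩, ⟨0, 0, 1⟩⟩, ⟨⟨1, 0, 0⟩, ⟨8180, 616, 0⟩, ⟨0, 0, 616⟩⟩, 616, ⟨16, 1048576, 1⟩⟩)))
    (.leaf (.psd ⟨⟨⟨977, 0, 0⟩, ⟨(-8191), 1, 0⟩, ⟨0, 0, 1⟩⟩, ⟨⟨1, 0, 0⟩, ⟨8191, 977, 0⟩, ⟨0, 0, 977⟩⟩, 977, ⟨19, 1048576, 1⟩⟩)))))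
    (.leaf (.psd ⟨⟨⟨1024, 0, 0⟩, ⟨(-4244), 1, 0⟩, ⟨0, 0, 1⟩⟩, ⟨⟨1, 0, 0⟩, ⟨4244, 1024, 0⟩, ⟨0, 0, 1024⟩⟩, 1024, ⟨36, 1048576, 1⟩⟩)))
    (.leaf (.psd ⟨⟨⟨1024, 0, 0⟩, ⟨(-3185), 1, 0⟩, ⟨0, 0, 1⟩⟩, ⟨⟨1, 0, 0⟩, ⟨3185, 1024, 0⟩, ⟨0, 0, 1024⟩⟩, 1024, ⟨1, 4096, 1⟩⟩))))
    (.leaf (.psd ⟨⟨⟨1024, 0, 0⟩, ⟨(-1898), 1, 0⟩, ⟨0, 0, 1⟩⟩, ⟨⟨1, 0, 0⟩, ⟨1898, 1024, 0⟩, ⟨0, 0, 1024⟩⟩, 1024, ⟨1, 4096, 1⟩⟩))))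
    (.leaf (.psd ⟨⟨⟨1024, 0, 0⟩, ⟨(-913), 1, 0⟩, ⟨0, 0, 1⟩⟩, ⟨⟨1, 0, 0⟩, ⟨913, 1024, 0⟩, ⟨0, 0, 1024⟩⟩, 1024, ⟨1, 4096, 1⟩⟩))))
    (.node 1
    (.node 3
    (.leaf (.psd ⟨⟨⟨1024, 0, 0⟩, ⟨(-1549), 1, 0⟩, ⟨0, 0, 1⟩⟩, ⟨⟨1, 0, 0⟩, ⟨1549, 1024, 0⟩, ⟨0, 0, 1024⟩⟩, 1024, ⟨66, 1048576, 1⟩⟩))
    (.leaf (.psd ⟨⟨⟨1024, 0, 0⟩, ⟨(-885), 1, 0⟩, ⟨0, 0, 1⟩⟩, ⟨⟨1, 0, 0⟩, ⟨885, 1024, 0⟩, ⟨0, 0, 1024⟩⟩, 1024, ⟨1, 4096, 1⟩⟩)))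
    (.node 3
    (.node 3
    (.node 0
    (.node 1
    (.leaf (.psd ⟨⟨⟨1024, 0, 0⟩, ⟨(-3688), 1, 0⟩, ⟨0, 0, 1⟩⟩, ⟨⟨1, 0, 0⟩, ⟨3688, 1024, 0⟩, ⟨0, 0, 1024⟩⟩, 1024, ⟨20, 1048576, 1⟩⟩))
    (.node 3
    (.node 3
    (.node 1
    (.node 3
    (.leaf (.psd ⟨⟨⟨484, 0, 0⟩, ⟨(-8190), 1, 0⟩, ⟨0, 0, 1⟩⟩, ⟨⟨1, 0, 0⟩, ⟨8190, 484, 0⟩, ⟨0, 0, 484⟩⟩, 484, ⟨6, 1048576, 1⟩⟩))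
    (.leaf (.psd ⟨⟨⟨812, 0, 0⟩, ⟨(-8190), 1, 0⟩, ⟨0, 0, 1⟩⟩, ⟨⟨1, 0, 0⟩, ⟨8190, 812, 0⟩, ⟨0, 0, 812⟩⟩, 812, ⟨24, 1048576, 1⟩⟩)))
    (.node 3
    (.node 0
    (.node 3
    (.leaf (.skip 7))
    (.leaf (.psd ⟨⟨⟨423, 0, 0⟩, ⟨(-8177), 1, 0⟩, ⟨0, 0, 1⟩⟩, ⟨⟨1, 0, 0⟩, ⟨8177, 423, 0⟩, ⟨0, 0, 423⟩⟩, 423, ⟨23, 1048576, 1⟩⟩)))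
    (.node 3
    (.node 1
    (.node 3
    (.leaf (.skip 7))
    (.leaf (.psd ⟨⟨⟨193, 0, 0⟩, ⟨(-8153), 1, 0⟩, ⟨0, 0, 1⟩⟩, ⟨⟨1, 0, 0⟩, ⟨8153, 193, 0⟩, ⟨0, 0, 193⟩⟩, 193, ⟨27, 1048576, 1⟩⟩)))
    (.leaf (.skip 7)))
    (.leaf (.psd ⟨⟨⟨323, 0, 0⟩, ⟨(-8179), 1, 0⟩, ⟨0, 0, 1⟩⟩, ⟨⟨1, 0, 0⟩, ⟨8179, 323, 0⟩, ⟨0, 0, 323⟩⟩, 323, ⟨32, 1048576, 1⟩⟩))))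
    (.leaf (.psd ⟨⟨⟨642, 0, 0⟩, ⟨(-8186), 1, 0⟩, ⟨0, 0, 1⟩⟩, ⟨⟨1, 0, 0⟩, ⟨8186, 642, 0⟩, ⟨0, 0, 642⟩⟩, 642, ⟨30, 1048576, 1⟩⟩))))
    (.leaf (.psd ⟨⟨⟨1024, 0, 0⟩, ⟨(-7277), 1, 0⟩, ⟨0, 0, 1⟩⟩, ⟨⟨1, 0, 0⟩, ⟨7277, 1024, 0⟩, ⟨0, 0, 1024⟩⟩, 1024, ⟨37, 1048576, 1⟩⟩)))
    (.leaf (.psd ⟨⟨⟨1024, 0, 0⟩, ⟨(-4570), 1, 0⟩, ⟨0, 0, 1⟩⟩, ⟨⟨1, 0, 0⟩, ⟨4570, 1024, 0⟩, ⟨0, 0, 1024⟩⟩, 1024, ⟨1, 4096, 1⟩⟩))))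
    (.node 3
    (.node 1
    (.node 3
    (.leaf (.psd ⟨⟨⟨781, 0, 0⟩, ⟨(-8182), 1, 0⟩, ⟨0, 0, 1⟩⟩, ⟨⟨1, 0, 0⟩, ⟨8182, 781, 0⟩, ⟨0, 0, 781⟩⟩, 781, ⟨12, 1048576, 1⟩⟩))
    (.leaf (.psd ⟨⟨⟨1024, 0, 0⟩, ⟨(-7192), 1, 0⟩, ⟨0, 0, 1⟩⟩, ⟨⟨1, 0, 0⟩, ⟨7192, 1024, 0⟩, ⟨0, 0, 1024⟩⟩, 1024, ⟨41, 1048576, 1⟩⟩)))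
    (.node 3
    (.node 3
    (.node 1
    (.node 0
    (.node 3
    (.leaf (.psd ⟨⟨⟨200, 0, 0⟩, ⟨(-8157), 1, 0⟩, ⟨0, 0, 1⟩⟩, ⟨⟨1, 0, 0⟩, ⟨8157, 200, 0⟩, ⟨0, 0, 200⟩⟩, 200, ⟨11, 1048576, 1⟩⟩))
    (.leaf (.psd ⟨⟨⟨346, 0, 0⟩, ⟨(-8179), 1, 0⟩, ⟨0, 0, 1⟩⟩, ⟨⟨1, 0, 0⟩, ⟨8179, 346, 0⟩, ⟨0, 0, 346⟩⟩, 346, ⟨32, 1048576, 1⟩⟩)))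
    (.node 3
    (.node 1
    (.leaf (.psd ⟨⟨⟨178, 0, 0⟩, ⟨(-8184), 1, 0⟩, ⟨0, 0, 1⟩⟩, ⟨⟨1, 0, 0⟩, ⟨8184, 178, 0⟩, ⟨0, 0, 178⟩⟩, 178, ⟨19, 1048576, 1⟩⟩))
    (.leaf (.psd ⟨⟨⟨136, 0, 0⟩, ⟨(-8173), 1, 0⟩, ⟨0, 0, 1⟩⟩, ⟨⟨1, 0, 0⟩, ⟨8173, 136, 0⟩, ⟨0, 0, 136⟩⟩, 136, ⟨15, 1048576, 1⟩⟩)))
    (.leaf (.psd ⟨⟨⟨284, 0, 0⟩, ⟨(-8178), 1, 0⟩, ⟨0, 0, 1⟩⟩, ⟨⟨1, 0, 0⟩, ⟨8178, 284, 0⟩, ⟨0, 0, 284⟩⟩, 284, ⟨42, 1048576, 1⟩⟩))))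
    (.node 3
    (.node 0
    (.node 3
    (.leaf (.skip 7))
    (.leaf (.psd ⟨⟨⟨143, 0, 0⟩, ⟨(-8154), 1, 0⟩, ⟨0, 0, 1⟩⟩, ⟨⟨1, 0, 0⟩, ⟨8154, 143, 0⟩, ⟨0, 0, 143⟩⟩, 143, ⟨39, 1048576, 1⟩⟩)))
    (.node 3
    (.leaf (.skip 7))
    (.leaf (.psd ⟨⟨⟨122, 0, 0⟩, ⟨(-8156), 1, 0⟩, ⟨0, 0, 1⟩⟩, ⟨⟨1, 0, 0⟩, ⟨8156, 122, 0⟩, ⟨0, 0, 122⟩⟩, 122, ⟨50, 1048576, 1⟩⟩))))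
    (.leaf (.psd ⟨⟨⟨250, 0, 0⟩, ⟨(-8183), 1, 0⟩, ⟨0, 0, 1⟩⟩, ⟨⟨1, 0, 0⟩, ⟨8183, 250, 0⟩, ⟨0, 0, 250⟩⟩, 250, ⟨45, 1048576, 1⟩⟩))))
    (.leaf (.psd ⟨⟨⟨499, 0, 0⟩, ⟨(-8185), 1, 0⟩, ⟨0, 0, 1⟩⟩, ⟨⟨1, 0, 0⟩, ⟨8185, 499, 0⟩, ⟨0, 0, 499⟩⟩, 499, ⟨45, 1048576, 1⟩⟩)))
    (.leaf (.psd ⟨⟨⟨881, 0, 0⟩, ⟨(-8185), 1, 0⟩, ⟨0, 0, 1⟩⟩, ⟨⟨1, 0, 0⟩, ⟨8185, 881, 0⟩, ⟨0, 0, 881⟩⟩, 881, ⟨55, 1048576, 1⟩⟩))))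
    (.leaf (.psd ⟨⟨⟨1024, 0, 0⟩, ⟨(-4920), 1, 0⟩, ⟨0, 0, 1⟩⟩, ⟨⟨1, 0, 0⟩, ⟨4920, 1024, 0⟩, ⟨0, 0, 1024⟩⟩, 1024, ⟨1, 4096, 1⟩⟩))))
    (.leaf (.psd ⟨⟨⟨1024, 0, 0⟩, ⟨(-2582), 1, 0⟩, ⟨0, 0, 1⟩⟩, ⟨⟨1, 0, 0⟩, ⟨2582, 1024, 0⟩, ⟨0, 0, 1024⟩⟩, 1024, ⟨1, 4096, 1⟩⟩)))
    (.leaf (.psd ⟨⟨⟨1024, 0, 0⟩, ⟨(-1277), 1, 0⟩, ⟨0, 0, 1⟩⟩, ⟨⟨1, 0, 0⟩, ⟨1277, 1024, 0⟩, ⟨0, 0, 1024⟩⟩, 1024, ⟨2, 4096, 1⟩⟩)))))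
    (.leaf (.psd ⟨⟨⟨1024, 0, 0⟩, ⟨(-173), 1, 0⟩, ⟨0, 0, 1⟩⟩, ⟨⟨1, 0, 0⟩, ⟨173, 1024, 0⟩, ⟨0, 0, 1024⟩⟩, 1024, ⟨3, 4096, 1⟩⟩))

theorem chunk2 : Check.Good ⟨false, false, false⟩ cfg (reach cfg base [(0, false), (1, true), (0, true)]) :=
  Check.check_sound tree2 (by decide +kernel)

/-- A subtree. -/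
def tree3 : Check.Tree Check.Leaf :=
  .node 0
    (.node 1
    (.leaf (.psd ⟨⟨⟨1024, 0, 0⟩, ⟨(-2233), 1, 0⟩, ⟨0, 0, 1⟩⟩, ⟨⟨1, 0, 0⟩, ⟨2233, 1024, 0⟩, ⟨0, 0, 1024⟩⟩, 1024, ⟨102, 1048576, 1⟩⟩))
    (.node 3
    (.node 0
    (.leaf (.psd ⟨⟨⟨1024, 0, 0⟩, ⟨(-4614), 1, 0⟩, ⟨0, 0, 1⟩⟩, ⟨⟨1, 0, 0⟩, ⟨4614, 1024, 0⟩, ⟨0, 0, 1024⟩⟩, 1024, ⟨40, 1048576, 1⟩⟩))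
    (.node 3
    (.leaf (.psd ⟨⟨⟨1024, 0, 0⟩, ⟨(-8034), 1, 0⟩, ⟨0, 0, 1⟩⟩, ⟨⟨1, 0, 0⟩, ⟨8034, 1024, 0⟩, ⟨0, 0, 1024⟩⟩, 1024, ⟨32, 1048576, 1⟩⟩))
    (.leaf (.psd ⟨⟨⟨1024, 0, 0⟩, ⟨(-4988), 1, 0⟩, ⟨0, 0, 1⟩⟩, ⟨⟨1, 0, 0⟩, ⟨4988, 1024, 0⟩, ⟨0, 0, 1024⟩⟩, 1024, ⟨1, 4096, 1⟩⟩))))
    (.leaf (.psd ⟨⟨⟨1024, 0, 0⟩, ⟨(-2631), 1, 0⟩, ⟨0, 0, 1⟩⟩, ⟨⟨1, 0, 0⟩, ⟨2631, 1024, 0⟩, ⟨0, 0, 1024⟩⟩, 1024, ⟨1, 4096, 1⟩⟩))))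
    (.node 3
    (.node 1
    (.leaf (.psd ⟨⟨⟨1024, 0, 0⟩, ⟨(-4176), 1, 0⟩, ⟨0, 0, 1⟩⟩, ⟨⟨1, 0, 0⟩, ⟨4176, 1024, 0⟩, ⟨0, 0, 1024⟩⟩, 1024, ⟨160, 1048576, 1⟩⟩))
    (.node 0
    (.node 3
    (.node 3
    (.leaf (.psd ⟨⟨⟨738, 0, 0⟩, ⟨(-8184), 1, 0⟩, ⟨0, 0, 1⟩⟩, ⟨⟨1, 0, 0⟩, ⟨8184, 738, 0⟩, ⟨0, 0, 738⟩⟩, 738, ⟨44, 1048576, 1⟩⟩))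
    (.leaf (.psd ⟨⟨⟨1018, 0, 0⟩, ⟨(-8190), 1, 0⟩, ⟨0, 0, 1⟩⟩, ⟨⟨1, 0, 0⟩, ⟨8190, 1018, 0⟩, ⟨0, 0, 1018⟩⟩, 1018, ⟨126, 1048576, 1⟩⟩)))
    (.leaf (.psd ⟨⟨⟨1024, 0, 0⟩, ⟨(-4768), 1, 0⟩, ⟨0, 0, 1⟩⟩, ⟨⟨1, 0, 0⟩, ⟨4768, 1024, 0⟩, ⟨0, 0, 1024⟩⟩, 1024, ⟨1, 4096, 1⟩⟩)))
    (.node 3
    (.node 3
    (.leaf (.psd ⟨⟨⟨1024, 0, 0⟩, ⟨(-7798), 1, 0⟩, ⟨0, 0, 1⟩⟩, ⟨⟨1, 0, 0⟩, ⟨7798, 1024, 0⟩, ⟨0, 0, 1024⟩⟩, 1024, ⟨138, 1048576, 1⟩⟩))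
    (.leaf (.psd ⟨⟨⟨1024, 0, 0⟩, ⟨(-6010), 1, 0⟩, ⟨0, 0, 1⟩⟩, ⟨⟨1, 0, 0⟩, ⟨6010, 1024, 0⟩, ⟨0, 0, 1024⟩⟩, 1024, ⟨224, 1048576, 1⟩⟩)))
    (.node 3
    (.leaf (.psd ⟨⟨⟨1024, 0, 0⟩, ⟨(-4176), 1, 0⟩, ⟨0, 0, 1⟩⟩, ⟨⟨1, 0, 0⟩, ⟨4176, 1024, 0⟩, ⟨0, 0, 1024⟩⟩, 1024, ⟨336, 1048576, 1⟩⟩))
    (.leaf (.psd ⟨⟨⟨1024, 0, 0⟩, ⟨(-3017), 1, 0⟩, ⟨0, 0, 1⟩⟩, ⟨⟨1, 0, 0⟩, ⟨3017, 1024, 0⟩, ⟨0, 0, 1024⟩⟩, 1024, ⟨472, 1048576, 1⟩⟩))))))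
    (.node 0
    (.leaf (.psd ⟨⟨⟨1024, 0, 0⟩, ⟨(-2369), 1, 0⟩, ⟨0, 0, 1⟩⟩, ⟨⟨1, 0, 0⟩, ⟨2369, 1024, 0⟩, ⟨0, 0, 1024⟩⟩, 1024, ⟨475, 1048576, 1⟩⟩))
    (.node 1
    (.leaf (.psd ⟨⟨⟨1024, 0, 0⟩, ⟨(-2326), 1, 0⟩, ⟨0, 0, 1⟩⟩, ⟨⟨1, 0, 0⟩, ⟨2326, 1024, 0⟩, ⟨0, 0, 1024⟩⟩, 1024, ⟨485, 1048576, 1⟩⟩))
    (.node 3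
    (.node 0
    (.leaf (.psd ⟨⟨⟨1024, 0, 0⟩, ⟨(-2256), 1, 0⟩, ⟨0, 0, 1⟩⟩, ⟨⟨1, 0, 0⟩, ⟨2256, 1024, 0⟩, ⟨0, 0, 1024⟩⟩, 1024, ⟨2, 4096, 1⟩⟩))
    (.node 1
    (.leaf (.psd ⟨⟨⟨1024, 0, 0⟩, ⟨(-2082), 1, 0⟩, ⟨0, 0, 1⟩⟩, ⟨⟨1, 0, 0⟩, ⟨2082, 1024, 0⟩, ⟨0, 0, 1024⟩⟩, 1024, ⟨2, 4096, 1⟩⟩))
    (.node 3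
    (.leaf (.psd ⟨⟨⟨1024, 0, 0⟩, ⟨(-1578), 1, 0⟩, ⟨0, 0, 1⟩⟩, ⟨⟨1, 0, 0⟩, ⟨1578, 1024, 0⟩, ⟨0, 0, 1024⟩⟩, 1024, ⟨3, 4096, 1⟩⟩))
    (.leaf (.psd ⟨⟨⟨1024, 0, 0⟩, ⟨(-1257), 1, 0⟩, ⟨0, 0, 1⟩⟩, ⟨⟨1, 0, 0⟩, ⟨1257, 1024, 0⟩, ⟨0, 0, 1024⟩⟩, 1024, ⟨4, 4096, 1⟩⟩)))))
    (.node 0
    (.leaf (.psd ⟨⟨⟨1024, 0, 0⟩, ⟨(-1517), 1, 0⟩, ⟨0, 0, 1⟩⟩, ⟨⟨1, 0, 0⟩, ⟨1517, 1024, 0⟩, ⟨0, 0, 1024⟩⟩, 1024, ⟨3, 4096, 1⟩⟩))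
    (.node 1
    (.leaf (.psd ⟨⟨⟨1024, 0, 0⟩, ⟨(-1405), 1, 0⟩, ⟨0, 0, 1⟩⟩, ⟨⟨1, 0, 0⟩, ⟨1405, 1024, 0⟩, ⟨0, 0, 1024⟩⟩, 1024, ⟨3, 4096, 1⟩⟩))
    (.leaf (.psd ⟨⟨⟨1024, 0, 0⟩, ⟨(-937), 1, 0⟩, ⟨0, 0, 1⟩⟩, ⟨⟨1, 0, 0⟩, ⟨937, 1024, 0⟩, ⟨0, 0, 1024⟩⟩, 1024, ⟨5, 4096, 1⟩⟩))))))))

theorem chunk3 : Check.Good ⟨false, false, false⟩ cfg (reach cfg base [(1, false), (3, false), (3, false), (0, true), (1, true), (0, true)]) :=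
  Check.check_sound tree3 (by decide +kernel)

/-- A subtree. -/
def tree4 : Check.Tree Check.Leaf :=
  .node 3
    (.node 3
    (.node 1
    (.node 0
    (.node 3
    (.node 1
    (.leaf (.psd ⟨⟨⟨605, 0, 0⟩, ⟨(-8182), 1, 0⟩, ⟨0, 0, 1⟩⟩, ⟨⟨1, 0, 0⟩, ⟨8182, 605, 0⟩, ⟨0, 0, 605⟩⟩, 605, ⟨24, 1048576, 1⟩⟩))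
    (.node 3
    (.leaf (.psd ⟨⟨⟨290, 0, 0⟩, ⟨(-8180), 1, 0⟩, ⟨0, 0, 1⟩⟩, ⟨⟨1, 0, 0⟩, ⟨8180, 290, 0⟩, ⟨0, 0, 290⟩⟩, 290, ⟨21, 1048576, 1⟩⟩))
    (.leaf (.psd ⟨⟨⟨495, 0, 0⟩, ⟨(-8182), 1, 0⟩, ⟨0, 0, 1⟩⟩, ⟨⟨1, 0, 0⟩, ⟨8182, 495, 0⟩, ⟨0, 0, 495⟩⟩, 495, ⟨51, 1048576, 1⟩⟩))))
    (.leaf (.psd ⟨⟨⟨910, 0, 0⟩, ⟨(-8190), 1, 0⟩, ⟨0, 0, 1⟩⟩, ⟨⟨1, 0, 0⟩, ⟨8190, 910, 0⟩, ⟨0, 0, 910⟩⟩, 910, ⟨56, 1048576, 1⟩⟩)))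
    (.node 3
    (.node 1
    (.leaf (.psd ⟨⟨⟨473, 0, 0⟩, ⟨(-8180), 1, 0⟩, ⟨0, 0, 1⟩⟩, ⟨⟨1, 0, 0⟩, ⟨8180, 473, 0⟩, ⟨0, 0, 473⟩⟩, 473, ⟨42, 1048576, 1⟩⟩))
    (.node 3
    (.node 0
    (.node 3
    (.leaf (.psd ⟨⟨⟨161, 0, 0⟩, ⟨(-8165), 1, 0⟩, ⟨0, 0, 1⟩⟩, ⟨⟨1, 0, 0⟩, ⟨8165, 161, 0⟩, ⟨0, 0, 161⟩⟩, 161, ⟨32, 1048576, 1⟩⟩))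
    (.leaf (.psd ⟨⟨⟨262, 0, 0⟩, ⟨(-8165), 1, 0⟩, ⟨0, 0, 1⟩⟩, ⟨⟨1, 0, 0⟩, ⟨8165, 262, 0⟩, ⟨0, 0, 262⟩⟩, 262, ⟨65, 1048576, 1⟩⟩)))
    (.node 3
    (.leaf (.psd ⟨⟨⟨167, 0, 0⟩, ⟨(-8160), 1, 0⟩, ⟨0, 0, 1⟩⟩, ⟨⟨1, 0, 0⟩, ⟨8160, 167, 0⟩, ⟨0, 0, 167⟩⟩, 167, ⟨42, 1048576, 1⟩⟩))
    (.leaf (.psd ⟨⟨⟨276, 0, 0⟩, ⟨(-8186), 1, 0⟩, ⟨0, 0, 1⟩⟩, ⟨⟨1, 0, 0⟩, ⟨8186, 276, 0⟩, ⟨0, 0, 276⟩⟩, 276, ⟨107, 1048576, 1⟩⟩))))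
    (.leaf (.psd ⟨⟨⟨470, 0, 0⟩, ⟨(-8175), 1, 0⟩, ⟨0, 0, 1⟩⟩, ⟨⟨1, 0, 0⟩, ⟨8175, 470, 0⟩, ⟨0, 0, 470⟩⟩, 470, ⟨133, 1048576, 1⟩⟩))))
    (.leaf (.psd ⟨⟨⟨888, 0, 0⟩, ⟨(-8185), 1, 0⟩, ⟨0, 0, 1⟩⟩, ⟨⟨1, 0, 0⟩, ⟨8185, 888, 0⟩, ⟨0, 0, 888⟩⟩, 888, ⟨143, 1048576, 1⟩⟩))))
    (.node 0
    (.node 3
    (.node 3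
    (.node 1
    (.node 0
    (.node 3
    (.node 1
    (.leaf (.psd ⟨⟨⟨143, 0, 0⟩, ⟨(-8146), 1, 0⟩, ⟨0, 0, 1⟩⟩, ⟨⟨1, 0, 0⟩, ⟨8146, 143, 0⟩, ⟨0, 0, 143⟩⟩, 143, ⟨22, 1048576, 1⟩⟩))
    (.node 3
    (.leaf (.psd ⟨⟨⟨69, 0, 0⟩, ⟨(-8160), 1, 0⟩, ⟨0, 0, 1⟩⟩, ⟨⟨1, 0, 0⟩, ⟨8160, 69, 0⟩, ⟨0, 0, 69⟩⟩, 69, ⟨21, 1048576, 1⟩⟩))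
    (.leaf (.psd ⟨⟨⟨129, 0, 0⟩, ⟨(-8146), 1, 0⟩, ⟨0, 0, 1⟩⟩, ⟨⟨1, 0, 0⟩, ⟨8146, 129, 0⟩, ⟨0, 0, 129⟩⟩, 129, ⟨52, 1048576, 1⟩⟩))))
    (.leaf (.psd ⟨⟨⟨246, 0, 0⟩, ⟨(-8166), 1, 0⟩, ⟨0, 0, 1⟩⟩, ⟨⟨1, 0, 0⟩, ⟨8166, 246, 0⟩, ⟨0, 0, 246⟩⟩, 246, ⟨52, 1048576, 1⟩⟩)))
    (.node 3
    (.node 1
    (.leaf (.psd ⟨⟨⟨123, 0, 0⟩, ⟨(-8158), 1, 0⟩, ⟨0, 0, 1⟩⟩, ⟨⟨1, 0, 0⟩, ⟨8158, 123, 0⟩, ⟨0, 0, 123⟩⟩, 123, ⟨26, 1048576, 1⟩⟩))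
    (.node 3
    (.node 3
    (.leaf (.skip 7))
    (.leaf (.psd ⟨⟨⟨68, 0, 0⟩, ⟨(-8187), 1, 0⟩, ⟨0, 0, 1⟩⟩, ⟨⟨1, 0, 0⟩, ⟨8187, 68, 0⟩, ⟨0, 0, 68⟩⟩, 68, ⟨63, 1048576, 1⟩⟩)))
    (.leaf (.psd ⟨⟨⟨119, 0, 0⟩, ⟨(-8141), 1, 0⟩, ⟨0, 0, 1⟩⟩, ⟨⟨1, 0, 0⟩, ⟨8141, 119, 0⟩, ⟨0, 0, 119⟩⟩, 119, ⟨72, 1048576, 1⟩⟩))))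
    (.leaf (.psd ⟨⟨⟨230, 0, 0⟩, ⟨(-8174), 1, 0⟩, ⟨0, 0, 1⟩⟩, ⟨⟨1, 0, 0⟩, ⟨8174, 230, 0⟩, ⟨0, 0, 230⟩⟩, 230, ⟨77, 1048576, 1⟩⟩))))
    (.node 3
    (.node 0
    (.node 3
    (.leaf (.skip 7))
    (.leaf (.psd ⟨⟨⟨112, 0, 0⟩, ⟨(-8172), 1, 0⟩, ⟨0, 0, 1⟩⟩, ⟨⟨1, 0, 0⟩, ⟨8172, 112, 0⟩, ⟨0, 0, 112⟩⟩, 112, ⟨70, 1048576, 1⟩⟩)))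
    (.node 3
    (.leaf (.skip 7))
    (.leaf (.psd ⟨⟨⟨113, 0, 0⟩, ⟨(-8161), 1, 0⟩, ⟨0, 0, 1⟩⟩, ⟨⟨1, 0, 0⟩, ⟨8161, 113, 0⟩, ⟨0, 0, 113⟩⟩, 113, ⟨110, 1048576, 1⟩⟩))))
    (.leaf (.psd ⟨⟨⟨222, 0, 0⟩, ⟨(-8167), 1, 0⟩, ⟨0, 0, 1⟩⟩, ⟨⟨1, 0, 0⟩, ⟨8167, 222, 0⟩, ⟨0, 0, 222⟩⟩, 222, ⟨119, 1048576, 1⟩⟩))))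
    (.leaf (.psd ⟨⟨⟨443, 0, 0⟩, ⟨(-8188), 1, 0⟩, ⟨0, 0, 1⟩⟩, ⟨⟨1, 0, 0⟩, ⟨8188, 443, 0⟩, ⟨0, 0, 443⟩⟩, 443, ⟨124, 1048576, 1⟩⟩)))
    (.leaf (.psd ⟨⟨⟨870, 0, 0⟩, ⟨(-8186), 1, 0⟩, ⟨0, 0, 1⟩⟩, ⟨⟨1, 0, 0⟩, ⟨8186, 870, 0⟩, ⟨0, 0, 870⟩⟩, 870, ⟨132, 1048576, 1⟩⟩)))
    (.node 3
    (.node 3
    (.node 1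
    (.node 0
    (.node 3
    (.node 3
    (.node 1
    (.leaf (.psd ⟨⟨⟨76, 0, 0⟩, ⟨(-8166), 1, 0⟩, ⟨0, 0, 1⟩⟩, ⟨⟨1, 0, 0⟩, ⟨8166, 76, 0⟩, ⟨0, 0, 76⟩⟩, 76, ⟨40, 1048576, 1⟩⟩))
    (.node 3
    (.leaf (.skip 7))
    (.leaf (.psd ⟨⟨⟨70, 0, 0⟩, ⟨(-8136), 1, 0⟩, ⟨0, 0, 1⟩⟩, ⟨⟨1, 0, 0⟩, ⟨8136, 70, 0⟩, ⟨0, 0, 70⟩⟩, 70, ⟨89, 1048576, 1⟩⟩))))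
    (.leaf (.psd ⟨⟨⟨130, 0, 0⟩, ⟨(-8189), 1, 0⟩, ⟨0, 0, 1⟩⟩, ⟨⟨1, 0, 0⟩, ⟨8189, 130, 0⟩, ⟨0, 0, 130⟩⟩, 130, ⟨96, 1048576, 1⟩⟩)))
    (.leaf (.psd ⟨⟨⟨240, 0, 0⟩, ⟨(-8168), 1, 0⟩, ⟨0, 0, 1⟩⟩, ⟨⟨1, 0, 0⟩, ⟨8168, 240, 0⟩, ⟨0, 0, 240⟩⟩, 240, ⟨116, 1048576, 1⟩⟩)))
    (.node 3
    (.node 3
    (.node 1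
    (.leaf (.psd ⟨⟨⟨94, 0, 0⟩, ⟨(-8113), 1, 0⟩, ⟨0, 0, 1⟩⟩, ⟨⟨1, 0, 0⟩, ⟨8113, 94, 0⟩, ⟨0, 0, 94⟩⟩, 94, ⟨52, 1048576, 1⟩⟩))
    (.node 3
    (.node 3
    (.leaf (.skip 7))
    (.leaf (.psd ⟨⟨⟨62, 0, 0⟩, ⟨(-8134), 1, 0⟩, ⟨0, 0, 1⟩⟩, ⟨⟨1, 0, 0⟩, ⟨8134, 62, 0⟩, ⟨0, 0, 62⟩⟩, 62, ⟨80, 1048576, 1⟩⟩)))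
    (.leaf (.psd ⟨⟨⟨94, 0, 0⟩, ⟨(-8169), 1, 0⟩, ⟨0, 0, 1⟩⟩, ⟨⟨1, 0, 0⟩, ⟨8169, 94, 0⟩, ⟨0, 0, 94⟩⟩, 94, ⟨107, 1048576, 1⟩⟩))))
    (.leaf (.psd ⟨⟨⟨160, 0, 0⟩, ⟨(-8174), 1, 0⟩, ⟨0, 0, 1⟩⟩, ⟨⟨1, 0, 0⟩, ⟨8174, 160, 0⟩, ⟨0, 0, 160⟩⟩, 160, ⟨129, 1048576, 1⟩⟩)))
    (.leaf (.psd ⟨⟨⟨295, 0, 0⟩, ⟨(-8174), 1, 0⟩, ⟨0, 0, 1⟩⟩, ⟨⟨1, 0, 0⟩, ⟨8174, 295, 0⟩, ⟨0, 0, 295⟩⟩, 295, ⟨137, 1048576, 1⟩⟩))))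
    (.node 0
    (.node 3
    (.node 3
    (.leaf (.skip 7))
    (.leaf (.psd ⟨⟨⟨132, 0, 0⟩, ⟨(-8178), 1, 0⟩, ⟨0, 0, 1⟩⟩, ⟨⟨1, 0, 0⟩, ⟨8178, 132, 0⟩, ⟨0, 0, 132⟩⟩, 132, ⟨136, 1048576, 1⟩⟩)))
    (.leaf (.psd ⟨⟨⟨272, 0, 0⟩, ⟨(-8181), 1, 0⟩, ⟨0, 0, 1⟩⟩, ⟨⟨1, 0, 0⟩, ⟨8181, 272, 0⟩, ⟨0, 0, 272⟩⟩, 272, ⟨130, 1048576, 1⟩⟩)))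
    (.node 3
    (.node 3
    (.leaf (.skip 7))
    (.node 1
    (.leaf (.psd ⟨⟨⟨176, 0, 0⟩, ⟨(-8146), 1, 0⟩, ⟨0, 0, 1⟩⟩, ⟨⟨1, 0, 0⟩, ⟨8146, 176, 0⟩, ⟨0, 0, 176⟩⟩, 176, ⟨132, 1048576, 1⟩⟩))
    (.leaf (.skip 7))))
    (.node 3
    (.leaf (.psd ⟨⟨⟨314, 0, 0⟩, ⟨(-8189), 1, 0⟩, ⟨0, 0, 1⟩⟩, ⟨⟨1, 0, 0⟩, ⟨8189, 314, 0⟩, ⟨0, 0, 314⟩⟩, 314, ⟨157, 1048576, 1⟩⟩))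
    (.leaf (.psd ⟨⟨⟨446, 0, 0⟩, ⟨(-8187), 1, 0⟩, ⟨0, 0, 1⟩⟩, ⟨⟨1, 0, 0⟩, ⟨8187, 446, 0⟩, ⟨0, 0, 446⟩⟩, 446, ⟨167, 1048576, 1⟩⟩))))))
    (.node 0
    (.leaf (.psd ⟨⟨⟨516, 0, 0⟩, ⟨(-8186), 1, 0⟩, ⟨0, 0, 1⟩⟩, ⟨⟨1, 0, 0⟩, ⟨8186, 516, 0⟩, ⟨0, 0, 516⟩⟩, 516, ⟨139, 1048576, 1⟩⟩))
    (.node 1
    (.leaf (.psd ⟨⟨⟨596, 0, 0⟩, ⟨(-8190), 1, 0⟩, ⟨0, 0, 1⟩⟩, ⟨⟨1, 0, 0⟩, ⟨8190, 596, 0⟩, ⟨0, 0, 596⟩⟩, 596, ⟨126, 1048576, 1⟩⟩))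
    (.node 3
    (.leaf (.psd ⟨⟨⟨664, 0, 0⟩, ⟨(-8185), 1, 0⟩, ⟨0, 0, 1⟩⟩, ⟨⟨1, 0, 0⟩, ⟨8185, 664, 0⟩, ⟨0, 0, 664⟩⟩, 664, ⟨150, 1048576, 1⟩⟩))
    (.leaf (.psd ⟨⟨⟨950, 0, 0⟩, ⟨(-8192), 1, 0⟩, ⟨0, 0, 1⟩⟩, ⟨⟨1, 0, 0⟩, ⟨8192, 950, 0⟩, ⟨0, 0, 950⟩⟩, 950, ⟨160, 1048576, 1⟩⟩))))))
    (.node 3
    (.leaf (.psd ⟨⟨⟨975, 0, 0⟩, ⟨(-8187), 1, 0⟩, ⟨0, 0, 1⟩⟩, ⟨⟨1, 0, 0⟩, ⟨8187, 975, 0⟩, ⟨0, 0, 975⟩⟩, 975, ⟨161, 1048576, 1⟩⟩))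
    (.leaf (.psd ⟨⟨⟨1024, 0, 0⟩, ⟨(-6017), 1, 0⟩, ⟨0, 0, 1⟩⟩, ⟨⟨1, 0, 0⟩, ⟨6017, 1024, 0⟩, ⟨0, 0, 1024⟩⟩, 1024, ⟨229, 1048576, 1⟩⟩))))))
    (.node 0
    (.leaf (.psd ⟨⟨⟨1024, 0, 0⟩, ⟨(-5027), 1, 0⟩, ⟨0, 0, 1⟩⟩, ⟨⟨1, 0, 0⟩, ⟨5027, 1024, 0⟩, ⟨0, 0, 1024⟩⟩, 1024, ⟨1, 4096, 1⟩⟩))
    (.node 1
    (.leaf (.psd ⟨⟨⟨1024, 0, 0⟩, ⟨(-4722), 1, 0⟩, ⟨0, 0, 1⟩⟩, ⟨⟨1, 0, 0⟩, ⟨4722, 1024, 0⟩, ⟨0, 0, 1024⟩⟩, 1024, ⟨1, 4096, 1⟩⟩))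
    (.node 3
    (.node 0
    (.leaf (.psd ⟨⟨⟨1024, 0, 0⟩, ⟨(-4607), 1, 0⟩, ⟨0, 0, 1⟩⟩, ⟨⟨1, 0, 0⟩, ⟨4607, 1024, 0⟩, ⟨0, 0, 1024⟩⟩, 1024, ⟨1, 4096, 1⟩⟩))
    (.node 1
    (.leaf (.psd ⟨⟨⟨1024, 0, 0⟩, ⟨(-3951), 1, 0⟩, ⟨0, 0, 1⟩⟩, ⟨⟨1, 0, 0⟩, ⟨3951, 1024, 0⟩, ⟨0, 0, 1024⟩⟩, 1024, ⟨1, 4096, 1⟩⟩))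
    (.node 3
    (.leaf (.psd ⟨⟨⟨1024, 0, 0⟩, ⟨(-3150), 1, 0⟩, ⟨0, 0, 1⟩⟩, ⟨⟨1, 0, 0⟩, ⟨3150, 1024, 0⟩, ⟨0, 0, 1024⟩⟩, 1024, ⟨427, 1048576, 1⟩⟩))
    (.leaf (.psd ⟨⟨⟨1024, 0, 0⟩, ⟨(-2531), 1, 0⟩, ⟨0, 0, 1⟩⟩, ⟨⟨1, 0, 0⟩, ⟨2531, 1024, 0⟩, ⟨0, 0, 1024⟩⟩, 1024, ⟨2, 4096, 1⟩⟩)))))
    (.leaf (.psd ⟨⟨⟨1024, 0, 0⟩, ⟨(-2792), 1, 0⟩, ⟨0, 0, 1⟩⟩, ⟨⟨1, 0, 0⟩, ⟨2792, 1024, 0⟩, ⟨0, 0, 1024⟩⟩, 1024, ⟨462, 1048576, 1⟩⟩))))))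
    (.node 0
    (.leaf (.psd ⟨⟨⟨1024, 0, 0⟩, ⟨(-2477), 1, 0⟩, ⟨0, 0, 1⟩⟩, ⟨⟨1, 0, 0⟩, ⟨2477, 1024, 0⟩, ⟨0, 0, 1024⟩⟩, 1024, ⟨458, 1048576, 1⟩⟩))
    (.node 1
    (.leaf (.psd ⟨⟨⟨1024, 0, 0⟩, ⟨(-2198), 1, 0⟩, ⟨0, 0, 1⟩⟩, ⟨⟨1, 0, 0⟩, ⟨2198, 1024, 0⟩, ⟨0, 0, 1024⟩⟩, 1024, ⟨458, 1048576, 1⟩⟩))
    (.node 3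
    (.node 0
    (.leaf (.psd ⟨⟨⟨1024, 0, 0⟩, ⟨(-2124), 1, 0⟩, ⟨0, 0, 1⟩⟩, ⟨⟨1, 0, 0⟩, ⟨2124, 1024, 0⟩, ⟨0, 0, 1024⟩⟩, 1024, ⟨2, 4096, 1⟩⟩))
    (.node 1
    (.leaf (.psd ⟨⟨⟨1024, 0, 0⟩, ⟨(-1811), 1, 0⟩, ⟨0, 0, 1⟩⟩, ⟨⟨1, 0, 0⟩, ⟨1811, 1024, 0⟩, ⟨0, 0, 1024⟩⟩, 1024, ⟨2, 4096, 1⟩⟩))
    (.leaf (.psd ⟨⟨⟨1024, 0, 0⟩, ⟨(-1271), 1, 0⟩, ⟨0, 0, 1⟩⟩, ⟨⟨1, 0, 0⟩, ⟨1271, 1024, 0⟩, ⟨0, 0, 1024⟩⟩, 1024, ⟨909, 1048576, 1⟩⟩))))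
    (.node 0
    (.leaf (.psd ⟨⟨⟨1024, 0, 0⟩, ⟨(-1450), 1, 0⟩, ⟨0, 0, 1⟩⟩, ⟨⟨1, 0, 0⟩, ⟨1450, 1024, 0⟩, ⟨0, 0, 1024⟩⟩, 1024, ⟨3, 4096, 1⟩⟩))
    (.leaf (.psd ⟨⟨⟨1024, 0, 0⟩, ⟨(-1052), 1, 0⟩, ⟨0, 0, 1⟩⟩, ⟨⟨1, 0, 0⟩, ⟨1052, 1024, 0⟩, ⟨0, 0, 1024⟩⟩, 1024, ⟨1158, 1048576, 1⟩⟩))))))

theorem chunk4 : Check.Good ⟨false, false, false⟩ cfg (reach cfg base [(0, false), (1, true), (3, false), (3, false), (0, true), (1, true), (0, true)]) :=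
  Check.check_sound tree4 (by decide +kernel)

/-- A subtree. -/
def tree5 : Check.Tree Check.Leaf :=
  .node 3
    (.node 3
    (.node 1
    (.node 3
    (.node 0
    (.leaf (.psd ⟨⟨⟨349, 0, 0⟩, ⟨(-8177), 1, 0⟩, ⟨0, 0, 1⟩⟩, ⟨⟨1, 0, 0⟩, ⟨8177, 349, 0⟩, ⟨0, 0, 349⟩⟩, 349, ⟨59, 1048576, 1⟩⟩))
    (.leaf (.psd ⟨⟨⟨488, 0, 0⟩, ⟨(-8185), 1, 0⟩, ⟨0, 0, 1⟩⟩, ⟨⟨1, 0, 0⟩, ⟨8185, 488, 0⟩, ⟨0, 0, 488⟩⟩, 488, ⟨93, 1048576, 1⟩⟩)))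
    (.leaf (.psd ⟨⟨⟨610, 0, 0⟩, ⟨(-8183), 1, 0⟩, ⟨0, 0, 1⟩⟩, ⟨⟨1, 0, 0⟩, ⟨8183, 610, 0⟩, ⟨0, 0, 610⟩⟩, 610, ⟨147, 1048576, 1⟩⟩)))
    (.node 3
    (.node 0
    (.node 3
    (.leaf (.psd ⟨⟨⟨231, 0, 0⟩, ⟨(-8163), 1, 0⟩, ⟨0, 0, 1⟩⟩, ⟨⟨1, 0, 0⟩, ⟨8163, 231, 0⟩, ⟨0, 0, 231⟩⟩, 231, ⟨66, 1048576, 1⟩⟩))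
    (.leaf (.psd ⟨⟨⟨356, 0, 0⟩, ⟨(-8190), 1, 0⟩, ⟨0, 0, 1⟩⟩, ⟨⟨1, 0, 0⟩, ⟨8190, 356, 0⟩, ⟨0, 0, 356⟩⟩, 356, ⟨138, 1048576, 1⟩⟩)))
    (.node 3
    (.leaf (.psd ⟨⟨⟨440, 0, 0⟩, ⟨(-8185), 1, 0⟩, ⟨0, 0, 1⟩⟩, ⟨⟨1, 0, 0⟩, ⟨8185, 440, 0⟩, ⟨0, 0, 440⟩⟩, 440, ⟨103, 1048576, 1⟩⟩))
    (.leaf (.psd ⟨⟨⟨586, 0, 0⟩, ⟨(-8182), 1, 0⟩, ⟨0, 0, 1⟩⟩, ⟨⟨1, 0, 0⟩, ⟨8182, 586, 0⟩, ⟨0, 0, 586⟩⟩, 586, ⟨150, 1048576, 1⟩⟩))))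
    (.node 0
    (.leaf (.psd ⟨⟨⟨627, 0, 0⟩, ⟨(-8179), 1, 0⟩, ⟨0, 0, 1⟩⟩, ⟨⟨1, 0, 0⟩, ⟨8179, 627, 0⟩, ⟨0, 0, 627⟩⟩, 627, ⟨137, 1048576, 1⟩⟩))
    (.node 3
    (.leaf (.psd ⟨⟨⟨805, 0, 0⟩, ⟨(-8189), 1, 0⟩, ⟨0, 0, 1⟩⟩, ⟨⟨1, 0, 0⟩, ⟨8189, 805, 0⟩, ⟨0, 0, 805⟩⟩, 805, ⟨159, 1048576, 1⟩⟩))
    (.leaf (.psd ⟨⟨⟨1024, 0, 0⟩, ⟨(-7900), 1, 0⟩, ⟨0, 0, 1⟩⟩, ⟨⟨1, 0, 0⟩, ⟨7900, 1024, 0⟩, ⟨0, 0, 1024⟩⟩, 1024, ⟨170, 1048576, 1⟩⟩))))))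
    (.node 3
    (.leaf (.psd ⟨⟨⟨1014, 0, 0⟩, ⟨(-8188), 1, 0⟩, ⟨0, 0, 1⟩⟩, ⟨⟨1, 0, 0⟩, ⟨8188, 1014, 0⟩, ⟨0, 0, 1014⟩⟩, 1014, ⟨168, 1048576, 1⟩⟩))
    (.leaf (.psd ⟨⟨⟨1024, 0, 0⟩, ⟨(-5939), 1, 0⟩, ⟨0, 0, 1⟩⟩, ⟨⟨1, 0, 0⟩, ⟨5939, 1024, 0⟩, ⟨0, 0, 1024⟩⟩, 1024, ⟨233, 1048576, 1⟩⟩))))
    (.node 3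
    (.node 0
    (.leaf (.psd ⟨⟨⟨1024, 0, 0⟩, ⟨(-4580), 1, 0⟩, ⟨0, 0, 1⟩⟩, ⟨⟨1, 0, 0⟩, ⟨4580, 1024, 0⟩, ⟨0, 0, 1024⟩⟩, 1024, ⟨1, 4096, 1⟩⟩))
    (.node 1
    (.leaf (.psd ⟨⟨⟨1024, 0, 0⟩, ⟨(-4034), 1, 0⟩, ⟨0, 0, 1⟩⟩, ⟨⟨1, 0, 0⟩, ⟨4034, 1024, 0⟩, ⟨0, 0, 1024⟩⟩, 1024, ⟨1, 4096, 1⟩⟩))
    (.node 3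
    (.leaf (.psd ⟨⟨⟨1024, 0, 0⟩, ⟨(-3037), 1, 0⟩, ⟨0, 0, 1⟩⟩, ⟨⟨1, 0, 0⟩, ⟨3037, 1024, 0⟩, ⟨0, 0, 1024⟩⟩, 1024, ⟨442, 1048576, 1⟩⟩))
    (.leaf (.psd ⟨⟨⟨1024, 0, 0⟩, ⟨(-2444), 1, 0⟩, ⟨0, 0, 1⟩⟩, ⟨⟨1, 0, 0⟩, ⟨2444, 1024, 0⟩, ⟨0, 0, 1024⟩⟩, 1024, ⟨2, 4096, 1⟩⟩)))))
    (.node 0
    (.leaf (.psd ⟨⟨⟨1024, 0, 0⟩, ⟨(-3182), 1, 0⟩, ⟨0, 0, 1⟩⟩, ⟨⟨1, 0, 0⟩, ⟨3182, 1024, 0⟩, ⟨0, 0, 1024⟩⟩, 1024, ⟨407, 1048576, 1⟩⟩))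
    (.node 1
    (.leaf (.psd ⟨⟨⟨1024, 0, 0⟩, ⟨(-2808), 1, 0⟩, ⟨0, 0, 1⟩⟩, ⟨⟨1, 0, 0⟩, ⟨2808, 1024, 0⟩, ⟨0, 0, 1024⟩⟩, 1024, ⟨435, 1048576, 1⟩⟩))
    (.leaf (.psd ⟨⟨⟨1024, 0, 0⟩, ⟨(-1856), 1, 0⟩, ⟨0, 0, 1⟩⟩, ⟨⟨1, 0, 0⟩, ⟨1856, 1024, 0⟩, ⟨0, 0, 1024⟩⟩, 1024, ⟨685, 1048576, 1⟩⟩)))))

theorem chunk5 : Check.Good ⟨false, false, false⟩ cfg (reach cfg base [(1, false), (3, false), (0, false), (0, true), (1, true), (3, false), (3, false), (0, true), (1, true), (0, true)]) :=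
  Check.check_sound tree5 (by decide +kernel)

/-- A subtree. -/
def tree6 : Check.Tree Check.Leaf :=
  .node 1
    (.node 3
    (.node 3
    (.node 1
    (.node 3
    (.leaf (.psd ⟨⟨⟨168, 0, 0⟩, ⟨(-8158), 1, 0⟩, ⟨0, 0, 1⟩⟩, ⟨⟨1, 0, 0⟩, ⟨8158, 168, 0⟩, ⟨0, 0, 168⟩⟩, 168, ⟨67, 1048576, 1⟩⟩))
    (.leaf (.psd ⟨⟨⟨248, 0, 0⟩, ⟨(-8188), 1, 0⟩, ⟨0, 0, 1⟩⟩, ⟨⟨1, 0, 0⟩, ⟨8188, 248, 0⟩, ⟨0, 0, 248⟩⟩, 248, ⟨123, 1048576, 1⟩⟩)))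
    (.node 3
    (.node 0
    (.node 3
    (.leaf (.psd ⟨⟨⟨100, 0, 0⟩, ⟨(-8122), 1, 0⟩, ⟨0, 0, 1⟩⟩, ⟨⟨1, 0, 0⟩, ⟨8122, 100, 0⟩, ⟨0, 0, 100⟩⟩, 100, ⟨49, 1048576, 1⟩⟩))
    (.leaf (.psd ⟨⟨⟨146, 0, 0⟩, ⟨(-8187), 1, 0⟩, ⟨0, 0, 1⟩⟩, ⟨⟨1, 0, 0⟩, ⟨8187, 146, 0⟩, ⟨0, 0, 146⟩⟩, 146, ⟨103, 1048576, 1⟩⟩)))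
    (.node 3
    (.leaf (.psd ⟨⟨⟨163, 0, 0⟩, ⟨(-8167), 1, 0⟩, ⟨0, 0, 1⟩⟩, ⟨⟨1, 0, 0⟩, ⟨8167, 163, 0⟩, ⟨0, 0, 163⟩⟩, 163, ⟨56, 1048576, 1⟩⟩))
    (.leaf (.psd ⟨⟨⟨218, 0, 0⟩, ⟨(-8165), 1, 0⟩, ⟨0, 0, 1⟩⟩, ⟨⟨1, 0, 0⟩, ⟨8165, 218, 0⟩, ⟨0, 0, 218⟩⟩, 218, ⟨114, 1048576, 1⟩⟩))))
    (.leaf (.psd ⟨⟨⟨272, 0, 0⟩, ⟨(-8171), 1, 0⟩, ⟨0, 0, 1⟩⟩, ⟨⟨1, 0, 0⟩, ⟨8171, 272, 0⟩, ⟨0, 0, 272⟩⟩, 272, ⟨135, 1048576, 1⟩⟩))))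
    (.node 3
    (.leaf (.psd ⟨⟨⟨372, 0, 0⟩, ⟨(-8172), 1, 0⟩, ⟨0, 0, 1⟩⟩, ⟨⟨1, 0, 0⟩, ⟨8172, 372, 0⟩, ⟨0, 0, 372⟩⟩, 372, ⟨164, 1048576, 1⟩⟩))
    (.leaf (.psd ⟨⟨⟨499, 0, 0⟩, ⟨(-8181), 1, 0⟩, ⟨0, 0, 1⟩⟩, ⟨⟨1, 0, 0⟩, ⟨8181, 499, 0⟩, ⟨0, 0, 499⟩⟩, 499, ⟨169, 1048576, 1⟩⟩))))
    (.node 3
    (.leaf (.psd ⟨⟨⟨714, 0, 0⟩, ⟨(-8184), 1, 0⟩, ⟨0, 0, 1⟩⟩, ⟨⟨1, 0, 0⟩, ⟨8184, 714, 0⟩, ⟨0, 0, 714⟩⟩, 714, ⟨152, 1048576, 1⟩⟩))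
    (.leaf (.psd ⟨⟨⟨1001, 0, 0⟩, ⟨(-8188), 1, 0⟩, ⟨0, 0, 1⟩⟩, ⟨⟨1, 0, 0⟩, ⟨8188, 1001, 0⟩, ⟨0, 0, 1001⟩⟩, 1001, ⟨161, 1048576, 1⟩⟩))))
    (.node 3
    (.node 3
    (.node 0
    (.node 1
    (.node 3
    (.leaf (.skip 7))
    (.leaf (.psd ⟨⟨⟨276, 0, 0⟩, ⟨(-8171), 1, 0⟩, ⟨0, 0, 1⟩⟩, ⟨⟨1, 0, 0⟩, ⟨8171, 276, 0⟩, ⟨0, 0, 276⟩⟩, 276, ⟨133, 1048576, 1⟩⟩)))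
    (.leaf (.skip 7)))
    (.node 1
    (.node 3
    (.leaf (.skip 7))
    (.node 3
    (.leaf (.skip 7))
    (.leaf (.psd ⟨⟨⟨475, 0, 0⟩, ⟨(-8180), 1, 0⟩, ⟨0, 0, 1⟩⟩, ⟨⟨1, 0, 0⟩, ⟨8180, 475, 0⟩, ⟨0, 0, 475⟩⟩, 475, ⟨171, 1048576, 1⟩⟩))))
    (.leaf (.skip 7))))
    (.node 0
    (.node 1
    (.node 3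
    (.leaf (.psd ⟨⟨⟨444, 0, 0⟩, ⟨(-8182), 1, 0⟩, ⟨0, 0, 1⟩⟩, ⟨⟨1, 0, 0⟩, ⟨8182, 444, 0⟩, ⟨0, 0, 444⟩⟩, 444, ⟨150, 1048576, 1⟩⟩))
    (.leaf (.psd ⟨⟨⟨623, 0, 0⟩, ⟨(-8185), 1, 0⟩, ⟨0, 0, 1⟩⟩, ⟨⟨1, 0, 0⟩, ⟨8185, 623, 0⟩, ⟨0, 0, 623⟩⟩, 623, ⟨158, 1048576, 1⟩⟩)))
    (.node 3
    (.node 3
    (.leaf (.psd ⟨⟨⟨550, 0, 0⟩, ⟨(-8181), 1, 0⟩, ⟨0, 0, 1⟩⟩, ⟨⟨1, 0, 0⟩, ⟨8181, 550, 0⟩, ⟨0, 0, 550⟩⟩, 550, ⟨170, 1048576, 1⟩⟩))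
    (.leaf (.psd ⟨⟨⟨681, 0, 0⟩, ⟨(-8188), 1, 0⟩, ⟨0, 0, 1⟩⟩, ⟨⟨1, 0, 0⟩, ⟨8188, 681, 0⟩, ⟨0, 0, 681⟩⟩, 681, ⟨174, 1048576, 1⟩⟩)))
    (.leaf (.psd ⟨⟨⟨888, 0, 0⟩, ⟨(-8185), 1, 0⟩, ⟨0, 0, 1⟩⟩, ⟨⟨1, 0, 0⟩, ⟨8185, 888, 0⟩, ⟨0, 0, 888⟩⟩, 888, ⟨162, 1048576, 1⟩⟩))))
    (.node 1
    (.node 3
    (.leaf (.psd ⟨⟨⟨679, 0, 0⟩, ⟨(-8182), 1, 0⟩, ⟨0, 0, 1⟩⟩, ⟨⟨1, 0, 0⟩, ⟨8182, 679, 0⟩, ⟨0, 0, 679⟩⟩, 679, ⟨155, 1048576, 1⟩⟩))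
    (.leaf (.psd ⟨⟨⟨947, 0, 0⟩, ⟨(-8186), 1, 0⟩, ⟨0, 0, 1⟩⟩, ⟨⟨1, 0, 0⟩, ⟨8186, 947, 0⟩, ⟨0, 0, 947⟩⟩, 947, ⟨164, 1048576, 1⟩⟩)))
    (.node 3
    (.node 0
    (.node 1
    (.leaf (.psd ⟨⟨⟨859, 0, 0⟩, ⟨(-8190), 1, 0⟩, ⟨0, 0, 1⟩⟩, ⟨⟨1, 0, 0⟩, ⟨8190, 859, 0⟩, ⟨0, 0, 859⟩⟩, 859, ⟨151, 1048576, 1⟩⟩))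
    (.node 3
    (.leaf (.psd ⟨⟨⟨1024, 0, 0⟩, ⟨(-7920), 1, 0⟩, ⟨0, 0, 1⟩⟩, ⟨⟨1, 0, 0⟩, ⟨7920, 1024, 0⟩, ⟨0, 0, 1024⟩⟩, 1024, ⟨181, 1048576, 1⟩⟩))
    (.leaf (.psd ⟨⟨⟨1024, 0, 0⟩, ⟨(-6427), 1, 0⟩, ⟨0, 0, 1⟩⟩, ⟨⟨1, 0, 0⟩, ⟨6427, 1024, 0⟩, ⟨0, 0, 1024⟩⟩, 1024, ⟨1, 4096, 1⟩⟩))))
    (.node 1
    (.node 3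
    (.leaf (.psd ⟨⟨⟨1024, 0, 0⟩, ⟨(-7524), 1, 0⟩, ⟨0, 0, 1⟩⟩, ⟨⟨1, 0, 0⟩, ⟨7524, 1024, 0⟩, ⟨0, 0, 1024⟩⟩, 1024, ⟨193, 1048576, 1⟩⟩))
    (.leaf (.psd ⟨⟨⟨1024, 0, 0⟩, ⟨(-6127), 1, 0⟩, ⟨0, 0, 1⟩⟩, ⟨⟨1, 0, 0⟩, ⟨6127, 1024, 0⟩, ⟨0, 0, 1024⟩⟩, 1024, ⟨1, 4096, 1⟩⟩)))
    (.node 0
    (.node 3
    (.leaf (.psd ⟨⟨⟨1024, 0, 0⟩, ⟨(-5272), 1, 0⟩, ⟨0, 0, 1⟩⟩, ⟨⟨1, 0, 0⟩, ⟨5272, 1024, 0⟩, ⟨0, 0, 1024⟩⟩, 1024, ⟨1, 4096, 1⟩⟩))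
    (.leaf (.psd ⟨⟨⟨1024, 0, 0⟩, ⟨(-4290), 1, 0⟩, ⟨0, 0, 1⟩⟩, ⟨⟨1, 0, 0⟩, ⟨4290, 1024, 0⟩, ⟨0, 0, 1024⟩⟩, 1024, ⟨352, 1048576, 1⟩⟩)))
    (.node 1
    (.leaf (.psd ⟨⟨⟨1024, 0, 0⟩, ⟨(-3806), 1, 0⟩, ⟨0, 0, 1⟩⟩, ⟨⟨1, 0, 0⟩, ⟨3806, 1024, 0⟩, ⟨0, 0, 1024⟩⟩, 1024, ⟨348, 1048576, 1⟩⟩))
    (.node 3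
    (.leaf (.skip 7))
    (.node 0
    (.leaf (.psd ⟨⟨⟨1024, 0, 0⟩, ⟨(-2614), 1, 0⟩, ⟨0, 0, 1⟩⟩, ⟨⟨1, 0, 0⟩, ⟨2614, 1024, 0⟩, ⟨0, 0, 1024⟩⟩, 1024, ⟨2, 4096, 1⟩⟩))
    (.leaf (.skip 8))))))))
    (.node 0
    (.node 1
    (.leaf (.psd ⟨⟨⟨1024, 0, 0⟩, ⟨(-6932), 1, 0⟩, ⟨0, 0, 1⟩⟩, ⟨⟨1, 0, 0⟩, ⟨6932, 1024, 0⟩, ⟨0, 0, 1024⟩⟩, 1024, ⟨1, 4096, 1⟩⟩))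
    (.leaf (.psd ⟨⟨⟨1024, 0, 0⟩, ⟨(-4952), 1, 0⟩, ⟨0, 0, 1⟩⟩, ⟨⟨1, 0, 0⟩, ⟨4952, 1024, 0⟩, ⟨0, 0, 1024⟩⟩, 1024, ⟨1, 4096, 1⟩⟩)))
    (.node 1
    (.leaf (.psd ⟨⟨⟨1024, 0, 0⟩, ⟨(-4735), 1, 0⟩, ⟨0, 0, 1⟩⟩, ⟨⟨1, 0, 0⟩, ⟨4735, 1024, 0⟩, ⟨0, 0, 1024⟩⟩, 1024, ⟨293, 1048576, 1⟩⟩))
    (.node 0
    (.leaf (.psd ⟨⟨⟨1024, 0, 0⟩, ⟨(-3315), 1, 0⟩, ⟨0, 0, 1⟩⟩, ⟨⟨1, 0, 0⟩, ⟨3315, 1024, 0⟩, ⟨0, 0, 1024⟩⟩, 1024, ⟨422, 1048576, 1⟩⟩))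
    (.node 1
    (.leaf (.psd ⟨⟨⟨1024, 0, 0⟩, ⟨(-2723), 1, 0⟩, ⟨0, 0, 1⟩⟩, ⟨⟨1, 0, 0⟩, ⟨2723, 1024, 0⟩, ⟨0, 0, 1024⟩⟩, 1024, ⟨2, 4096, 1⟩⟩))
    (.node 0
    (.leaf (.psd ⟨⟨⟨1024, 0, 0⟩, ⟨(-2026), 1, 0⟩, ⟨0, 0, 1⟩⟩, ⟨⟨1, 0, 0⟩, ⟨2026, 1024, 0⟩, ⟨0, 0, 1024⟩⟩, 1024, ⟨724, 1048576, 1⟩⟩))
    (.leaf (.skip 8)))))))))))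
    (.node 0
    (.node 3
    (.node 1
    (.leaf (.psd ⟨⟨⟨919, 0, 0⟩, ⟨(-8188), 1, 0⟩, ⟨0, 0, 1⟩⟩, ⟨⟨1, 0, 0⟩, ⟨8188, 919, 0⟩, ⟨0, 0, 919⟩⟩, 919, ⟨145, 1048576, 1⟩⟩))
    (.node 3
    (.leaf (.psd ⟨⟨⟨1024, 0, 0⟩, ⟨(-7239), 1, 0⟩, ⟨0, 0, 1⟩⟩, ⟨⟨1, 0, 0⟩, ⟨7239, 1024, 0⟩, ⟨0, 0, 1024⟩⟩, 1024, ⟨192, 1048576, 1⟩⟩))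
    (.leaf (.psd ⟨⟨⟨1024, 0, 0⟩, ⟨(-5851), 1, 0⟩, ⟨0, 0, 1⟩⟩, ⟨⟨1, 0, 0⟩, ⟨5851, 1024, 0⟩, ⟨0, 0, 1024⟩⟩, 1024, ⟨1, 4096, 1⟩⟩))))
    (.node 1
    (.leaf (.psd ⟨⟨⟨1024, 0, 0⟩, ⟨(-6433), 1, 0⟩, ⟨0, 0, 1⟩⟩, ⟨⟨1, 0, 0⟩, ⟨6433, 1024, 0⟩, ⟨0, 0, 1024⟩⟩, 1024, ⟨1, 4096, 1⟩⟩))
    (.leaf (.psd ⟨⟨⟨1024, 0, 0⟩, ⟨(-4487), 1, 0⟩, ⟨0, 0, 1⟩⟩, ⟨⟨1, 0, 0⟩, ⟨4487, 1024, 0⟩, ⟨0, 0, 1024⟩⟩, 1024, ⟨296, 1048576, 1⟩⟩))))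
    (.node 1
    (.node 3
    (.node 3
    (.leaf (.psd ⟨⟨⟨1024, 0, 0⟩, ⟨(-6849), 1, 0⟩, ⟨0, 0, 1⟩⟩, ⟨⟨1, 0, 0⟩, ⟨6849, 1024, 0⟩, ⟨0, 0, 1024⟩⟩, 1024, ⟨204, 1048576, 1⟩⟩))
    (.leaf (.psd ⟨⟨⟨1024, 0, 0⟩, ⟨(-5563), 1, 0⟩, ⟨0, 0, 1⟩⟩, ⟨⟨1, 0, 0⟩, ⟨5563, 1024, 0⟩, ⟨0, 0, 1024⟩⟩, 1024, ⟨1, 4096, 1⟩⟩)))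
    (.leaf (.psd ⟨⟨⟨1024, 0, 0⟩, ⟨(-4282), 1, 0⟩, ⟨0, 0, 1⟩⟩, ⟨⟨1, 0, 0⟩, ⟨4282, 1024, 0⟩, ⟨0, 0, 1024⟩⟩, 1024, ⟨311, 1048576, 1⟩⟩)))
    (.node 3
    (.node 0
    (.node 1
    (.leaf (.psd ⟨⟨⟨1024, 0, 0⟩, ⟨(-4708), 1, 0⟩, ⟨0, 0, 1⟩⟩, ⟨⟨1, 0, 0⟩, ⟨4708, 1024, 0⟩, ⟨0, 0, 1024⟩⟩, 1024, ⟨1, 4096, 1⟩⟩))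
    (.node 3
    (.leaf (.psd ⟨⟨⟨1024, 0, 0⟩, ⟨(-3824), 1, 0⟩, ⟨0, 0, 1⟩⟩, ⟨⟨1, 0, 0⟩, ⟨3824, 1024, 0⟩, ⟨0, 0, 1024⟩⟩, 1024, ⟨381, 1048576, 1⟩⟩))
    (.leaf (.psd ⟨⟨⟨1024, 0, 0⟩, ⟨(-3108), 1, 0⟩, ⟨0, 0, 1⟩⟩, ⟨⟨1, 0, 0⟩, ⟨3108, 1024, 0⟩, ⟨0, 0, 1024⟩⟩, 1024, ⟨483, 1048576, 1⟩⟩))))
    (.node 1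
    (.node 3
    (.leaf (.psd ⟨⟨⟨1024, 0, 0⟩, ⟨(-3664), 1, 0⟩, ⟨0, 0, 1⟩⟩, ⟨⟨1, 0, 0⟩, ⟨3664, 1024, 0⟩, ⟨0, 0, 1024⟩⟩, 1024, ⟨398, 1048576, 1⟩⟩))
    (.leaf (.psd ⟨⟨⟨1024, 0, 0⟩, ⟨(-2981), 1, 0⟩, ⟨0, 0, 1⟩⟩, ⟨⟨1, 0, 0⟩, ⟨2981, 1024, 0⟩, ⟨0, 0, 1024⟩⟩, 1024, ⟨504, 1048576, 1⟩⟩)))
    (.node 0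
    (.node 1
    (.leaf (.psd ⟨⟨⟨1024, 0, 0⟩, ⟨(-2587), 1, 0⟩, ⟨0, 0, 1⟩⟩, ⟨⟨1, 0, 0⟩, ⟨2587, 1024, 0⟩, ⟨0, 0, 1024⟩⟩, 1024, ⟨504, 1048576, 1⟩⟩))
    (.leaf (.psd ⟨⟨⟨1024, 0, 0⟩, ⟨(-1932), 1, 0⟩, ⟨0, 0, 1⟩⟩, ⟨⟨1, 0, 0⟩, ⟨1932, 1024, 0⟩, ⟨0, 0, 1024⟩⟩, 1024, ⟨688, 1048576, 1⟩⟩)))
    (.node 1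
    (.leaf (.psd ⟨⟨⟨1024, 0, 0⟩, ⟨(-1865), 1, 0⟩, ⟨0, 0, 1⟩⟩, ⟨⟨1, 0, 0⟩, ⟨1865, 1024, 0⟩, ⟨0, 0, 1024⟩⟩, 1024, ⟨713, 1048576, 1⟩⟩))
    (.node 3
    (.node 0
    (.leaf (.psd ⟨⟨⟨1024, 0, 0⟩, ⟨(-1575), 1, 0⟩, ⟨0, 0, 1⟩⟩, ⟨⟨1, 0, 0⟩, ⟨1575, 1024, 0⟩, ⟨0, 0, 1024⟩⟩, 1024, ⟨975, 1048576, 1⟩⟩))
    (.leaf (.skip 8)))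
    (.leaf (.psd ⟨⟨⟨1024, 0, 0⟩, ⟨(-1122), 1, 0⟩, ⟨0, 0, 1⟩⟩, ⟨⟨1, 0, 0⟩, ⟨1122, 1024, 0⟩, ⟨0, 0, 1024⟩⟩, 1024, ⟨1265, 1048576, 1⟩⟩)))))))
    (.node 0
    (.node 1
    (.leaf (.psd ⟨⟨⟨1024, 0, 0⟩, ⟨(-3342), 1, 0⟩, ⟨0, 0, 1⟩⟩, ⟨⟨1, 0, 0⟩, ⟨3342, 1024, 0⟩, ⟨0, 0, 1024⟩⟩, 1024, ⟨404, 1048576, 1⟩⟩))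
    (.leaf (.psd ⟨⟨⟨1024, 0, 0⟩, ⟨(-2398), 1, 0⟩, ⟨0, 0, 1⟩⟩, ⟨⟨1, 0, 0⟩, ⟨2398, 1024, 0⟩, ⟨0, 0, 1024⟩⟩, 1024, ⟨582, 1048576, 1⟩⟩)))
    (.node 1
    (.leaf (.psd ⟨⟨⟨1024, 0, 0⟩, ⟨(-2302), 1, 0⟩, ⟨0, 0, 1⟩⟩, ⟨⟨1, 0, 0⟩, ⟨2302, 1024, 0⟩, ⟨0, 0, 1024⟩⟩, 1024, ⟨606, 1048576, 1⟩⟩))
    (.node 0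
    (.leaf (.psd ⟨⟨⟨1024, 0, 0⟩, ⟨(-1618), 1, 0⟩, ⟨0, 0, 1⟩⟩, ⟨⟨1, 0, 0⟩, ⟨1618, 1024, 0⟩, ⟨0, 0, 1024⟩⟩, 1024, ⟨865, 1048576, 1⟩⟩))
    (.node 1
    (.leaf (.psd ⟨⟨⟨1024, 0, 0⟩, ⟨(-1335), 1, 0⟩, ⟨0, 0, 1⟩⟩, ⟨⟨1, 0, 0⟩, ⟨1335, 1024, 0⟩, ⟨0, 0, 1024⟩⟩, 1024, ⟨4, 4096, 1⟩⟩))
    (.node 0
    (.leaf (.psd ⟨⟨⟨1024, 0, 0⟩, ⟨(-997), 1, 0⟩, ⟨0, 0, 1⟩⟩, ⟨⟨1, 0, 0⟩, ⟨997, 1024, 0⟩, ⟨0, 0, 1024⟩⟩, 1024, ⟨5, 4096, 1⟩⟩))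
    (.leaf (.psd ⟨⟨⟨1024, 0, 0⟩, ⟨(-741), 1, 0⟩, ⟨0, 0, 1⟩⟩, ⟨⟨1, 0, 0⟩, ⟨741, 1024, 0⟩, ⟨0, 0, 1024⟩⟩, 1024, ⟨1839, 1048576, 1⟩⟩)))))))))))

theorem chunk6 : Check.Good ⟨false, false, false⟩ cfg (reach cfg base [(0, false), (3, false), (3, false), (1, true), (3, false), (0, false), (0, true), (1, true), (3, false), (3, false), (0, true), (1, true), (0, true)]) :=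
  Check.check_sound tree6 (by decide +kernel)

/-- A subtree. -/
def tree7 : Check.Tree Check.Leaf :=
  .node 3
    (.node 3
    (.node 1
    (.node 0
    (.leaf (.psd ⟨⟨⟨411, 0, 0⟩, ⟨(-8186), 1, 0⟩, ⟨0, 0, 1⟩⟩, ⟨⟨1, 0, 0⟩, ⟨8186, 411, 0⟩, ⟨0, 0, 411⟩⟩, 411, ⟨95, 1048576, 1⟩⟩))
    (.leaf (.psd ⟨⟨⟨686, 0, 0⟩, ⟨(-8187), 1, 0⟩, ⟨0, 0, 1⟩⟩, ⟨⟨1, 0, 0⟩, ⟨8187, 686, 0⟩, ⟨0, 0, 686⟩⟩, 686, ⟨143, 1048576, 1⟩⟩)))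
    (.node 0
    (.node 3
    (.node 1
    (.leaf (.psd ⟨⟨⟨345, 0, 0⟩, ⟨(-8183), 1, 0⟩, ⟨0, 0, 1⟩⟩, ⟨⟨1, 0, 0⟩, ⟨8183, 345, 0⟩, ⟨0, 0, 345⟩⟩, 345, ⟨86, 1048576, 1⟩⟩))
    (.node 3
    (.leaf (.skip 7))
    (.leaf (.psd ⟨⟨⟨381, 0, 0⟩, ⟨(-8190), 1, 0⟩, ⟨0, 0, 1⟩⟩, ⟨⟨1, 0, 0⟩, ⟨8190, 381, 0⟩, ⟨0, 0, 381⟩⟩, 381, ⟨136, 1048576, 1⟩⟩))))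
    (.leaf (.psd ⟨⟨⟨529, 0, 0⟩, ⟨(-8191), 1, 0⟩, ⟨0, 0, 1⟩⟩, ⟨⟨1, 0, 0⟩, ⟨8191, 529, 0⟩, ⟨0, 0, 529⟩⟩, 529, ⟨152, 1048576, 1⟩⟩)))
    (.node 3
    (.node 1
    (.leaf (.psd ⟨⟨⟨690, 0, 0⟩, ⟨(-8186), 1, 0⟩, ⟨0, 0, 1⟩⟩, ⟨⟨1, 0, 0⟩, ⟨8186, 690, 0⟩, ⟨0, 0, 690⟩⟩, 690, ⟨140, 1048576, 1⟩⟩))
    (.node 0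
    (.leaf (.psd ⟨⟨⟨673, 0, 0⟩, ⟨(-8186), 1, 0⟩, ⟨0, 0, 1⟩⟩, ⟨⟨1, 0, 0⟩, ⟨8186, 673, 0⟩, ⟨0, 0, 673⟩⟩, 673, ⟨149, 1048576, 1⟩⟩))
    (.node 1
    (.node 3
    (.leaf (.skip 7))
    (.leaf (.psd ⟨⟨⟨1024, 0, 0⟩, ⟨(-7398), 1, 0⟩, ⟨0, 0, 1⟩⟩, ⟨⟨1, 0, 0⟩, ⟨7398, 1024, 0⟩, ⟨0, 0, 1024⟩⟩, 1024, ⟨1, 4096, 1⟩⟩)))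
    (.leaf (.skip 7)))))
    (.node 1
    (.leaf (.psd ⟨⟨⟨915, 0, 0⟩, ⟨(-8184), 1, 0⟩, ⟨0, 0, 1⟩⟩, ⟨⟨1, 0, 0⟩, ⟨8184, 915, 0⟩, ⟨0, 0, 915⟩⟩, 915, ⟨155, 1048576, 1⟩⟩))
    (.node 0
    (.leaf (.psd ⟨⟨⟨1014, 0, 0⟩, ⟨(-8189), 1, 0⟩, ⟨0, 0, 1⟩⟩, ⟨⟨1, 0, 0⟩, ⟨8189, 1014, 0⟩, ⟨0, 0, 1014⟩⟩, 1014, ⟨156, 1048576, 1⟩⟩))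
    (.node 1
    (.node 3
    (.leaf (.psd ⟨⟨⟨1024, 0, 0⟩, ⟨(-6051), 1, 0⟩, ⟨0, 0, 1⟩⟩, ⟨⟨1, 0, 0⟩, ⟨6051, 1024, 0⟩, ⟨0, 0, 1024⟩⟩, 1024, ⟨1, 4096, 1⟩⟩))
    (.leaf (.psd ⟨⟨⟨1024, 0, 0⟩, ⟨(-4894), 1, 0⟩, ⟨0, 0, 1⟩⟩, ⟨⟨1, 0, 0⟩, ⟨4894, 1024, 0⟩, ⟨0, 0, 1024⟩⟩, 1024, ⟨298, 1048576, 1⟩⟩)))
    (.node 0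
    (.leaf (.psd ⟨⟨⟨1024, 0, 0⟩, ⟨(-4549), 1, 0⟩, ⟨0, 0, 1⟩⟩, ⟨⟨1, 0, 0⟩, ⟨4549, 1024, 0⟩, ⟨0, 0, 1024⟩⟩, 1024, ⟨279, 1048576, 1⟩⟩))
    (.leaf (.skip 8)))))))))
    (.node 0
    (.node 1
    (.leaf (.psd ⟨⟨⟨669, 0, 0⟩, ⟨(-8191), 1, 0⟩, ⟨0, 0, 1⟩⟩, ⟨⟨1, 0, 0⟩, ⟨8191, 669, 0⟩, ⟨0, 0, 669⟩⟩, 669, ⟨135, 1048576, 1⟩⟩))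
    (.node 3
    (.leaf (.psd ⟨⟨⟨761, 0, 0⟩, ⟨(-8182), 1, 0⟩, ⟨0, 0, 1⟩⟩, ⟨⟨1, 0, 0⟩, ⟨8182, 761, 0⟩, ⟨0, 0, 761⟩⟩, 761, ⟨162, 1048576, 1⟩⟩))
    (.leaf (.psd ⟨⟨⟨1020, 0, 0⟩, ⟨(-8190), 1, 0⟩, ⟨0, 0, 1⟩⟩, ⟨⟨1, 0, 0⟩, ⟨8190, 1020, 0⟩, ⟨0, 0, 1020⟩⟩, 1020, ⟨168, 1048576, 1⟩⟩))))
    (.node 1
    (.leaf (.psd ⟨⟨⟨1024, 0, 0⟩, ⟨(-8074), 1, 0⟩, ⟨0, 0, 1⟩⟩, ⟨⟨1, 0, 0⟩, ⟨8074, 1024, 0⟩, ⟨0, 0, 1024⟩⟩, 1024, ⟨154164, 1073741824, 44⟩⟩))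
    (.node 0
    (.node 3
    (.leaf (.psd ⟨⟨⟨1024, 0, 0⟩, ⟨(-6836), 1, 0⟩, ⟨0, 0, 1⟩⟩, ⟨⟨1, 0, 0⟩, ⟨6836, 1024, 0⟩, ⟨0, 0, 1024⟩⟩, 1024, ⟨201, 1048576, 1⟩⟩))
    (.leaf (.psd ⟨⟨⟨1024, 0, 0⟩, ⟨(-5136), 1, 0⟩, ⟨0, 0, 1⟩⟩, ⟨⟨1, 0, 0⟩, ⟨5136, 1024, 0⟩, ⟨0, 0, 1024⟩⟩, 1024, ⟨271, 1048576, 1⟩⟩)))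
    (.node 1
    (.node 3
    (.leaf (.psd ⟨⟨⟨1024, 0, 0⟩, ⟨(-5306), 1, 0⟩, ⟨0, 0, 1⟩⟩, ⟨⟨1, 0, 0⟩, ⟨5306, 1024, 0⟩, ⟨0, 0, 1024⟩⟩, 1024, ⟨1, 4096, 1⟩⟩))
    (.leaf (.psd ⟨⟨⟨1024, 0, 0⟩, ⟨(-4047), 1, 0⟩, ⟨0, 0, 1⟩⟩, ⟨⟨1, 0, 0⟩, ⟨4047, 1024, 0⟩, ⟨0, 0, 1024⟩⟩, 1024, ⟨357, 1048576, 1⟩⟩)))
    (.node 3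
    (.node 0
    (.node 1
    (.leaf (.psd ⟨⟨⟨1024, 0, 0⟩, ⟨(-4249), 1, 0⟩, ⟨0, 0, 1⟩⟩, ⟨⟨1, 0, 0⟩, ⟨4249, 1024, 0⟩, ⟨0, 0, 1024⟩⟩, 1024, ⟨1, 4096, 1⟩⟩))
    (.leaf (.psd ⟨⟨⟨1024, 0, 0⟩, ⟨(-3057), 1, 0⟩, ⟨0, 0, 1⟩⟩, ⟨⟨1, 0, 0⟩, ⟨3057, 1024, 0⟩, ⟨0, 0, 1024⟩⟩, 1024, ⟨449, 1048576, 1⟩⟩)))
    (.node 1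
    (.leaf (.psd ⟨⟨⟨1024, 0, 0⟩, ⟨(-2971), 1, 0⟩, ⟨0, 0, 1⟩⟩, ⟨⟨1, 0, 0⟩, ⟨2971, 1024, 0⟩, ⟨0, 0, 1024⟩⟩, 1024, ⟨467, 1048576, 1⟩⟩))
    (.leaf (.skip 8))))
    (.node 0
    (.leaf (.psd ⟨⟨⟨1024, 0, 0⟩, ⟨(-2728), 1, 0⟩, ⟨0, 0, 1⟩⟩, ⟨⟨1, 0, 0⟩, ⟨2728, 1024, 0⟩, ⟨0, 0, 1024⟩⟩, 1024, ⟨2, 4096, 1⟩⟩))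
    (.node 1
    (.leaf (.psd ⟨⟨⟨1024, 0, 0⟩, ⟨(-2212), 1, 0⟩, ⟨0, 0, 1⟩⟩, ⟨⟨1, 0, 0⟩, ⟨2212, 1024, 0⟩, ⟨0, 0, 1024⟩⟩, 1024, ⟨660, 1048576, 1⟩⟩))
    (.leaf (.skip 8))))))))))
    (.node 0
    (.node 3
    (.node 1
    (.leaf (.psd ⟨⟨⟨1008, 0, 0⟩, ⟨(-8189), 1, 0⟩, ⟨0, 0, 1⟩⟩, ⟨⟨1, 0, 0⟩, ⟨8189, 1008, 0⟩, ⟨0, 0, 1008⟩⟩, 1008, ⟨149, 1048576, 1⟩⟩))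
    (.node 3
    (.leaf (.psd ⟨⟨⟨1024, 0, 0⟩, ⟨(-6488), 1, 0⟩, ⟨0, 0, 1⟩⟩, ⟨⟨1, 0, 0⟩, ⟨6488, 1024, 0⟩, ⟨0, 0, 1024⟩⟩, 1024, ⟨218, 1048576, 1⟩⟩))
    (.leaf (.psd ⟨⟨⟨1024, 0, 0⟩, ⟨(-5326), 1, 0⟩, ⟨0, 0, 1⟩⟩, ⟨⟨1, 0, 0⟩, ⟨5326, 1024, 0⟩, ⟨0, 0, 1024⟩⟩, 1024, ⟨1, 4096, 1⟩⟩))))
    (.node 1
    (.leaf (.psd ⟨⟨⟨1024, 0, 0⟩, ⟨(-6066), 1, 0⟩, ⟨0, 0, 1⟩⟩, ⟨⟨1, 0, 0⟩, ⟨6066, 1024, 0⟩, ⟨0, 0, 1024⟩⟩, 1024, ⟨1, 4096, 1⟩⟩))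
    (.leaf (.psd ⟨⟨⟨1024, 0, 0⟩, ⟨(-4135), 1, 0⟩, ⟨0, 0, 1⟩⟩, ⟨⟨1, 0, 0⟩, ⟨4135, 1024, 0⟩, ⟨0, 0, 1024⟩⟩, 1024, ⟨325, 1048576, 1⟩⟩))))
    (.node 1
    (.node 3
    (.leaf (.psd ⟨⟨⟨1024, 0, 0⟩, ⟨(-5470), 1, 0⟩, ⟨0, 0, 1⟩⟩, ⟨⟨1, 0, 0⟩, ⟨5470, 1024, 0⟩, ⟨0, 0, 1024⟩⟩, 1024, ⟨236, 1048576, 1⟩⟩))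
    (.leaf (.psd ⟨⟨⟨1024, 0, 0⟩, ⟨(-4024), 1, 0⟩, ⟨0, 0, 1⟩⟩, ⟨⟨1, 0, 0⟩, ⟨4024, 1024, 0⟩, ⟨0, 0, 1024⟩⟩, 1024, ⟨338, 1048576, 1⟩⟩)))
    (.node 3
    (.node 0
    (.node 1
    (.leaf (.psd ⟨⟨⟨1024, 0, 0⟩, ⟨(-4237), 1, 0⟩, ⟨0, 0, 1⟩⟩, ⟨⟨1, 0, 0⟩, ⟨4237, 1024, 0⟩, ⟨0, 0, 1024⟩⟩, 1024, ⟨1, 4096, 1⟩⟩))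
    (.node 3
    (.leaf (.psd ⟨⟨⟨1024, 0, 0⟩, ⟨(-3316), 1, 0⟩, ⟨0, 0, 1⟩⟩, ⟨⟨1, 0, 0⟩, ⟨3316, 1024, 0⟩, ⟨0, 0, 1024⟩⟩, 1024, ⟨444, 1048576, 1⟩⟩))
    (.leaf (.psd ⟨⟨⟨1024, 0, 0⟩, ⟨(-2724), 1, 0⟩, ⟨0, 0, 1⟩⟩, ⟨⟨1, 0, 0⟩, ⟨2724, 1024, 0⟩, ⟨0, 0, 1024⟩⟩, 1024, ⟨2, 4096, 1⟩⟩))))
    (.node 1
    (.node 3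
    (.leaf (.psd ⟨⟨⟨1024, 0, 0⟩, ⟨(-3230), 1, 0⟩, ⟨0, 0, 1⟩⟩, ⟨⟨1, 0, 0⟩, ⟨3230, 1024, 0⟩, ⟨0, 0, 1024⟩⟩, 1024, ⟨459, 1048576, 1⟩⟩))
    (.leaf (.psd ⟨⟨⟨1024, 0, 0⟩, ⟨(-2671), 1, 0⟩, ⟨0, 0, 1⟩⟩, ⟨⟨1, 0, 0⟩, ⟨2671, 1024, 0⟩, ⟨0, 0, 1024⟩⟩, 1024, ⟨2, 4096, 1⟩⟩)))
    (.node 0
    (.node 1
    (.leaf (.psd ⟨⟨⟨1024, 0, 0⟩, ⟨(-2228), 1, 0⟩, ⟨0, 0, 1⟩⟩, ⟨⟨1, 0, 0⟩, ⟨2228, 1024, 0⟩, ⟨0, 0, 1024⟩⟩, 1024, ⟨2, 4096, 1⟩⟩))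
    (.node 3
    (.leaf (.psd ⟨⟨⟨1024, 0, 0⟩, ⟨(-1772), 1, 0⟩, ⟨0, 0, 1⟩⟩, ⟨⟨1, 0, 0⟩, ⟨1772, 1024, 0⟩, ⟨0, 0, 1024⟩⟩, 1024, ⟨3, 4096, 1⟩⟩))
    (.leaf (.psd ⟨⟨⟨1024, 0, 0⟩, ⟨(-1455), 1, 0⟩, ⟨0, 0, 1⟩⟩, ⟨⟨1, 0, 0⟩, ⟨1455, 1024, 0⟩, ⟨0, 0, 1024⟩⟩, 1024, ⟨4, 4096, 1⟩⟩))))
    (.node 1
    (.node 3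
    (.leaf (.psd ⟨⟨⟨1024, 0, 0⟩, ⟨(-1747), 1, 0⟩, ⟨0, 0, 1⟩⟩, ⟨⟨1, 0, 0⟩, ⟨1747, 1024, 0⟩, ⟨0, 0, 1024⟩⟩, 1024, ⟨3, 4096, 1⟩⟩))
    (.leaf (.psd ⟨⟨⟨1024, 0, 0⟩, ⟨(-1437), 1, 0⟩, ⟨0, 0, 1⟩⟩, ⟨⟨1, 0, 0⟩, ⟨1437, 1024, 0⟩, ⟨0, 0, 1024⟩⟩, 1024, ⟨4, 4096, 1⟩⟩)))
    (.node 0
    (.node 3
    (.leaf (.skip 8))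
    (.leaf (.psd ⟨⟨⟨1024, 0, 0⟩, ⟨(-977), 1, 0⟩, ⟨0, 0, 1⟩⟩, ⟨⟨1, 0, 0⟩, ⟨977, 1024, 0⟩, ⟨0, 0, 1024⟩⟩, 1024, ⟨6, 4096, 1⟩⟩)))
    (.leaf (.skip 8)))))))
    (.node 0
    (.node 1
    (.leaf (.psd ⟨⟨⟨1024, 0, 0⟩, ⟨(-3074), 1, 0⟩, ⟨0, 0, 1⟩⟩, ⟨⟨1, 0, 0⟩, ⟨3074, 1024, 0⟩, ⟨0, 0, 1024⟩⟩, 1024, ⟨450, 1048576, 1⟩⟩))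
    (.leaf (.psd ⟨⟨⟨1024, 0, 0⟩, ⟨(-2119), 1, 0⟩, ⟨0, 0, 1⟩⟩, ⟨⟨1, 0, 0⟩, ⟨2119, 1024, 0⟩, ⟨0, 0, 1024⟩⟩, 1024, ⟨658, 1048576, 1⟩⟩)))
    (.node 1
    (.leaf (.psd ⟨⟨⟨1024, 0, 0⟩, ⟨(-2089), 1, 0⟩, ⟨0, 0, 1⟩⟩, ⟨⟨1, 0, 0⟩, ⟨2089, 1024, 0⟩, ⟨0, 0, 1024⟩⟩, 1024, ⟨670, 1048576, 1⟩⟩))
    (.node 0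
    (.node 1
    (.leaf (.psd ⟨⟨⟨1024, 0, 0⟩, ⟨(-1611), 1, 0⟩, ⟨0, 0, 1⟩⟩, ⟨⟨1, 0, 0⟩, ⟨1611, 1024, 0⟩, ⟨0, 0, 1024⟩⟩, 1024, ⟨3, 4096, 1⟩⟩))
    (.leaf (.psd ⟨⟨⟨1024, 0, 0⟩, ⟨(-1132), 1, 0⟩, ⟨0, 0, 1⟩⟩, ⟨⟨1, 0, 0⟩, ⟨1132, 1024, 0⟩, ⟨0, 0, 1024⟩⟩, 1024, ⟨1258, 1048576, 1⟩⟩)))
    (.node 1
    (.leaf (.psd ⟨⟨⟨1024, 0, 0⟩, ⟨(-1121), 1, 0⟩, ⟨0, 0, 1⟩⟩, ⟨⟨1, 0, 0⟩, ⟨1121, 1024, 0⟩, ⟨0, 0, 1024⟩⟩, 1024, ⟨1271, 1048576, 1⟩⟩))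
    (.node 0
    (.leaf (.psd ⟨⟨⟨1024, 0, 0⟩, ⟨(-761), 1, 0⟩, ⟨0, 0, 1⟩⟩, ⟨⟨1, 0, 0⟩, ⟨761, 1024, 0⟩, ⟨0, 0, 1024⟩⟩, 1024, ⟨7, 4096, 1⟩⟩))
    (.leaf (.skip 8))))))))))

theorem chunk7 : Check.Good ⟨false, false, false⟩ cfg (reach cfg base [(1, false), (0, true), (3, false), (3, false), (1, true), (3, false), (0, false), (0, true), (1, true), (3, false), (3, false), (0, true), (1, true), (0, true)]) :=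
  Check.check_sound tree7 (by decide +kernel)

end Vale.Agent.P211.Cert.Pair.PairOuterL
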