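import Vale.Agent.P211.Cert.Pair.Data.PairOuterL.Part0

/-!
P211, data: the root `outerL` of the form across the gradient, generated from the exact search.
-/

namespace Vale.Agent.P211.Cert.Pair.PairOuterL

open Vale.Agent.P098.Check6 (Face St ofChunks reach)
open Vale.Agent.P098.Cert6.Kron (RootPar)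

/-- A subtree. -/
def tree8 : Check.Tree Check.Leaf :=
  .node 1
    (.node 3
    (.node 3
    (.node 3
    (.leaf (.skip 7))
    (.node 1
    (.node 0
    (.leaf (.psd ⟨⟨⟨613, 0, 0⟩, ⟨(-8189), 1, 0⟩, ⟨0, 0, 1⟩⟩, ⟨⟨1, 0, 0⟩, ⟨8189, 613, 0⟩, ⟨0, 0, 613⟩⟩, 613, ⟨138, 1048576, 1⟩⟩))
    (.node 3
    (.leaf (.skip 7))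
    (.leaf (.psd ⟨⟨⟨998, 0, 0⟩, ⟨(-8189), 1, 0⟩, ⟨0, 0, 1⟩⟩, ⟨⟨1, 0, 0⟩, ⟨8189, 998, 0⟩, ⟨0, 0, 998⟩⟩, 998, ⟨177, 1048576, 1⟩⟩))))
    (.node 0
    (.node 3
    (.leaf (.skip 7))
    (.leaf (.psd ⟨⟨⟨923, 0, 0⟩, ⟨(-8185), 1, 0⟩, ⟨0, 0, 1⟩⟩, ⟨⟨1, 0, 0⟩, ⟨8185, 923, 0⟩, ⟨0, 0, 923⟩⟩, 923, ⟨173, 1048576, 1⟩⟩)))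
    (.node 3
    (.leaf (.skip 7))
    (.node 0
    (.leaf (.psd ⟨⟨⟨1024, 0, 0⟩, ⟨(-5912), 1, 0⟩, ⟨0, 0, 1⟩⟩, ⟨⟨1, 0, 0⟩, ⟨5912, 1024, 0⟩, ⟨0, 0, 1024⟩⟩, 1024, ⟨241, 1048576, 1⟩⟩))
    (.node 1
    (.leaf (.psd ⟨⟨⟨1024, 0, 0⟩, ⟨(-4764), 1, 0⟩, ⟨0, 0, 1⟩⟩, ⟨⟨1, 0, 0⟩, ⟨4764, 1024, 0⟩, ⟨0, 0, 1024⟩⟩, 1024, ⟨308, 1048576, 1⟩⟩))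
    (.leaf (.skip 7))))))))
    (.node 0
    (.node 3
    (.node 1
    (.leaf (.psd ⟨⟨⟨945, 0, 0⟩, ⟨(-8191), 1, 0⟩, ⟨0, 0, 1⟩⟩, ⟨⟨1, 0, 0⟩, ⟨8191, 945, 0⟩, ⟨0, 0, 945⟩⟩, 945, ⟨156, 1048576, 1⟩⟩))
    (.node 3
    (.leaf (.psd ⟨⟨⟨1024, 0, 0⟩, ⟨(-7128), 1, 0⟩, ⟨0, 0, 1⟩⟩, ⟨⟨1, 0, 0⟩, ⟨7128, 1024, 0⟩, ⟨0, 0, 1024⟩⟩, 1024, ⟨206, 1048576, 1⟩⟩))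
    (.leaf (.psd ⟨⟨⟨1024, 0, 0⟩, ⟨(-5844), 1, 0⟩, ⟨0, 0, 1⟩⟩, ⟨⟨1, 0, 0⟩, ⟨5844, 1024, 0⟩, ⟨0, 0, 1024⟩⟩, 1024, ⟨1, 4096, 1⟩⟩))))
    (.node 1
    (.leaf (.psd ⟨⟨⟨1024, 0, 0⟩, ⟨(-6453), 1, 0⟩, ⟨0, 0, 1⟩⟩, ⟨⟨1, 0, 0⟩, ⟨6453, 1024, 0⟩, ⟨0, 0, 1024⟩⟩, 1024, ⟨1, 4096, 1⟩⟩))
    (.leaf (.psd ⟨⟨⟨1024, 0, 0⟩, ⟨(-4542), 1, 0⟩, ⟨0, 0, 1⟩⟩, ⟨⟨1, 0, 0⟩, ⟨4542, 1024, 0⟩, ⟨0, 0, 1024⟩⟩, 1024, ⟨308, 1048576, 1⟩⟩))))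
    (.node 1
    (.node 3
    (.leaf (.psd ⟨⟨⟨1024, 0, 0⟩, ⟨(-5998), 1, 0⟩, ⟨0, 0, 1⟩⟩, ⟨⟨1, 0, 0⟩, ⟨5998, 1024, 0⟩, ⟨0, 0, 1024⟩⟩, 1024, ⟨221, 1048576, 1⟩⟩))
    (.leaf (.psd ⟨⟨⟨1024, 0, 0⟩, ⟨(-4370), 1, 0⟩, ⟨0, 0, 1⟩⟩, ⟨⟨1, 0, 0⟩, ⟨4370, 1024, 0⟩, ⟨0, 0, 1024⟩⟩, 1024, ⟨322, 1048576, 1⟩⟩)))
    (.node 3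
    (.node 0
    (.node 1
    (.leaf (.psd ⟨⟨⟨1024, 0, 0⟩, ⟨(-4751), 1, 0⟩, ⟨0, 0, 1⟩⟩, ⟨⟨1, 0, 0⟩, ⟨4751, 1024, 0⟩, ⟨0, 0, 1024⟩⟩, 1024, ⟨1, 4096, 1⟩⟩))
    (.leaf (.psd ⟨⟨⟨1024, 0, 0⟩, ⟨(-3437), 1, 0⟩, ⟨0, 0, 1⟩⟩, ⟨⟨1, 0, 0⟩, ⟨3437, 1024, 0⟩, ⟨0, 0, 1024⟩⟩, 1024, ⟨389, 1048576, 1⟩⟩)))
    (.node 1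
    (.leaf (.psd ⟨⟨⟨1024, 0, 0⟩, ⟨(-3333), 1, 0⟩, ⟨0, 0, 1⟩⟩, ⟨⟨1, 0, 0⟩, ⟨3333, 1024, 0⟩, ⟨0, 0, 1024⟩⟩, 1024, ⟨403, 1048576, 1⟩⟩))
    (.node 3
    (.node 0
    (.leaf (.psd ⟨⟨⟨1024, 0, 0⟩, ⟨(-2667), 1, 0⟩, ⟨0, 0, 1⟩⟩, ⟨⟨1, 0, 0⟩, ⟨2667, 1024, 0⟩, ⟨0, 0, 1024⟩⟩, 1024, ⟨2, 4096, 1⟩⟩))
    (.leaf (.skip 8)))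
    (.node 0
    (.leaf (.psd ⟨⟨⟨1024, 0, 0⟩, ⟨(-2187), 1, 0⟩, ⟨0, 0, 1⟩⟩, ⟨⟨1, 0, 0⟩, ⟨2187, 1024, 0⟩, ⟨0, 0, 1024⟩⟩, 1024, ⟨715, 1048576, 1⟩⟩))
    (.leaf (.skip 8))))))
    (.node 0
    (.node 1
    (.leaf (.psd ⟨⟨⟨1024, 0, 0⟩, ⟨(-3434), 1, 0⟩, ⟨0, 0, 1⟩⟩, ⟨⟨1, 0, 0⟩, ⟨3434, 1024, 0⟩, ⟨0, 0, 1024⟩⟩, 1024, ⟨417, 1048576, 1⟩⟩))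
    (.leaf (.psd ⟨⟨⟨1024, 0, 0⟩, ⟨(-2476), 1, 0⟩, ⟨0, 0, 1⟩⟩, ⟨⟨1, 0, 0⟩, ⟨2476, 1024, 0⟩, ⟨0, 0, 1024⟩⟩, 1024, ⟨586, 1048576, 1⟩⟩)))
    (.node 1
    (.leaf (.psd ⟨⟨⟨1024, 0, 0⟩, ⟨(-2410), 1, 0⟩, ⟨0, 0, 1⟩⟩, ⟨⟨1, 0, 0⟩, ⟨2410, 1024, 0⟩, ⟨0, 0, 1024⟩⟩, 1024, ⟨602, 1048576, 1⟩⟩))
    (.node 0
    (.leaf (.psd ⟨⟨⟨1024, 0, 0⟩, ⟨(-1702), 1, 0⟩, ⟨0, 0, 1⟩⟩, ⟨⟨1, 0, 0⟩, ⟨1702, 1024, 0⟩, ⟨0, 0, 1024⟩⟩, 1024, ⟨847, 1048576, 1⟩⟩))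
    (.leaf (.skip 8)))))))))
    (.node 3
    (.node 0
    (.node 1
    (.leaf (.psd ⟨⟨⟨1024, 0, 0⟩, ⟨(-4447), 1, 0⟩, ⟨0, 0, 1⟩⟩, ⟨⟨1, 0, 0⟩, ⟨4447, 1024, 0⟩, ⟨0, 0, 1024⟩⟩, 1024, ⟨1, 4096, 1⟩⟩))
    (.node 3
    (.leaf (.psd ⟨⟨⟨1024, 0, 0⟩, ⟨(-3527), 1, 0⟩, ⟨0, 0, 1⟩⟩, ⟨⟨1, 0, 0⟩, ⟨3527, 1024, 0⟩, ⟨0, 0, 1024⟩⟩, 1024, ⟨414, 1048576, 1⟩⟩))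
    (.leaf (.psd ⟨⟨⟨1024, 0, 0⟩, ⟨(-2876), 1, 0⟩, ⟨0, 0, 1⟩⟩, ⟨⟨1, 0, 0⟩, ⟨2876, 1024, 0⟩, ⟨0, 0, 1024⟩⟩, 1024, ⟨2, 4096, 1⟩⟩))))
    (.node 1
    (.node 3
    (.leaf (.psd ⟨⟨⟨1024, 0, 0⟩, ⟨(-3413), 1, 0⟩, ⟨0, 0, 1⟩⟩, ⟨⟨1, 0, 0⟩, ⟨3413, 1024, 0⟩, ⟨0, 0, 1024⟩⟩, 1024, ⟨429, 1048576, 1⟩⟩))
    (.leaf (.psd ⟨⟨⟨1024, 0, 0⟩, ⟨(-2791), 1, 0⟩, ⟨0, 0, 1⟩⟩, ⟨⟨1, 0, 0⟩, ⟨2791, 1024, 0⟩, ⟨0, 0, 1024⟩⟩, 1024, ⟨2, 4096, 1⟩⟩)))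
    (.node 0
    (.node 1
    (.leaf (.psd ⟨⟨⟨1024, 0, 0⟩, ⟨(-2364), 1, 0⟩, ⟨0, 0, 1⟩⟩, ⟨⟨1, 0, 0⟩, ⟨2364, 1024, 0⟩, ⟨0, 0, 1024⟩⟩, 1024, ⟨2, 4096, 1⟩⟩))
    (.node 3
    (.leaf (.psd ⟨⟨⟨1024, 0, 0⟩, ⟨(-1927), 1, 0⟩, ⟨0, 0, 1⟩⟩, ⟨⟨1, 0, 0⟩, ⟨1927, 1024, 0⟩, ⟨0, 0, 1024⟩⟩, 1024, ⟨3, 4096, 1⟩⟩))
    (.leaf (.psd ⟨⟨⟨1024, 0, 0⟩, ⟨(-1574), 1, 0⟩, ⟨0, 0, 1⟩⟩, ⟨⟨1, 0, 0⟩, ⟨1574, 1024, 0⟩, ⟨0, 0, 1024⟩⟩, 1024, ⟨989, 1048576, 1⟩⟩))))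
    (.node 1
    (.node 3
    (.leaf (.psd ⟨⟨⟨1024, 0, 0⟩, ⟨(-1879), 1, 0⟩, ⟨0, 0, 1⟩⟩, ⟨⟨1, 0, 0⟩, ⟨1879, 1024, 0⟩, ⟨0, 0, 1024⟩⟩, 1024, ⟨3, 4096, 1⟩⟩))
    (.leaf (.psd ⟨⟨⟨1024, 0, 0⟩, ⟨(-1536), 1, 0⟩, ⟨0, 0, 1⟩⟩, ⟨⟨1, 0, 0⟩, ⟨1536, 1024, 0⟩, ⟨0, 0, 1024⟩⟩, 1024, ⟨1011, 1048576, 1⟩⟩)))
    (.node 3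
    (.node 0
    (.leaf (.psd ⟨⟨⟨1024, 0, 0⟩, ⟨(-1326), 1, 0⟩, ⟨0, 0, 1⟩⟩, ⟨⟨1, 0, 0⟩, ⟨1326, 1024, 0⟩, ⟨0, 0, 1024⟩⟩, 1024, ⟨4, 4096, 1⟩⟩))
    (.leaf (.skip 8)))
    (.node 0
    (.leaf (.psd ⟨⟨⟨1024, 0, 0⟩, ⟨(-1085), 1, 0⟩, ⟨0, 0, 1⟩⟩, ⟨⟨1, 0, 0⟩, ⟨1085, 1024, 0⟩, ⟨0, 0, 1024⟩⟩, 1024, ⟨5, 4096, 1⟩⟩))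
    (.leaf (.skip 8))))))))
    (.node 0
    (.node 1
    (.leaf (.psd ⟨⟨⟨1024, 0, 0⟩, ⟨(-3179), 1, 0⟩, ⟨0, 0, 1⟩⟩, ⟨⟨1, 0, 0⟩, ⟨3179, 1024, 0⟩, ⟨0, 0, 1024⟩⟩, 1024, ⟨431, 1048576, 1⟩⟩))
    (.leaf (.psd ⟨⟨⟨1024, 0, 0⟩, ⟨(-2224), 1, 0⟩, ⟨0, 0, 1⟩⟩, ⟨⟨1, 0, 0⟩, ⟨2224, 1024, 0⟩, ⟨0, 0, 1024⟩⟩, 1024, ⟨626, 1048576, 1⟩⟩)))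
    (.node 1
    (.leaf (.psd ⟨⟨⟨1024, 0, 0⟩, ⟨(-2164), 1, 0⟩, ⟨0, 0, 1⟩⟩, ⟨⟨1, 0, 0⟩, ⟨2164, 1024, 0⟩, ⟨0, 0, 1024⟩⟩, 1024, ⟨644, 1048576, 1⟩⟩))
    (.node 0
    (.node 1
    (.leaf (.psd ⟨⟨⟨1024, 0, 0⟩, ⟨(-1695), 1, 0⟩, ⟨0, 0, 1⟩⟩, ⟨⟨1, 0, 0⟩, ⟨1695, 1024, 0⟩, ⟨0, 0, 1024⟩⟩, 1024, ⟨3, 4096, 1⟩⟩))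
    (.leaf (.psd ⟨⟨⟨1024, 0, 0⟩, ⟨(-1221), 1, 0⟩, ⟨0, 0, 1⟩⟩, ⟨⟨1, 0, 0⟩, ⟨1221, 1024, 0⟩, ⟨0, 0, 1024⟩⟩, 1024, ⟨1175, 1048576, 1⟩⟩)))
    (.node 1
    (.leaf (.psd ⟨⟨⟨1024, 0, 0⟩, ⟨(-1192), 1, 0⟩, ⟨0, 0, 1⟩⟩, ⟨⟨1, 0, 0⟩, ⟨1192, 1024, 0⟩, ⟨0, 0, 1024⟩⟩, 1024, ⟨1200, 1048576, 1⟩⟩))
    (.node 0
    (.leaf (.psd ⟨⟨⟨1024, 0, 0⟩, ⟨(-842), 1, 0⟩, ⟨0, 0, 1⟩⟩, ⟨⟨1, 0, 0⟩, ⟨842, 1024, 0⟩, ⟨0, 0, 1024⟩⟩, 1024, ⟨1676, 1048576, 1⟩⟩))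
    (.leaf (.skip 8)))))))))
    (.node 0
    (.node 3
    (.node 1
    (.node 3
    (.leaf (.skip 7))
    (.node 3
    (.node 0
    (.node 1
    (.leaf (.psd ⟨⟨⟨1024, 0, 0⟩, ⟨(-5018), 1, 0⟩, ⟨0, 0, 1⟩⟩, ⟨⟨1, 0, 0⟩, ⟨5018, 1024, 0⟩, ⟨0, 0, 1024⟩⟩, 1024, ⟨1, 4096, 1⟩⟩))
    (.leaf (.psd ⟨⟨⟨1024, 0, 0⟩, ⟨(-3673), 1, 0⟩, ⟨0, 0, 1⟩⟩, ⟨⟨1, 0, 0⟩, ⟨3673, 1024, 0⟩, ⟨0, 0, 1024⟩⟩, 1024, ⟨361, 1048576, 1⟩⟩)))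
    (.node 1
    (.leaf (.psd ⟨⟨⟨1024, 0, 0⟩, ⟨(-3550), 1, 0⟩, ⟨0, 0, 1⟩⟩, ⟨⟨1, 0, 0⟩, ⟨3550, 1024, 0⟩, ⟨0, 0, 1024⟩⟩, 1024, ⟨375, 1048576, 1⟩⟩))
    (.node 3
    (.node 0
    (.leaf (.psd ⟨⟨⟨1024, 0, 0⟩, ⟨(-2909), 1, 0⟩, ⟨0, 0, 1⟩⟩, ⟨⟨1, 0, 0⟩, ⟨2909, 1024, 0⟩, ⟨0, 0, 1024⟩⟩, 1024, ⟨2, 4096, 1⟩⟩))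
    (.leaf (.skip 8)))
    (.node 0
    (.leaf (.psd ⟨⟨⟨1024, 0, 0⟩, ⟨(-2378), 1, 0⟩, ⟨0, 0, 1⟩⟩, ⟨⟨1, 0, 0⟩, ⟨2378, 1024, 0⟩, ⟨0, 0, 1024⟩⟩, 1024, ⟨663, 1048576, 1⟩⟩))
    (.leaf (.skip 8))))))
    (.node 0
    (.leaf (.psd ⟨⟨⟨1024, 0, 0⟩, ⟨(-3125), 1, 0⟩, ⟨0, 0, 1⟩⟩, ⟨⟨1, 0, 0⟩, ⟨3125, 1024, 0⟩, ⟨0, 0, 1024⟩⟩, 1024, ⟨446, 1048576, 1⟩⟩))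
    (.node 1
    (.leaf (.psd ⟨⟨⟨1024, 0, 0⟩, ⟨(-2550), 1, 0⟩, ⟨0, 0, 1⟩⟩, ⟨⟨1, 0, 0⟩, ⟨2550, 1024, 0⟩, ⟨0, 0, 1024⟩⟩, 1024, ⟨2, 4096, 1⟩⟩))
    (.node 0
    (.leaf (.psd ⟨⟨⟨1024, 0, 0⟩, ⟨(-1846), 1, 0⟩, ⟨0, 0, 1⟩⟩, ⟨⟨1, 0, 0⟩, ⟨1846, 1024, 0⟩, ⟨0, 0, 1024⟩⟩, 1024, ⟨3, 4096, 1⟩⟩))
    (.leaf (.skip 8)))))))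
    (.node 3
    (.leaf (.skip 7))
    (.node 0
    (.node 1
    (.node 3
    (.node 3
    (.node 0
    (.leaf (.psd ⟨⟨⟨1024, 0, 0⟩, ⟨(-3050), 1, 0⟩, ⟨0, 0, 1⟩⟩, ⟨⟨1, 0, 0⟩, ⟨3050, 1024, 0⟩, ⟨0, 0, 1024⟩⟩, 1024, ⟨502, 1048576, 1⟩⟩))
    (.leaf (.skip 8)))
    (.node 0
    (.leaf (.psd ⟨⟨⟨1024, 0, 0⟩, ⟨(-2490), 1, 0⟩, ⟨0, 0, 1⟩⟩, ⟨⟨1, 0, 0⟩, ⟨2490, 1024, 0⟩, ⟨0, 0, 1024⟩⟩, 1024, ⟨2, 4096, 1⟩⟩))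
    (.leaf (.skip 8))))
    (.node 0
    (.leaf (.psd ⟨⟨⟨1024, 0, 0⟩, ⟨(-1931), 1, 0⟩, ⟨0, 0, 1⟩⟩, ⟨⟨1, 0, 0⟩, ⟨1931, 1024, 0⟩, ⟨0, 0, 1024⟩⟩, 1024, ⟨757, 1048576, 1⟩⟩))
    (.leaf (.skip 8))))
    (.leaf (.skip 8)))
    (.leaf (.skip 8)))))
    (.node 1
    (.node 3
    (.node 0
    (.node 1
    (.leaf (.psd ⟨⟨⟨1024, 0, 0⟩, ⟨(-2464), 1, 0⟩, ⟨0, 0, 1⟩⟩, ⟨⟨1, 0, 0⟩, ⟨2464, 1024, 0⟩, ⟨0, 0, 1024⟩⟩, 1024, ⟨2, 4096, 1⟩⟩))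
    (.leaf (.psd ⟨⟨⟨1024, 0, 0⟩, ⟨(-1804), 1, 0⟩, ⟨0, 0, 1⟩⟩, ⟨⟨1, 0, 0⟩, ⟨1804, 1024, 0⟩, ⟨0, 0, 1024⟩⟩, 1024, ⟨736, 1048576, 1⟩⟩)))
    (.node 1
    (.leaf (.psd ⟨⟨⟨1024, 0, 0⟩, ⟨(-1750), 1, 0⟩, ⟨0, 0, 1⟩⟩, ⟨⟨1, 0, 0⟩, ⟨1750, 1024, 0⟩, ⟨0, 0, 1024⟩⟩, 1024, ⟨757, 1048576, 1⟩⟩))
    (.node 3
    (.node 0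
    (.leaf (.psd ⟨⟨⟨1024, 0, 0⟩, ⟨(-1436), 1, 0⟩, ⟨0, 0, 1⟩⟩, ⟨⟨1, 0, 0⟩, ⟨1436, 1024, 0⟩, ⟨0, 0, 1024⟩⟩, 1024, ⟨4, 4096, 1⟩⟩))
    (.leaf (.skip 8)))
    (.node 0
    (.leaf (.psd ⟨⟨⟨1024, 0, 0⟩, ⟨(-1173), 1, 0⟩, ⟨0, 0, 1⟩⟩, ⟨⟨1, 0, 0⟩, ⟨1173, 1024, 0⟩, ⟨0, 0, 1024⟩⟩, 1024, ⟨5, 4096, 1⟩⟩))
    (.leaf (.skip 8))))))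
    (.node 0
    (.leaf (.psd ⟨⟨⟨1024, 0, 0⟩, ⟨(-1530), 1, 0⟩, ⟨0, 0, 1⟩⟩, ⟨⟨1, 0, 0⟩, ⟨1530, 1024, 0⟩, ⟨0, 0, 1024⟩⟩, 1024, ⟨905, 1048576, 1⟩⟩))
    (.node 1
    (.leaf (.psd ⟨⟨⟨1024, 0, 0⟩, ⟨(-1254), 1, 0⟩, ⟨0, 0, 1⟩⟩, ⟨⟨1, 0, 0⟩, ⟨1254, 1024, 0⟩, ⟨0, 0, 1024⟩⟩, 1024, ⟨4, 4096, 1⟩⟩))
    (.node 0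
    (.leaf (.psd ⟨⟨⟨1024, 0, 0⟩, ⟨(-910), 1, 0⟩, ⟨0, 0, 1⟩⟩, ⟨⟨1, 0, 0⟩, ⟨910, 1024, 0⟩, ⟨0, 0, 1024⟩⟩, 1024, ⟨6, 4096, 1⟩⟩))
    (.leaf (.skip 8))))))
    (.node 0
    (.node 1
    (.node 3
    (.node 3
    (.node 0
    (.leaf (.psd ⟨⟨⟨1024, 0, 0⟩, ⟨(-1502), 1, 0⟩, ⟨0, 0, 1⟩⟩, ⟨⟨1, 0, 0⟩, ⟨1502, 1024, 0⟩, ⟨0, 0, 1024⟩⟩, 1024, ⟨1019, 1048576, 1⟩⟩))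
    (.leaf (.skip 8)))
    (.node 0
    (.leaf (.psd ⟨⟨⟨1024, 0, 0⟩, ⟨(-1227), 1, 0⟩, ⟨0, 0, 1⟩⟩, ⟨⟨1, 0, 0⟩, ⟨1227, 1024, 0⟩, ⟨0, 0, 1024⟩⟩, 1024, ⟨4, 4096, 1⟩⟩))
    (.leaf (.skip 8))))
    (.node 0
    (.leaf (.psd ⟨⟨⟨1024, 0, 0⟩, ⟨(-951), 1, 0⟩, ⟨0, 0, 1⟩⟩, ⟨⟨1, 0, 0⟩, ⟨951, 1024, 0⟩, ⟨0, 0, 1024⟩⟩, 1024, ⟨1513, 1048576, 1⟩⟩))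
    (.node 1
    (.leaf (.psd ⟨⟨⟨1024, 0, 0⟩, ⟨(-812), 1, 0⟩, ⟨0, 0, 1⟩⟩, ⟨⟨1, 0, 0⟩, ⟨812, 1024, 0⟩, ⟨0, 0, 1024⟩⟩, 1024, ⟨6, 4096, 1⟩⟩))
    (.leaf (.skip 8)))))
    (.leaf (.skip 8)))
    (.leaf (.skip 8)))))
    (.node 1
    (.node 3
    (.node 3
    (.leaf (.skip 7))
    (.node 0
    (.node 1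
    (.node 3
    (.node 3
    (.node 0
    (.leaf (.psd ⟨⟨⟨1024, 0, 0⟩, ⟨(-2782), 1, 0⟩, ⟨0, 0, 1⟩⟩, ⟨⟨1, 0, 0⟩, ⟨2782, 1024, 0⟩, ⟨0, 0, 1024⟩⟩, 1024, ⟨2, 4096, 1⟩⟩))
    (.leaf (.skip 8)))
    (.node 0
    (.leaf (.psd ⟨⟨⟨1024, 0, 0⟩, ⟨(-2277), 1, 0⟩, ⟨0, 0, 1⟩⟩, ⟨⟨1, 0, 0⟩, ⟨2277, 1024, 0⟩, ⟨0, 0, 1024⟩⟩, 1024, ⟨690, 1048576, 1⟩⟩))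
    (.leaf (.skip 8))))
    (.node 0
    (.leaf (.psd ⟨⟨⟨1024, 0, 0⟩, ⟨(-1770), 1, 0⟩, ⟨0, 0, 1⟩⟩, ⟨⟨1, 0, 0⟩, ⟨1770, 1024, 0⟩, ⟨0, 0, 1024⟩⟩, 1024, ⟨3, 4096, 1⟩⟩))
    (.leaf (.skip 8))))
    (.leaf (.skip 8)))
    (.leaf (.skip 8))))
    (.node 0
    (.node 1
    (.node 3
    (.node 3
    (.node 0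
    (.leaf (.psd ⟨⟨⟨1024, 0, 0⟩, ⟨(-1378), 1, 0⟩, ⟨0, 0, 1⟩⟩, ⟨⟨1, 0, 0⟩, ⟨1378, 1024, 0⟩, ⟨0, 0, 1024⟩⟩, 1024, ⟨4, 4096, 1⟩⟩))
    (.leaf (.skip 8)))
    (.node 0
    (.leaf (.psd ⟨⟨⟨1024, 0, 0⟩, ⟨(-1126), 1, 0⟩, ⟨0, 0, 1⟩⟩, ⟨⟨1, 0, 0⟩, ⟨1126, 1024, 0⟩, ⟨0, 0, 1024⟩⟩, 1024, ⟨5, 4096, 1⟩⟩))
    (.leaf (.skip 8))))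
    (.node 0
    (.leaf (.psd ⟨⟨⟨1024, 0, 0⟩, ⟨(-874), 1, 0⟩, ⟨0, 0, 1⟩⟩, ⟨⟨1, 0, 0⟩, ⟨874, 1024, 0⟩, ⟨0, 0, 1024⟩⟩, 1024, ⟨6, 4096, 1⟩⟩))
    (.leaf (.skip 8))))
    (.leaf (.skip 8)))
    (.leaf (.skip 8))))
    (.leaf (.skip 8))))

theorem chunk8 : Check.Good ⟨false, false, false⟩ cfg (reach cfg base [(0, false), (1, true), (0, true), (3, false), (3, false), (1, true), (3, false), (0, false), (0, true), (1, true), (3, false), (3, false), (0, true), (1, true), (0, true)]) :=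
  Check.check_sound tree8 (by decide +kernel)

/-- A subtree. -/
def tree9 : Check.Tree Check.Leaf :=
  .node 1
    (.node 0
    (.node 3
    (.node 1
    (.node 3
    (.node 3
    (.leaf (.skip 7))
    (.node 3
    (.leaf (.skip 7))
    (.node 1
    (.leaf (.psd ⟨⟨⟨1024, 0, 0⟩, ⟨(-5371), 1, 0⟩, ⟨0, 0, 1⟩⟩, ⟨⟨1, 0, 0⟩, ⟨5371, 1024, 0⟩, ⟨0, 0, 1024⟩⟩, 1024, ⟨1, 4096, 1⟩⟩))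
    (.node 0
    (.leaf (.psd ⟨⟨⟨1024, 0, 0⟩, ⟨(-4577), 1, 0⟩, ⟨0, 0, 1⟩⟩, ⟨⟨1, 0, 0⟩, ⟨4577, 1024, 0⟩, ⟨0, 0, 1024⟩⟩, 1024, ⟨322, 1048576, 1⟩⟩))
    (.leaf (.skip 8))))))
    (.node 3
    (.node 0
    (.node 1
    (.leaf (.psd ⟨⟨⟨1024, 0, 0⟩, ⟨(-4500), 1, 0⟩, ⟨0, 0, 1⟩⟩, ⟨⟨1, 0, 0⟩, ⟨4500, 1024, 0⟩, ⟨0, 0, 1024⟩⟩, 1024, ⟨1, 4096, 1⟩⟩))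
    (.leaf (.psd ⟨⟨⟨1024, 0, 0⟩, ⟨(-3236), 1, 0⟩, ⟨0, 0, 1⟩⟩, ⟨⟨1, 0, 0⟩, ⟨3236, 1024, 0⟩, ⟨0, 0, 1024⟩⟩, 1024, ⟨418, 1048576, 1⟩⟩)))
    (.node 1
    (.leaf (.psd ⟨⟨⟨1024, 0, 0⟩, ⟨(-3144), 1, 0⟩, ⟨0, 0, 1⟩⟩, ⟨⟨1, 0, 0⟩, ⟨3144, 1024, 0⟩, ⟨0, 0, 1024⟩⟩, 1024, ⟨433, 1048576, 1⟩⟩))
    (.leaf (.skip 8))))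
    (.node 0
    (.node 1
    (.leaf (.psd ⟨⟨⟨1024, 0, 0⟩, ⟨(-3297), 1, 0⟩, ⟨0, 0, 1⟩⟩, ⟨⟨1, 0, 0⟩, ⟨3297, 1024, 0⟩, ⟨0, 0, 1024⟩⟩, 1024, ⟨437, 1048576, 1⟩⟩))
    (.leaf (.psd ⟨⟨⟨1024, 0, 0⟩, ⟨(-2351), 1, 0⟩, ⟨0, 0, 1⟩⟩, ⟨⟨1, 0, 0⟩, ⟨2351, 1024, 0⟩, ⟨0, 0, 1024⟩⟩, 1024, ⟨617, 1048576, 1⟩⟩)))
    (.node 1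
    (.leaf (.psd ⟨⟨⟨1024, 0, 0⟩, ⟨(-2300), 1, 0⟩, ⟨0, 0, 1⟩⟩, ⟨⟨1, 0, 0⟩, ⟨2300, 1024, 0⟩, ⟨0, 0, 1024⟩⟩, 1024, ⟨632, 1048576, 1⟩⟩))
    (.node 0
    (.leaf (.psd ⟨⟨⟨1024, 0, 0⟩, ⟨(-1594), 1, 0⟩, ⟨0, 0, 1⟩⟩, ⟨⟨1, 0, 0⟩, ⟨1594, 1024, 0⟩, ⟨0, 0, 1024⟩⟩, 1024, ⟨897, 1048576, 1⟩⟩))
    (.leaf (.skip 8)))))))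
    (.node 3
    (.node 0
    (.node 3
    (.leaf (.skip 7))
    (.node 1
    (.node 3
    (.leaf (.skip 7))
    (.node 0
    (.leaf (.psd ⟨⟨⟨1024, 0, 0⟩, ⟨(-3256), 1, 0⟩, ⟨0, 0, 1⟩⟩, ⟨⟨1, 0, 0⟩, ⟨3256, 1024, 0⟩, ⟨0, 0, 1024⟩⟩, 1024, ⟨451, 1048576, 1⟩⟩))
    (.leaf (.skip 8))))
    (.leaf (.skip 7))))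
    (.leaf (.skip 8)))
    (.node 0
    (.node 1
    (.node 3
    (.node 3
    (.node 0
    (.leaf (.psd ⟨⟨⟨1024, 0, 0⟩, ⟨(-2563), 1, 0⟩, ⟨0, 0, 1⟩⟩, ⟨⟨1, 0, 0⟩, ⟨2563, 1024, 0⟩, ⟨0, 0, 1024⟩⟩, 1024, ⟨593, 1048576, 1⟩⟩))
    (.leaf (.skip 8)))
    (.node 0
    (.leaf (.psd ⟨⟨⟨1024, 0, 0⟩, ⟨(-2108), 1, 0⟩, ⟨0, 0, 1⟩⟩, ⟨⟨1, 0, 0⟩, ⟨2108, 1024, 0⟩, ⟨0, 0, 1024⟩⟩, 1024, ⟨739, 1048576, 1⟩⟩))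
    (.leaf (.skip 8))))
    (.node 0
    (.leaf (.psd ⟨⟨⟨1024, 0, 0⟩, ⟨(-1644), 1, 0⟩, ⟨0, 0, 1⟩⟩, ⟨⟨1, 0, 0⟩, ⟨1644, 1024, 0⟩, ⟨0, 0, 1024⟩⟩, 1024, ⟨873, 1048576, 1⟩⟩))
    (.leaf (.skip 8))))
    (.leaf (.skip 8)))
    (.leaf (.skip 8)))))
    (.node 1
    (.node 3
    (.node 0
    (.node 1
    (.leaf (.psd ⟨⟨⟨1024, 0, 0⟩, ⟨(-2286), 1, 0⟩, ⟨0, 0, 1⟩⟩, ⟨⟨1, 0, 0⟩, ⟨2286, 1024, 0⟩, ⟨0, 0, 1024⟩⟩, 1024, ⟨2, 4096, 1⟩⟩))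
    (.node 3
    (.leaf (.psd ⟨⟨⟨1024, 0, 0⟩, ⟨(-1837), 1, 0⟩, ⟨0, 0, 1⟩⟩, ⟨⟨1, 0, 0⟩, ⟨1837, 1024, 0⟩, ⟨0, 0, 1024⟩⟩, 1024, ⟨3, 4096, 1⟩⟩))
    (.leaf (.psd ⟨⟨⟨1024, 0, 0⟩, ⟨(-1504), 1, 0⟩, ⟨0, 0, 1⟩⟩, ⟨⟨1, 0, 0⟩, ⟨1504, 1024, 0⟩, ⟨0, 0, 1024⟩⟩, 1024, ⟨4, 4096, 1⟩⟩))))
    (.node 1
    (.node 3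
    (.leaf (.psd ⟨⟨⟨1024, 0, 0⟩, ⟨(-1802), 1, 0⟩, ⟨0, 0, 1⟩⟩, ⟨⟨1, 0, 0⟩, ⟨1802, 1024, 0⟩, ⟨0, 0, 1024⟩⟩, 1024, ⟨3, 4096, 1⟩⟩))
    (.leaf (.psd ⟨⟨⟨1024, 0, 0⟩, ⟨(-1477), 1, 0⟩, ⟨0, 0, 1⟩⟩, ⟨⟨1, 0, 0⟩, ⟨1477, 1024, 0⟩, ⟨0, 0, 1024⟩⟩, 1024, ⟨4, 4096, 1⟩⟩)))
    (.node 0
    (.node 3
    (.leaf (.psd ⟨⟨⟨1024, 0, 0⟩, ⟨(-1245), 1, 0⟩, ⟨0, 0, 1⟩⟩, ⟨⟨1, 0, 0⟩, ⟨1245, 1024, 0⟩, ⟨0, 0, 1024⟩⟩, 1024, ⟨1193, 1048576, 1⟩⟩))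
    (.leaf (.psd ⟨⟨⟨1024, 0, 0⟩, ⟨(-1020), 1, 0⟩, ⟨0, 0, 1⟩⟩, ⟨⟨1, 0, 0⟩, ⟨1020, 1024, 0⟩, ⟨0, 0, 1024⟩⟩, 1024, ⟨1491, 1048576, 1⟩⟩)))
    (.leaf (.skip 8)))))
    (.node 0
    (.node 1
    (.leaf (.psd ⟨⟨⟨1024, 0, 0⟩, ⟨(-1645), 1, 0⟩, ⟨0, 0, 1⟩⟩, ⟨⟨1, 0, 0⟩, ⟨1645, 1024, 0⟩, ⟨0, 0, 1024⟩⟩, 1024, ⟨3, 4096, 1⟩⟩))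
    (.leaf (.psd ⟨⟨⟨1024, 0, 0⟩, ⟨(-1168), 1, 0⟩, ⟨0, 0, 1⟩⟩, ⟨⟨1, 0, 0⟩, ⟨1168, 1024, 0⟩, ⟨0, 0, 1024⟩⟩, 1024, ⟨1223, 1048576, 1⟩⟩)))
    (.node 1
    (.leaf (.psd ⟨⟨⟨1024, 0, 0⟩, ⟨(-1148), 1, 0⟩, ⟨0, 0, 1⟩⟩, ⟨⟨1, 0, 0⟩, ⟨1148, 1024, 0⟩, ⟨0, 0, 1024⟩⟩, 1024, ⟨1242, 1048576, 1⟩⟩))
    (.node 0
    (.leaf (.psd ⟨⟨⟨1024, 0, 0⟩, ⟨(-792), 1, 0⟩, ⟨0, 0, 1⟩⟩, ⟨⟨1, 0, 0⟩, ⟨792, 1024, 0⟩, ⟨0, 0, 1024⟩⟩, 1024, ⟨1755, 1048576, 1⟩⟩))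
    (.leaf (.skip 8))))))
    (.node 0
    (.node 1
    (.node 3
    (.node 3
    (.node 0
    (.leaf (.psd ⟨⟨⟨1024, 0, 0⟩, ⟨(-1282), 1, 0⟩, ⟨0, 0, 1⟩⟩, ⟨⟨1, 0, 0⟩, ⟨1282, 1024, 0⟩, ⟨0, 0, 1024⟩⟩, 1024, ⟨1165, 1048576, 1⟩⟩))
    (.leaf (.skip 8)))
    (.node 0
    (.leaf (.psd ⟨⟨⟨1024, 0, 0⟩, ⟨(-1049), 1, 0⟩, ⟨0, 0, 1⟩⟩, ⟨⟨1, 0, 0⟩, ⟨1049, 1024, 0⟩, ⟨0, 0, 1024⟩⟩, 1024, ⟨5, 4096, 1⟩⟩))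
    (.leaf (.skip 8))))
    (.node 0
    (.leaf (.psd ⟨⟨⟨1024, 0, 0⟩, ⟨(-815), 1, 0⟩, ⟨0, 0, 1⟩⟩, ⟨⟨1, 0, 0⟩, ⟨815, 1024, 0⟩, ⟨0, 0, 1024⟩⟩, 1024, ⟨1719, 1048576, 1⟩⟩))
    (.leaf (.skip 8))))
    (.leaf (.skip 8)))
    (.leaf (.skip 8)))))
    (.node 3
    (.leaf (.skip 8))
    (.node 1
    (.node 0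
    (.node 1
    (.node 3
    (.node 0
    (.node 3
    (.leaf (.psd ⟨⟨⟨1024, 0, 0⟩, ⟨(-1215), 1, 0⟩, ⟨0, 0, 1⟩⟩, ⟨⟨1, 0, 0⟩, ⟨1215, 1024, 0⟩, ⟨0, 0, 1024⟩⟩, 1024, ⟨1217, 1048576, 1⟩⟩))
    (.leaf (.psd ⟨⟨⟨1024, 0, 0⟩, ⟨(-996), 1, 0⟩, ⟨0, 0, 1⟩⟩, ⟨⟨1, 0, 0⟩, ⟨996, 1024, 0⟩, ⟨0, 0, 1024⟩⟩, 1024, ⟨1518, 1048576, 1⟩⟩)))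
    (.leaf (.skip 8)))
    (.node 0
    (.leaf (.psd ⟨⟨⟨1024, 0, 0⟩, ⟨(-774), 1, 0⟩, ⟨0, 0, 1⟩⟩, ⟨⟨1, 0, 0⟩, ⟨774, 1024, 0⟩, ⟨0, 0, 1024⟩⟩, 1024, ⟨1786, 1048576, 1⟩⟩))
    (.leaf (.skip 8))))
    (.leaf (.skip 8)))
    (.leaf (.skip 8)))
    (.leaf (.skip 8)))))
    (.leaf (.skip 8))

theorem chunk9 : Check.Good ⟨false, false, false⟩ cfg (reach cfg base [(0, true), (1, true), (0, true), (3, false), (3, false), (1, true), (3, false), (0, false), (0, true), (1, true), (3, false), (3, false), (0, true), (1, true), (0, true)]) :=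
  Check.check_sound tree9 (by decide +kernel)

/-- A subtree. -/
def tree10 : Check.Tree Check.Leaf :=
  .node 0
    (.node 1
    (.node 3
    (.node 0
    (.leaf (.psd ⟨⟨⟨1024, 0, 0⟩, ⟨(-6360), 1, 0⟩, ⟨0, 0, 1⟩⟩, ⟨⟨1, 0, 0⟩, ⟨6360, 1024, 0⟩, ⟨0, 0, 1024⟩⟩, 1024, ⟨181, 1048576, 1⟩⟩))
    (.leaf (.psd ⟨⟨⟨1024, 0, 0⟩, ⟨(-4925), 1, 0⟩, ⟨0, 0, 1⟩⟩, ⟨⟨1, 0, 0⟩, ⟨4925, 1024, 0⟩, ⟨0, 0, 1024⟩⟩, 1024, ⟨1, 4096, 1⟩⟩)))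
    (.leaf (.psd ⟨⟨⟨1024, 0, 0⟩, ⟨(-3976), 1, 0⟩, ⟨0, 0, 1⟩⟩, ⟨⟨1, 0, 0⟩, ⟨3976, 1024, 0⟩, ⟨0, 0, 1024⟩⟩, 1024, ⟨323, 1048576, 1⟩⟩)))
    (.node 3
    (.node 0
    (.node 1
    (.leaf (.psd ⟨⟨⟨1024, 0, 0⟩, ⟨(-4332), 1, 0⟩, ⟨0, 0, 1⟩⟩, ⟨⟨1, 0, 0⟩, ⟨4332, 1024, 0⟩, ⟨0, 0, 1024⟩⟩, 1024, ⟨1, 4096, 1⟩⟩))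
    (.node 3
    (.leaf (.psd ⟨⟨⟨1024, 0, 0⟩, ⟨(-3447), 1, 0⟩, ⟨0, 0, 1⟩⟩, ⟨⟨1, 0, 0⟩, ⟨3447, 1024, 0⟩, ⟨0, 0, 1024⟩⟩, 1024, ⟨405, 1048576, 1⟩⟩))
    (.leaf (.psd ⟨⟨⟨1024, 0, 0⟩, ⟨(-2789), 1, 0⟩, ⟨0, 0, 1⟩⟩, ⟨⟨1, 0, 0⟩, ⟨2789, 1024, 0⟩, ⟨0, 0, 1024⟩⟩, 1024, ⟨2, 4096, 1⟩⟩))))
    (.node 1
    (.node 3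
    (.leaf (.psd ⟨⟨⟨1024, 0, 0⟩, ⟨(-3297), 1, 0⟩, ⟨0, 0, 1⟩⟩, ⟨⟨1, 0, 0⟩, ⟨3297, 1024, 0⟩, ⟨0, 0, 1024⟩⟩, 1024, ⟨423, 1048576, 1⟩⟩))
    (.leaf (.psd ⟨⟨⟨1024, 0, 0⟩, ⟨(-2671), 1, 0⟩, ⟨0, 0, 1⟩⟩, ⟨⟨1, 0, 0⟩, ⟨2671, 1024, 0⟩, ⟨0, 0, 1024⟩⟩, 1024, ⟨2, 4096, 1⟩⟩)))
    (.node 0
    (.node 1
    (.leaf (.psd ⟨⟨⟨1024, 0, 0⟩, ⟨(-2269), 1, 0⟩, ⟨0, 0, 1⟩⟩, ⟨⟨1, 0, 0⟩, ⟨2269, 1024, 0⟩, ⟨0, 0, 1024⟩⟩, 1024, ⟨2, 4096, 1⟩⟩))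
    (.node 3
    (.leaf (.psd ⟨⟨⟨1024, 0, 0⟩, ⟨(-1854), 1, 0⟩, ⟨0, 0, 1⟩⟩, ⟨⟨1, 0, 0⟩, ⟨1854, 1024, 0⟩, ⟨0, 0, 1024⟩⟩, 1024, ⟨3, 4096, 1⟩⟩))
    (.leaf (.psd ⟨⟨⟨1024, 0, 0⟩, ⟨(-1507), 1, 0⟩, ⟨0, 0, 1⟩⟩, ⟨⟨1, 0, 0⟩, ⟨1507, 1024, 0⟩, ⟨0, 0, 1024⟩⟩, 1024, ⟨997, 1048576, 1⟩⟩))))
    (.node 1
    (.node 3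
    (.leaf (.psd ⟨⟨⟨1024, 0, 0⟩, ⟨(-1781), 1, 0⟩, ⟨0, 0, 1⟩⟩, ⟨⟨1, 0, 0⟩, ⟨1781, 1024, 0⟩, ⟨0, 0, 1024⟩⟩, 1024, ⟨3, 4096, 1⟩⟩))
    (.leaf (.psd ⟨⟨⟨1024, 0, 0⟩, ⟨(-1448), 1, 0⟩, ⟨0, 0, 1⟩⟩, ⟨⟨1, 0, 0⟩, ⟨1448, 1024, 0⟩, ⟨0, 0, 1024⟩⟩, 1024, ⟨4, 4096, 1⟩⟩)))
    (.node 0
    (.node 3
    (.leaf (.psd ⟨⟨⟨1024, 0, 0⟩, ⟨(-1254), 1, 0⟩, ⟨0, 0, 1⟩⟩, ⟨⟨1, 0, 0⟩, ⟨1254, 1024, 0⟩, ⟨0, 0, 1024⟩⟩, 1024, ⟨1166, 1048576, 1⟩⟩))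
    (.leaf (.psd ⟨⟨⟨1024, 0, 0⟩, ⟨(-1021), 1, 0⟩, ⟨0, 0, 1⟩⟩, ⟨⟨1, 0, 0⟩, ⟨1021, 1024, 0⟩, ⟨0, 0, 1024⟩⟩, 1024, ⟨5, 4096, 1⟩⟩)))
    (.node 1
    (.leaf (.psd ⟨⟨⟨1024, 0, 0⟩, ⟨(-914), 1, 0⟩, ⟨0, 0, 1⟩⟩, ⟨⟨1, 0, 0⟩, ⟨914, 1024, 0⟩, ⟨0, 0, 1024⟩⟩, 1024, ⟨1429, 1048576, 1⟩⟩))
    (.node 3
    (.leaf (.psd ⟨⟨⟨1024, 0, 0⟩, ⟨(-676), 1, 0⟩, ⟨0, 0, 1⟩⟩, ⟨⟨1, 0, 0⟩, ⟨676, 1024, 0⟩, ⟨0, 0, 1024⟩⟩, 1024, ⟨2002, 1048576, 1⟩⟩))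
    (.leaf (.psd ⟨⟨⟨1024, 0, 0⟩, ⟨(-552), 1, 0⟩, ⟨0, 0, 1⟩⟩, ⟨⟨1, 0, 0⟩, ⟨552, 1024, 0⟩, ⟨0, 0, 1024⟩⟩, 1024, ⟨2504, 1048576, 1⟩⟩)))))))))
    (.node 0
    (.node 1
    (.leaf (.psd ⟨⟨⟨1024, 0, 0⟩, ⟨(-3047), 1, 0⟩, ⟨0, 0, 1⟩⟩, ⟨⟨1, 0, 0⟩, ⟨3047, 1024, 0⟩, ⟨0, 0, 1024⟩⟩, 1024, ⟨414, 1048576, 1⟩⟩))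
    (.leaf (.psd ⟨⟨⟨1024, 0, 0⟩, ⟨(-2139), 1, 0⟩, ⟨0, 0, 1⟩⟩, ⟨⟨1, 0, 0⟩, ⟨2139, 1024, 0⟩, ⟨0, 0, 1024⟩⟩, 1024, ⟨623, 1048576, 1⟩⟩)))
    (.node 1
    (.leaf (.psd ⟨⟨⟨1024, 0, 0⟩, ⟨(-2051), 1, 0⟩, ⟨0, 0, 1⟩⟩, ⟨⟨1, 0, 0⟩, ⟨2051, 1024, 0⟩, ⟨0, 0, 1024⟩⟩, 1024, ⟨649, 1048576, 1⟩⟩))
    (.node 0
    (.node 1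
    (.leaf (.psd ⟨⟨⟨1024, 0, 0⟩, ⟨(-1610), 1, 0⟩, ⟨0, 0, 1⟩⟩, ⟨⟨1, 0, 0⟩, ⟨1610, 1024, 0⟩, ⟨0, 0, 1024⟩⟩, 1024, ⟨3, 4096, 1⟩⟩))
    (.leaf (.psd ⟨⟨⟨1024, 0, 0⟩, ⟨(-1161), 1, 0⟩, ⟨0, 0, 1⟩⟩, ⟨⟨1, 0, 0⟩, ⟨1161, 1024, 0⟩, ⟨0, 0, 1024⟩⟩, 1024, ⟨1192, 1048576, 1⟩⟩)))
    (.node 1
    (.leaf (.psd ⟨⟨⟨1024, 0, 0⟩, ⟨(-1116), 1, 0⟩, ⟨0, 0, 1⟩⟩, ⟨⟨1, 0, 0⟩, ⟨1116, 1024, 0⟩, ⟨0, 0, 1024⟩⟩, 1024, ⟨1236, 1048576, 1⟩⟩))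
    (.node 0
    (.leaf (.psd ⟨⟨⟨1024, 0, 0⟩, ⟨(-789), 1, 0⟩, ⟨0, 0, 1⟩⟩, ⟨⟨1, 0, 0⟩, ⟨789, 1024, 0⟩, ⟨0, 0, 1024⟩⟩, 1024, ⟨1740, 1048576, 1⟩⟩))
    (.node 1
    (.leaf (.psd ⟨⟨⟨1024, 0, 0⟩, ⟨(-653), 1, 0⟩, ⟨0, 0, 1⟩⟩, ⟨⟨1, 0, 0⟩, ⟨653, 1024, 0⟩, ⟨0, 0, 1024⟩⟩, 1024, ⟨8, 4096, 1⟩⟩))
    (.node 0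
    (.leaf (.psd ⟨⟨⟨1024, 0, 0⟩, ⟨(-489), 1, 0⟩, ⟨0, 0, 1⟩⟩, ⟨⟨1, 0, 0⟩, ⟨489, 1024, 0⟩, ⟨0, 0, 1024⟩⟩, 1024, ⟨10, 4096, 1⟩⟩))
    (.leaf (.psd ⟨⟨⟨1024, 0, 0⟩, ⟨(-364), 1, 0⟩, ⟨0, 0, 1⟩⟩, ⟨⟨1, 0, 0⟩, ⟨364, 1024, 0⟩, ⟨0, 0, 1024⟩⟩, 1024, ⟨13, 4096, 1⟩⟩)))))))))))
    (.node 1
    (.node 0
    (.node 3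
    (.node 1
    (.leaf (.psd ⟨⟨⟨1024, 0, 0⟩, ⟨(-4163), 1, 0⟩, ⟨0, 0, 1⟩⟩, ⟨⟨1, 0, 0⟩, ⟨4163, 1024, 0⟩, ⟨0, 0, 1024⟩⟩, 1024, ⟨1, 4096, 1⟩⟩))
    (.node 3
    (.leaf (.psd ⟨⟨⟨1024, 0, 0⟩, ⟨(-3201), 1, 0⟩, ⟨0, 0, 1⟩⟩, ⟨⟨1, 0, 0⟩, ⟨3201, 1024, 0⟩, ⟨0, 0, 1024⟩⟩, 1024, ⟨437, 1048576, 1⟩⟩))
    (.leaf (.psd ⟨⟨⟨1024, 0, 0⟩, ⟨(-2600), 1, 0⟩, ⟨0, 0, 1⟩⟩, ⟨⟨1, 0, 0⟩, ⟨2600, 1024, 0⟩, ⟨0, 0, 1024⟩⟩, 1024, ⟨2, 4096, 1⟩⟩))))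
    (.node 1
    (.leaf (.psd ⟨⟨⟨1024, 0, 0⟩, ⟨(-2951), 1, 0⟩, ⟨0, 0, 1⟩⟩, ⟨⟨1, 0, 0⟩, ⟨2951, 1024, 0⟩, ⟨0, 0, 1024⟩⟩, 1024, ⟨436, 1048576, 1⟩⟩))
    (.leaf (.psd ⟨⟨⟨1024, 0, 0⟩, ⟨(-1999), 1, 0⟩, ⟨0, 0, 1⟩⟩, ⟨⟨1, 0, 0⟩, ⟨1999, 1024, 0⟩, ⟨0, 0, 1024⟩⟩, 1024, ⟨666, 1048576, 1⟩⟩))))
    (.node 1
    (.node 3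
    (.node 3
    (.leaf (.psd ⟨⟨⟨1024, 0, 0⟩, ⟨(-3147), 1, 0⟩, ⟨0, 0, 1⟩⟩, ⟨⟨1, 0, 0⟩, ⟨3147, 1024, 0⟩, ⟨0, 0, 1024⟩⟩, 1024, ⟨448, 1048576, 1⟩⟩))
    (.leaf (.psd ⟨⟨⟨1024, 0, 0⟩, ⟨(-2569), 1, 0⟩, ⟨0, 0, 1⟩⟩, ⟨⟨1, 0, 0⟩, ⟨2569, 1024, 0⟩, ⟨0, 0, 1024⟩⟩, 1024, ⟨2, 4096, 1⟩⟩)))
    (.leaf (.psd ⟨⟨⟨1024, 0, 0⟩, ⟨(-1983), 1, 0⟩, ⟨0, 0, 1⟩⟩, ⟨⟨1, 0, 0⟩, ⟨1983, 1024, 0⟩, ⟨0, 0, 1024⟩⟩, 1024, ⟨674, 1048576, 1⟩⟩)))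
    (.node 3
    (.node 0
    (.node 1
    (.leaf (.psd ⟨⟨⟨1024, 0, 0⟩, ⟨(-2111), 1, 0⟩, ⟨0, 0, 1⟩⟩, ⟨⟨1, 0, 0⟩, ⟨2111, 1024, 0⟩, ⟨0, 0, 1024⟩⟩, 1024, ⟨606, 1048576, 1⟩⟩))
    (.node 3
    (.leaf (.psd ⟨⟨⟨1024, 0, 0⟩, ⟨(-1647), 1, 0⟩, ⟨0, 0, 1⟩⟩, ⟨⟨1, 0, 0⟩, ⟨1647, 1024, 0⟩, ⟨0, 0, 1024⟩⟩, 1024, ⟨884, 1048576, 1⟩⟩))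
    (.leaf (.psd ⟨⟨⟨1024, 0, 0⟩, ⟨(-1342), 1, 0⟩, ⟨0, 0, 1⟩⟩, ⟨⟨1, 0, 0⟩, ⟨1342, 1024, 0⟩, ⟨0, 0, 1024⟩⟩, 1024, ⟨4, 4096, 1⟩⟩))))
    (.node 1
    (.node 3
    (.leaf (.psd ⟨⟨⟨1024, 0, 0⟩, ⟨(-1628), 1, 0⟩, ⟨0, 0, 1⟩⟩, ⟨⟨1, 0, 0⟩, ⟨1628, 1024, 0⟩, ⟨0, 0, 1024⟩⟩, 1024, ⟨895, 1048576, 1⟩⟩))
    (.leaf (.psd ⟨⟨⟨1024, 0, 0⟩, ⟨(-1329), 1, 0⟩, ⟨0, 0, 1⟩⟩, ⟨⟨1, 0, 0⟩, ⟨1329, 1024, 0⟩, ⟨0, 0, 1024⟩⟩, 1024, ⟨4, 4096, 1⟩⟩)))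
    (.node 0
    (.node 1
    (.leaf (.psd ⟨⟨⟨1024, 0, 0⟩, ⟨(-1107), 1, 0⟩, ⟨0, 0, 1⟩⟩, ⟨⟨1, 0, 0⟩, ⟨1107, 1024, 0⟩, ⟨0, 0, 1024⟩⟩, 1024, ⟨4, 4096, 1⟩⟩))
    (.node 3
    (.leaf (.psd ⟨⟨⟨1024, 0, 0⟩, ⟨(-881), 1, 0⟩, ⟨0, 0, 1⟩⟩, ⟨⟨1, 0, 0⟩, ⟨881, 1024, 0⟩, ⟨0, 0, 1024⟩⟩, 1024, ⟨6, 4096, 1⟩⟩))
    (.leaf (.psd ⟨⟨⟨1024, 0, 0⟩, ⟨(-719), 1, 0⟩, ⟨0, 0, 1⟩⟩, ⟨⟨1, 0, 0⟩, ⟨719, 1024, 0⟩, ⟨0, 0, 1024⟩⟩, 1024, ⟨8, 4096, 1⟩⟩))))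
    (.node 1
    (.node 3
    (.leaf (.psd ⟨⟨⟨1024, 0, 0⟩, ⟨(-873), 1, 0⟩, ⟨0, 0, 1⟩⟩, ⟨⟨1, 0, 0⟩, ⟨873, 1024, 0⟩, ⟨0, 0, 1024⟩⟩, 1024, ⟨6, 4096, 1⟩⟩))
    (.leaf (.psd ⟨⟨⟨1024, 0, 0⟩, ⟨(-713), 1, 0⟩, ⟨0, 0, 1⟩⟩, ⟨⟨1, 0, 0⟩, ⟨713, 1024, 0⟩, ⟨0, 0, 1024⟩⟩, 1024, ⟨8, 4096, 1⟩⟩)))
    (.node 0
    (.node 3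
    (.leaf (.psd ⟨⟨⟨1024, 0, 0⟩, ⟨(-592), 1, 0⟩, ⟨0, 0, 1⟩⟩, ⟨⟨1, 0, 0⟩, ⟨592, 1024, 0⟩, ⟨0, 0, 1024⟩⟩, 1024, ⟨9, 4096, 1⟩⟩))
    (.leaf (.psd ⟨⟨⟨1024, 0, 0⟩, ⟨(-484), 1, 0⟩, ⟨0, 0, 1⟩⟩, ⟨⟨1, 0, 0⟩, ⟨484, 1024, 0⟩, ⟨0, 0, 1024⟩⟩, 1024, ⟨11, 4096, 1⟩⟩)))
    (.leaf (.skip 8)))))))
    (.node 0
    (.node 1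
    (.leaf (.psd ⟨⟨⟨1024, 0, 0⟩, ⟨(-1505), 1, 0⟩, ⟨0, 0, 1⟩⟩, ⟨⟨1, 0, 0⟩, ⟨1505, 1024, 0⟩, ⟨0, 0, 1024⟩⟩, 1024, ⟨3, 4096, 1⟩⟩))
    (.leaf (.psd ⟨⟨⟨1024, 0, 0⟩, ⟨(-1036), 1, 0⟩, ⟨0, 0, 1⟩⟩, ⟨⟨1, 0, 0⟩, ⟨1036, 1024, 0⟩, ⟨0, 0, 1024⟩⟩, 1024, ⟨5, 4096, 1⟩⟩)))
    (.node 1
    (.leaf (.psd ⟨⟨⟨1024, 0, 0⟩, ⟨(-1027), 1, 0⟩, ⟨0, 0, 1⟩⟩, ⟨⟨1, 0, 0⟩, ⟨1027, 1024, 0⟩, ⟨0, 0, 1024⟩⟩, 1024, ⟨1335, 1048576, 1⟩⟩))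
    (.node 0
    (.node 1
    (.leaf (.psd ⟨⟨⟨1024, 0, 0⟩, ⟨(-792), 1, 0⟩, ⟨0, 0, 1⟩⟩, ⟨⟨1, 0, 0⟩, ⟨792, 1024, 0⟩, ⟨0, 0, 1024⟩⟩, 1024, ⟨6, 4096, 1⟩⟩))
    (.leaf (.psd ⟨⟨⟨1024, 0, 0⟩, ⟨(-556), 1, 0⟩, ⟨0, 0, 1⟩⟩, ⟨⟨1, 0, 0⟩, ⟨556, 1024, 0⟩, ⟨0, 0, 1024⟩⟩, 1024, ⟨9, 4096, 1⟩⟩)))
    (.node 1
    (.leaf (.psd ⟨⟨⟨1024, 0, 0⟩, ⟨(-552), 1, 0⟩, ⟨0, 0, 1⟩⟩, ⟨⟨1, 0, 0⟩, ⟨552, 1024, 0⟩, ⟨0, 0, 1024⟩⟩, 1024, ⟨9, 4096, 1⟩⟩))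
    (.node 0
    (.leaf (.psd ⟨⟨⟨1024, 0, 0⟩, ⟨(-375), 1, 0⟩, ⟨0, 0, 1⟩⟩, ⟨⟨1, 0, 0⟩, ⟨375, 1024, 0⟩, ⟨0, 0, 1024⟩⟩, 1024, ⟨13, 4096, 1⟩⟩))
    (.leaf (.skip 8))))))))))
    (.node 0
    (.node 1
    (.node 3
    (.node 0
    (.node 1
    (.leaf (.psd ⟨⟨⟨1024, 0, 0⟩, ⟨(-2166), 1, 0⟩, ⟨0, 0, 1⟩⟩, ⟨⟨1, 0, 0⟩, ⟨2166, 1024, 0⟩, ⟨0, 0, 1024⟩⟩, 1024, ⟨2, 4096, 1⟩⟩))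
    (.node 3
    (.leaf (.psd ⟨⟨⟨1024, 0, 0⟩, ⟨(-1722), 1, 0⟩, ⟨0, 0, 1⟩⟩, ⟨⟨1, 0, 0⟩, ⟨1722, 1024, 0⟩, ⟨0, 0, 1024⟩⟩, 1024, ⟨3, 4096, 1⟩⟩))
    (.leaf (.psd ⟨⟨⟨1024, 0, 0⟩, ⟨(-1401), 1, 0⟩, ⟨0, 0, 1⟩⟩, ⟨⟨1, 0, 0⟩, ⟨1401, 1024, 0⟩, ⟨0, 0, 1024⟩⟩, 1024, ⟨4, 4096, 1⟩⟩))))
    (.node 1
    (.node 3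
    (.leaf (.psd ⟨⟨⟨1024, 0, 0⟩, ⟨(-1677), 1, 0⟩, ⟨0, 0, 1⟩⟩, ⟨⟨1, 0, 0⟩, ⟨1677, 1024, 0⟩, ⟨0, 0, 1024⟩⟩, 1024, ⟨867, 1048576, 1⟩⟩))
    (.leaf (.psd ⟨⟨⟨1024, 0, 0⟩, ⟨(-1365), 1, 0⟩, ⟨0, 0, 1⟩⟩, ⟨⟨1, 0, 0⟩, ⟨1365, 1024, 0⟩, ⟨0, 0, 1024⟩⟩, 1024, ⟨4, 4096, 1⟩⟩)))
    (.node 0
    (.node 1
    (.leaf (.psd ⟨⟨⟨1024, 0, 0⟩, ⟨(-1159), 1, 0⟩, ⟨0, 0, 1⟩⟩, ⟨⟨1, 0, 0⟩, ⟨1159, 1024, 0⟩, ⟨0, 0, 1024⟩⟩, 1024, ⟨4, 4096, 1⟩⟩))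
    (.leaf (.psd ⟨⟨⟨1024, 0, 0⟩, ⟨(-836), 1, 0⟩, ⟨0, 0, 1⟩⟩, ⟨⟨1, 0, 0⟩, ⟨836, 1024, 0⟩, ⟨0, 0, 1024⟩⟩, 1024, ⟨1548, 1048576, 1⟩⟩)))
    (.node 1
    (.node 3
    (.leaf (.psd ⟨⟨⟨1024, 0, 0⟩, ⟨(-926), 1, 0⟩, ⟨0, 0, 1⟩⟩, ⟨⟨1, 0, 0⟩, ⟨926, 1024, 0⟩, ⟨0, 0, 1024⟩⟩, 1024, ⟨6, 4096, 1⟩⟩))
    (.leaf (.psd ⟨⟨⟨1024, 0, 0⟩, ⟨(-755), 1, 0⟩, ⟨0, 0, 1⟩⟩, ⟨⟨1, 0, 0⟩, ⟨755, 1024, 0⟩, ⟨0, 0, 1024⟩⟩, 1024, ⟨7, 4096, 1⟩⟩)))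
    (.node 3
    (.node 0
    (.leaf (.psd ⟨⟨⟨1024, 0, 0⟩, ⟨(-655), 1, 0⟩, ⟨0, 0, 1⟩⟩, ⟨⟨1, 0, 0⟩, ⟨655, 1024, 0⟩, ⟨0, 0, 1024⟩⟩, 1024, ⟨8, 4096, 1⟩⟩))
    (.leaf (.skip 8)))
    (.node 0
    (.leaf (.psd ⟨⟨⟨1024, 0, 0⟩, ⟨(-534), 1, 0⟩, ⟨0, 0, 1⟩⟩, ⟨⟨1, 0, 0⟩, ⟨534, 1024, 0⟩, ⟨0, 0, 1024⟩⟩, 1024, ⟨10, 4096, 1⟩⟩))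
    (.leaf (.skip 8))))))))
    (.node 0
    (.node 1
    (.leaf (.psd ⟨⟨⟨1024, 0, 0⟩, ⟨(-1539), 1, 0⟩, ⟨0, 0, 1⟩⟩, ⟨⟨1, 0, 0⟩, ⟨1539, 1024, 0⟩, ⟨0, 0, 1024⟩⟩, 1024, ⟨3, 4096, 1⟩⟩))
    (.leaf (.psd ⟨⟨⟨1024, 0, 0⟩, ⟨(-1080), 1, 0⟩, ⟨0, 0, 1⟩⟩, ⟨⟨1, 0, 0⟩, ⟨1080, 1024, 0⟩, ⟨0, 0, 1024⟩⟩, 1024, ⟨1273, 1048576, 1⟩⟩)))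
    (.node 1
    (.leaf (.psd ⟨⟨⟨1024, 0, 0⟩, ⟨(-1053), 1, 0⟩, ⟨0, 0, 1⟩⟩, ⟨⟨1, 0, 0⟩, ⟨1053, 1024, 0⟩, ⟨0, 0, 1024⟩⟩, 1024, ⟨5, 4096, 1⟩⟩))
    (.node 0
    (.leaf (.psd ⟨⟨⟨1024, 0, 0⟩, ⟨(-713), 1, 0⟩, ⟨0, 0, 1⟩⟩, ⟨⟨1, 0, 0⟩, ⟨713, 1024, 0⟩, ⟨0, 0, 1024⟩⟩, 1024, ⟨1874, 1048576, 1⟩⟩))
    (.node 1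
    (.leaf (.psd ⟨⟨⟨1024, 0, 0⟩, ⟨(-584), 1, 0⟩, ⟨0, 0, 1⟩⟩, ⟨⟨1, 0, 0⟩, ⟨584, 1024, 0⟩, ⟨0, 0, 1024⟩⟩, 1024, ⟨9, 4096, 1⟩⟩))
    (.node 0
    (.leaf (.psd ⟨⟨⟨1024, 0, 0⟩, ⟨(-414), 1, 0⟩, ⟨0, 0, 1⟩⟩, ⟨⟨1, 0, 0⟩, ⟨414, 1024, 0⟩, ⟨0, 0, 1024⟩⟩, 1024, ⟨12, 4096, 1⟩⟩))
    (.node 1
    (.leaf (.psd ⟨⟨⟨1024, 0, 0⟩, ⟨(-349), 1, 0⟩, ⟨0, 0, 1⟩⟩, ⟨⟨1, 0, 0⟩, ⟨349, 1024, 0⟩, ⟨0, 0, 1024⟩⟩, 1024, ⟨15, 4096, 1⟩⟩))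
    (.leaf (.skip 8)))))))))
    (.node 0
    (.node 1
    (.node 3
    (.node 0
    (.node 3
    (.leaf (.psd ⟨⟨⟨1024, 0, 0⟩, ⟨(-1186), 1, 0⟩, ⟨0, 0, 1⟩⟩, ⟨⟨1, 0, 0⟩, ⟨1186, 1024, 0⟩, ⟨0, 0, 1024⟩⟩, 1024, ⟨1219, 1048576, 1⟩⟩))
    (.leaf (.psd ⟨⟨⟨1024, 0, 0⟩, ⟨(-966), 1, 0⟩, ⟨0, 0, 1⟩⟩, ⟨⟨1, 0, 0⟩, ⟨966, 1024, 0⟩, ⟨0, 0, 1024⟩⟩, 1024, ⟨1532, 1048576, 1⟩⟩)))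
    (.node 1
    (.leaf (.psd ⟨⟨⟨1024, 0, 0⟩, ⟨(-859), 1, 0⟩, ⟨0, 0, 1⟩⟩, ⟨⟨1, 0, 0⟩, ⟨859, 1024, 0⟩, ⟨0, 0, 1024⟩⟩, 1024, ⟨1512, 1048576, 1⟩⟩))
    (.node 3
    (.node 0
    (.leaf (.psd ⟨⟨⟨1024, 0, 0⟩, ⟨(-707), 1, 0⟩, ⟨0, 0, 1⟩⟩, ⟨⟨1, 0, 0⟩, ⟨707, 1024, 0⟩, ⟨0, 0, 1024⟩⟩, 1024, ⟨8, 4096, 1⟩⟩))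
    (.leaf (.psd ⟨⟨⟨1024, 0, 0⟩, ⟨(-510), 1, 0⟩, ⟨0, 0, 1⟩⟩, ⟨⟨1, 0, 0⟩, ⟨510, 1024, 0⟩, ⟨0, 0, 1024⟩⟩, 1024, ⟨2638, 1048576, 1⟩⟩)))
    (.node 0
    (.leaf (.psd ⟨⟨⟨1024, 0, 0⟩, ⟨(-577), 1, 0⟩, ⟨0, 0, 1⟩⟩, ⟨⟨1, 0, 0⟩, ⟨577, 1024, 0⟩, ⟨0, 0, 1024⟩⟩, 1024, ⟨10, 4096, 1⟩⟩))
    (.leaf (.psd ⟨⟨⟨1024, 0, 0⟩, ⟨(-417), 1, 0⟩, ⟨0, 0, 1⟩⟩, ⟨⟨1, 0, 0⟩, ⟨417, 1024, 0⟩, ⟨0, 0, 1024⟩⟩, 1024, ⟨12, 4096, 1⟩⟩))))))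
    (.node 0
    (.leaf (.psd ⟨⟨⟨1024, 0, 0⟩, ⟨(-746), 1, 0⟩, ⟨0, 0, 1⟩⟩, ⟨⟨1, 0, 0⟩, ⟨746, 1024, 0⟩, ⟨0, 0, 1024⟩⟩, 1024, ⟨7, 4096, 1⟩⟩))
    (.node 1
    (.leaf (.psd ⟨⟨⟨1024, 0, 0⟩, ⟨(-614), 1, 0⟩, ⟨0, 0, 1⟩⟩, ⟨⟨1, 0, 0⟩, ⟨614, 1024, 0⟩, ⟨0, 0, 1024⟩⟩, 1024, ⟨8, 4096, 1⟩⟩))
    (.node 0
    (.leaf (.psd ⟨⟨⟨1024, 0, 0⟩, ⟨(-447), 1, 0⟩, ⟨0, 0, 1⟩⟩, ⟨⟨1, 0, 0⟩, ⟨447, 1024, 0⟩, ⟨0, 0, 1024⟩⟩, 1024, ⟨11, 4096, 1⟩⟩))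
    (.leaf (.psd ⟨⟨⟨1024, 0, 0⟩, ⟨(-323), 1, 0⟩, ⟨0, 0, 1⟩⟩, ⟨⟨1, 0, 0⟩, ⟨323, 1024, 0⟩, ⟨0, 0, 1024⟩⟩, 1024, ⟨3834, 1048576, 1⟩⟩))))))
    (.node 0
    (.node 1
    (.node 3
    (.node 3
    (.node 0
    (.leaf (.psd ⟨⟨⟨1024, 0, 0⟩, ⟨(-739), 1, 0⟩, ⟨0, 0, 1⟩⟩, ⟨⟨1, 0, 0⟩, ⟨739, 1024, 0⟩, ⟨0, 0, 1024⟩⟩, 1024, ⟨7, 4096, 1⟩⟩))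
    (.leaf (.psd ⟨⟨⟨1024, 0, 0⟩, ⟨(-542), 1, 0⟩, ⟨0, 0, 1⟩⟩, ⟨⟨1, 0, 0⟩, ⟨542, 1024, 0⟩, ⟨0, 0, 1024⟩⟩, 1024, ⟨2548, 1048576, 1⟩⟩)))
    (.leaf (.psd ⟨⟨⟨1024, 0, 0⟩, ⟨(-523), 1, 0⟩, ⟨0, 0, 1⟩⟩, ⟨⟨1, 0, 0⟩, ⟨523, 1024, 0⟩, ⟨0, 0, 1024⟩⟩, 1024, ⟨10, 4096, 1⟩⟩)))
    (.node 0
    (.leaf (.psd ⟨⟨⟨1024, 0, 0⟩, ⟨(-467), 1, 0⟩, ⟨0, 0, 1⟩⟩, ⟨⟨1, 0, 0⟩, ⟨467, 1024, 0⟩, ⟨0, 0, 1024⟩⟩, 1024, ⟨11, 4096, 1⟩⟩))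
    (.leaf (.psd ⟨⟨⟨1024, 0, 0⟩, ⟨(-342), 1, 0⟩, ⟨0, 0, 1⟩⟩, ⟨⟨1, 0, 0⟩, ⟨342, 1024, 0⟩, ⟨0, 0, 1024⟩⟩, 1024, ⟨14, 4096, 1⟩⟩))))
    (.leaf (.skip 8)))
    (.leaf (.skip 8))))
    (.node 1
    (.node 0
    (.node 1
    (.node 3
    (.node 3
    (.node 0
    (.leaf (.psd ⟨⟨⟨1024, 0, 0⟩, ⟨(-679), 1, 0⟩, ⟨0, 0, 1⟩⟩, ⟨⟨1, 0, 0⟩, ⟨679, 1024, 0⟩, ⟨0, 0, 1024⟩⟩, 1024, ⟨8, 4096, 1⟩⟩))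
    (.leaf (.skip 8)))
    (.node 0
    (.leaf (.psd ⟨⟨⟨1024, 0, 0⟩, ⟨(-554), 1, 0⟩, ⟨0, 0, 1⟩⟩, ⟨⟨1, 0, 0⟩, ⟨554, 1024, 0⟩, ⟨0, 0, 1024⟩⟩, 1024, ⟨10, 4096, 1⟩⟩))
    (.leaf (.psd ⟨⟨⟨1024, 0, 0⟩, ⟨(-394), 1, 0⟩, ⟨0, 0, 1⟩⟩, ⟨⟨1, 0, 0⟩, ⟨394, 1024, 0⟩, ⟨0, 0, 1024⟩⟩, 1024, ⟨13, 4096, 1⟩⟩))))
    (.node 0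
    (.leaf (.psd ⟨⟨⟨1024, 0, 0⟩, ⟨(-429), 1, 0⟩, ⟨0, 0, 1⟩⟩, ⟨⟨1, 0, 0⟩, ⟨429, 1024, 0⟩, ⟨0, 0, 1024⟩⟩, 1024, ⟨12, 4096, 1⟩⟩))
    (.node 1
    (.leaf (.psd ⟨⟨⟨1024, 0, 0⟩, ⟨(-363), 1, 0⟩, ⟨0, 0, 1⟩⟩, ⟨⟨1, 0, 0⟩, ⟨363, 1024, 0⟩, ⟨0, 0, 1024⟩⟩, 1024, ⟨14, 4096, 1⟩⟩))
    (.leaf (.skip 8)))))
    (.leaf (.skip 8)))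
    (.leaf (.skip 8)))
    (.leaf (.skip 8)))))
    (.node 1
    (.node 0
    (.node 1
    (.node 3
    (.node 0
    (.node 1
    (.leaf (.psd ⟨⟨⟨1024, 0, 0⟩, ⟨(-1127), 1, 0⟩, ⟨0, 0, 1⟩⟩, ⟨⟨1, 0, 0⟩, ⟨1127, 1024, 0⟩, ⟨0, 0, 1024⟩⟩, 1024, ⟨4, 4096, 1⟩⟩))
    (.node 3
    (.leaf (.psd ⟨⟨⟨1024, 0, 0⟩, ⟨(-907), 1, 0⟩, ⟨0, 0, 1⟩⟩, ⟨⟨1, 0, 0⟩, ⟨907, 1024, 0⟩, ⟨0, 0, 1024⟩⟩, 1024, ⟨6, 4096, 1⟩⟩))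
    (.leaf (.psd ⟨⟨⟨1024, 0, 0⟩, ⟨(-740), 1, 0⟩, ⟨0, 0, 1⟩⟩, ⟨⟨1, 0, 0⟩, ⟨740, 1024, 0⟩, ⟨0, 0, 1024⟩⟩, 1024, ⟨7, 4096, 1⟩⟩))))
    (.node 1
    (.node 3
    (.leaf (.psd ⟨⟨⟨1024, 0, 0⟩, ⟨(-892), 1, 0⟩, ⟨0, 0, 1⟩⟩, ⟨⟨1, 0, 0⟩, ⟨892, 1024, 0⟩, ⟨0, 0, 1024⟩⟩, 1024, ⟨6, 4096, 1⟩⟩))
    (.leaf (.psd ⟨⟨⟨1024, 0, 0⟩, ⟨(-728), 1, 0⟩, ⟨0, 0, 1⟩⟩, ⟨⟨1, 0, 0⟩, ⟨728, 1024, 0⟩, ⟨0, 0, 1024⟩⟩, 1024, ⟨8, 4096, 1⟩⟩)))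
    (.node 3
    (.node 0
    (.leaf (.psd ⟨⟨⟨1024, 0, 0⟩, ⟨(-616), 1, 0⟩, ⟨0, 0, 1⟩⟩, ⟨⟨1, 0, 0⟩, ⟨616, 1024, 0⟩, ⟨0, 0, 1024⟩⟩, 1024, ⟨9, 4096, 1⟩⟩))
    (.leaf (.skip 8)))
    (.node 0
    (.leaf (.psd ⟨⟨⟨1024, 0, 0⟩, ⟨(-503), 1, 0⟩, ⟨0, 0, 1⟩⟩, ⟨⟨1, 0, 0⟩, ⟨503, 1024, 0⟩, ⟨0, 0, 1024⟩⟩, 1024, ⟨11, 4096, 1⟩⟩))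
    (.leaf (.skip 8))))))
    (.node 0
    (.node 1
    (.leaf (.psd ⟨⟨⟨1024, 0, 0⟩, ⟨(-805), 1, 0⟩, ⟨0, 0, 1⟩⟩, ⟨⟨1, 0, 0⟩, ⟨805, 1024, 0⟩, ⟨0, 0, 1024⟩⟩, 1024, ⟨6, 4096, 1⟩⟩))
    (.leaf (.psd ⟨⟨⟨1024, 0, 0⟩, ⟨(-572), 1, 0⟩, ⟨0, 0, 1⟩⟩, ⟨⟨1, 0, 0⟩, ⟨572, 1024, 0⟩, ⟨0, 0, 1024⟩⟩, 1024, ⟨9, 4096, 1⟩⟩)))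
    (.node 1
    (.leaf (.psd ⟨⟨⟨1024, 0, 0⟩, ⟨(-563), 1, 0⟩, ⟨0, 0, 1⟩⟩, ⟨⟨1, 0, 0⟩, ⟨563, 1024, 0⟩, ⟨0, 0, 1024⟩⟩, 1024, ⟨9, 4096, 1⟩⟩))
    (.node 0
    (.leaf (.psd ⟨⟨⟨1024, 0, 0⟩, ⟨(-390), 1, 0⟩, ⟨0, 0, 1⟩⟩, ⟨⟨1, 0, 0⟩, ⟨390, 1024, 0⟩, ⟨0, 0, 1024⟩⟩, 1024, ⟨13, 4096, 1⟩⟩))
    (.node 1
    (.leaf (.psd ⟨⟨⟨1024, 0, 0⟩, ⟨(-326), 1, 0⟩, ⟨0, 0, 1⟩⟩, ⟨⟨1, 0, 0⟩, ⟨326, 1024, 0⟩, ⟨0, 0, 1024⟩⟩, 1024, ⟨15, 4096, 1⟩⟩))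
    (.leaf (.skip 8)))))))
    (.node 0
    (.node 1
    (.node 3
    (.node 3
    (.node 0
    (.leaf (.psd ⟨⟨⟨1024, 0, 0⟩, ⟨(-634), 1, 0⟩, ⟨0, 0, 1⟩⟩, ⟨⟨1, 0, 0⟩, ⟨634, 1024, 0⟩, ⟨0, 0, 1024⟩⟩, 1024, ⟨8, 4096, 1⟩⟩))
    (.leaf (.skip 8)))
    (.node 0
    (.leaf (.psd ⟨⟨⟨1024, 0, 0⟩, ⟨(-517), 1, 0⟩, ⟨0, 0, 1⟩⟩, ⟨⟨1, 0, 0⟩, ⟨517, 1024, 0⟩, ⟨0, 0, 1024⟩⟩, 1024, ⟨11, 4096, 1⟩⟩))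
    (.leaf (.skip 8))))
    (.node 0
    (.leaf (.psd ⟨⟨⟨1024, 0, 0⟩, ⟨(-400), 1, 0⟩, ⟨0, 0, 1⟩⟩, ⟨⟨1, 0, 0⟩, ⟨400, 1024, 0⟩, ⟨0, 0, 1024⟩⟩, 1024, ⟨12, 4096, 1⟩⟩))
    (.node 1
    (.leaf (.psd ⟨⟨⟨1024, 0, 0⟩, ⟨(-336), 1, 0⟩, ⟨0, 0, 1⟩⟩, ⟨⟨1, 0, 0⟩, ⟨336, 1024, 0⟩, ⟨0, 0, 1024⟩⟩, 1024, ⟨15, 4096, 1⟩⟩))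
    (.leaf (.skip 8)))))
    (.leaf (.skip 8)))
    (.leaf (.skip 8))))
    (.node 1
    (.node 0
    (.node 1
    (.node 3
    (.node 3
    (.node 0
    (.leaf (.psd ⟨⟨⟨1024, 0, 0⟩, ⟨(-603), 1, 0⟩, ⟨0, 0, 1⟩⟩, ⟨⟨1, 0, 0⟩, ⟨603, 1024, 0⟩, ⟨0, 0, 1024⟩⟩, 1024, ⟨9, 4096, 1⟩⟩))
    (.leaf (.skip 8)))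
    (.node 0
    (.leaf (.psd ⟨⟨⟨1024, 0, 0⟩, ⟨(-492), 1, 0⟩, ⟨0, 0, 1⟩⟩, ⟨⟨1, 0, 0⟩, ⟨492, 1024, 0⟩, ⟨0, 0, 1024⟩⟩, 1024, ⟨11, 4096, 1⟩⟩))
    (.leaf (.skip 8))))
    (.node 0
    (.leaf (.psd ⟨⟨⟨1024, 0, 0⟩, ⟨(-381), 1, 0⟩, ⟨0, 0, 1⟩⟩, ⟨⟨1, 0, 0⟩, ⟨381, 1024, 0⟩, ⟨0, 0, 1024⟩⟩, 1024, ⟨13, 4096, 1⟩⟩))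
    (.leaf (.skip 8))))
    (.leaf (.skip 8)))
    (.leaf (.skip 8)))
    (.leaf (.skip 8))))
    (.leaf (.skip 8)))))

theorem chunk10 : Check.Good ⟨false, false, false⟩ cfg (reach cfg base [(3, true), (3, false), (1, true), (3, false), (0, false), (0, true), (1, true), (3, false), (3, false), (0, true), (1, true), (0, true)]) :=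
  Check.check_sound tree10 (by decide +kernel)

/-- A subtree. -/
def tree11 : Check.Tree Check.Leaf :=
  .node 0
    (.node 1
    (.node 3
    (.node 3
    (.leaf (.psd ⟨⟨⟨1024, 0, 0⟩, ⟨(-3035), 1, 0⟩, ⟨0, 0, 1⟩⟩, ⟨⟨1, 0, 0⟩, ⟨3035, 1024, 0⟩, ⟨0, 0, 1024⟩⟩, 1024, ⟨442, 1048576, 1⟩⟩))
    (.leaf (.psd ⟨⟨⟨1024, 0, 0⟩, ⟨(-2438), 1, 0⟩, ⟨0, 0, 1⟩⟩, ⟨⟨1, 0, 0⟩, ⟨2438, 1024, 0⟩, ⟨0, 0, 1024⟩⟩, 1024, ⟨2, 4096, 1⟩⟩)))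
    (.leaf (.psd ⟨⟨⟨1024, 0, 0⟩, ⟨(-1851), 1, 0⟩, ⟨0, 0, 1⟩⟩, ⟨⟨1, 0, 0⟩, ⟨1851, 1024, 0⟩, ⟨0, 0, 1024⟩⟩, 1024, ⟨686, 1048576, 1⟩⟩)))
    (.node 3
    (.node 0
    (.node 1
    (.leaf (.psd ⟨⟨⟨1024, 0, 0⟩, ⟨(-2045), 1, 0⟩, ⟨0, 0, 1⟩⟩, ⟨⟨1, 0, 0⟩, ⟨2045, 1024, 0⟩, ⟨0, 0, 1024⟩⟩, 1024, ⟨2, 4096, 1⟩⟩))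
    (.node 3
    (.leaf (.psd ⟨⟨⟨1024, 0, 0⟩, ⟨(-1642), 1, 0⟩, ⟨0, 0, 1⟩⟩, ⟨⟨1, 0, 0⟩, ⟨1642, 1024, 0⟩, ⟨0, 0, 1024⟩⟩, 1024, ⟨3, 4096, 1⟩⟩))
    (.leaf (.psd ⟨⟨⟨1024, 0, 0⟩, ⟨(-1326), 1, 0⟩, ⟨0, 0, 1⟩⟩, ⟨⟨1, 0, 0⟩, ⟨1326, 1024, 0⟩, ⟨0, 0, 1024⟩⟩, 1024, ⟨4, 4096, 1⟩⟩))))
    (.node 1
    (.node 3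
    (.leaf (.psd ⟨⟨⟨1024, 0, 0⟩, ⟨(-1575), 1, 0⟩, ⟨0, 0, 1⟩⟩, ⟨⟨1, 0, 0⟩, ⟨1575, 1024, 0⟩, ⟨0, 0, 1024⟩⟩, 1024, ⟨884, 1048576, 1⟩⟩))
    (.leaf (.psd ⟨⟨⟨1024, 0, 0⟩, ⟨(-1272), 1, 0⟩, ⟨0, 0, 1⟩⟩, ⟨⟨1, 0, 0⟩, ⟨1272, 1024, 0⟩, ⟨0, 0, 1024⟩⟩, 1024, ⟨4, 4096, 1⟩⟩)))
    (.node 0
    (.node 3
    (.leaf (.psd ⟨⟨⟨1024, 0, 0⟩, ⟨(-1069), 1, 0⟩, ⟨0, 0, 1⟩⟩, ⟨⟨1, 0, 0⟩, ⟨1069, 1024, 0⟩, ⟨0, 0, 1024⟩⟩, 1024, ⟨5, 4096, 1⟩⟩))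
    (.leaf (.psd ⟨⟨⟨1024, 0, 0⟩, ⟨(-865), 1, 0⟩, ⟨0, 0, 1⟩⟩, ⟨⟨1, 0, 0⟩, ⟨865, 1024, 0⟩, ⟨0, 0, 1024⟩⟩, 1024, ⟨6, 4096, 1⟩⟩)))
    (.node 1
    (.leaf (.psd ⟨⟨⟨1024, 0, 0⟩, ⟨(-757), 1, 0⟩, ⟨0, 0, 1⟩⟩, ⟨⟨1, 0, 0⟩, ⟨757, 1024, 0⟩, ⟨0, 0, 1024⟩⟩, 1024, ⟨1681736, 1073741824, 72⟩⟩))
    (.node 0
    (.node 3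
    (.leaf (.psd ⟨⟨⟨1024, 0, 0⟩, ⟨(-609), 1, 0⟩, ⟨0, 0, 1⟩⟩, ⟨⟨1, 0, 0⟩, ⟨609, 1024, 0⟩, ⟨0, 0, 1024⟩⟩, 1024, ⟨9, 4096, 1⟩⟩))
    (.leaf (.psd ⟨⟨⟨1024, 0, 0⟩, ⟨(-494), 1, 0⟩, ⟨0, 0, 1⟩⟩, ⟨⟨1, 0, 0⟩, ⟨494, 1024, 0⟩, ⟨0, 0, 1024⟩⟩, 1024, ⟨11, 4096, 1⟩⟩)))
    (.node 1
    (.leaf (.psd ⟨⟨⟨1024, 0, 0⟩, ⟨(-444), 1, 0⟩, ⟨0, 0, 1⟩⟩, ⟨⟨1, 0, 0⟩, ⟨444, 1024, 0⟩, ⟨0, 0, 1024⟩⟩, 1024, ⟨10, 4096, 1⟩⟩))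
    (.node 3
    (.leaf (.psd ⟨⟨⟨1024, 0, 0⟩, ⟨(-330), 1, 0⟩, ⟨0, 0, 1⟩⟩, ⟨⟨1, 0, 0⟩, ⟨330, 1024, 0⟩, ⟨0, 0, 1024⟩⟩, 1024, ⟨15, 4096, 1⟩⟩))
    (.leaf (.psd ⟨⟨⟨1024, 0, 0⟩, ⟨(-268), 1, 0⟩, ⟨0, 0, 1⟩⟩, ⟨⟨1, 0, 0⟩, ⟨268, 1024, 0⟩, ⟨0, 0, 1024⟩⟩, 1024, ⟨18, 4096, 1⟩⟩)))))))))
    (.node 0
    (.node 1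
    (.leaf (.psd ⟨⟨⟨1024, 0, 0⟩, ⟨(-1431), 1, 0⟩, ⟨0, 0, 1⟩⟩, ⟨⟨1, 0, 0⟩, ⟨1431, 1024, 0⟩, ⟨0, 0, 1024⟩⟩, 1024, ⟨3, 4096, 1⟩⟩))
    (.leaf (.psd ⟨⟨⟨1024, 0, 0⟩, ⟨(-1012), 1, 0⟩, ⟨0, 0, 1⟩⟩, ⟨⟨1, 0, 0⟩, ⟨1012, 1024, 0⟩, ⟨0, 0, 1024⟩⟩, 1024, ⟨5, 4096, 1⟩⟩)))
    (.node 1
    (.leaf (.psd ⟨⟨⟨1024, 0, 0⟩, ⟨(-971), 1, 0⟩, ⟨0, 0, 1⟩⟩, ⟨⟨1, 0, 0⟩, ⟨971, 1024, 0⟩, ⟨0, 0, 1024⟩⟩, 1024, ⟨5, 4096, 1⟩⟩))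
    (.node 0
    (.leaf (.psd ⟨⟨⟨1024, 0, 0⟩, ⟨(-661), 1, 0⟩, ⟨0, 0, 1⟩⟩, ⟨⟨1, 0, 0⟩, ⟨661, 1024, 0⟩, ⟨0, 0, 1024⟩⟩, 1024, ⟨1957, 1048576, 1⟩⟩))
    (.node 1
    (.leaf (.psd ⟨⟨⟨1024, 0, 0⟩, ⟨(-534), 1, 0⟩, ⟨0, 0, 1⟩⟩, ⟨⟨1, 0, 0⟩, ⟨534, 1024, 0⟩, ⟨0, 0, 1024⟩⟩, 1024, ⟨9, 4096, 1⟩⟩))
    (.node 0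
    (.leaf (.psd ⟨⟨⟨1024, 0, 0⟩, ⟨(-378), 1, 0⟩, ⟨0, 0, 1⟩⟩, ⟨⟨1, 0, 0⟩, ⟨378, 1024, 0⟩, ⟨0, 0, 1024⟩⟩, 1024, ⟨13, 4096, 1⟩⟩))
    (.node 1
    (.leaf (.psd ⟨⟨⟨1024, 0, 0⟩, ⟨(-314), 1, 0⟩, ⟨0, 0, 1⟩⟩, ⟨⟨1, 0, 0⟩, ⟨314, 1024, 0⟩, ⟨0, 0, 1024⟩⟩, 1024, ⟨15, 4096, 1⟩⟩))
    (.leaf (.psd ⟨⟨⟨1024, 0, 0⟩, ⟨(-206), 1, 0⟩, ⟨0, 0, 1⟩⟩, ⟨⟨1, 0, 0⟩, ⟨206, 1024, 0⟩, ⟨0, 0, 1024⟩⟩, 1024, ⟨21, 4096, 1⟩⟩))))))))))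
    (.node 1
    (.node 3
    (.node 0
    (.node 1
    (.leaf (.psd ⟨⟨⟨1024, 0, 0⟩, ⟨(-1986), 1, 0⟩, ⟨0, 0, 1⟩⟩, ⟨⟨1, 0, 0⟩, ⟨1986, 1024, 0⟩, ⟨0, 0, 1024⟩⟩, 1024, ⟨2, 4096, 1⟩⟩))
    (.node 3
    (.leaf (.psd ⟨⟨⟨1024, 0, 0⟩, ⟨(-1537), 1, 0⟩, ⟨0, 0, 1⟩⟩, ⟨⟨1, 0, 0⟩, ⟨1537, 1024, 0⟩, ⟨0, 0, 1024⟩⟩, 1024, ⟨906, 1048576, 1⟩⟩))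
    (.leaf (.psd ⟨⟨⟨1024, 0, 0⟩, ⟨(-1241), 1, 0⟩, ⟨0, 0, 1⟩⟩, ⟨⟨1, 0, 0⟩, ⟨1241, 1024, 0⟩, ⟨0, 0, 1024⟩⟩, 1024, ⟨4, 4096, 1⟩⟩))))
    (.node 1
    (.node 3
    (.leaf (.psd ⟨⟨⟨1024, 0, 0⟩, ⟨(-1527), 1, 0⟩, ⟨0, 0, 1⟩⟩, ⟨⟨1, 0, 0⟩, ⟨1527, 1024, 0⟩, ⟨0, 0, 1024⟩⟩, 1024, ⟨914, 1048576, 1⟩⟩))
    (.leaf (.psd ⟨⟨⟨1024, 0, 0⟩, ⟨(-1234), 1, 0⟩, ⟨0, 0, 1⟩⟩, ⟨⟨1, 0, 0⟩, ⟨1234, 1024, 0⟩, ⟨0, 0, 1024⟩⟩, 1024, ⟨1159, 1048576, 1⟩⟩)))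
    (.node 0
    (.node 1
    (.leaf (.psd ⟨⟨⟨1024, 0, 0⟩, ⟨(-1020), 1, 0⟩, ⟨0, 0, 1⟩⟩, ⟨⟨1, 0, 0⟩, ⟨1020, 1024, 0⟩, ⟨0, 0, 1024⟩⟩, 1024, ⟨1230, 1048576, 1⟩⟩))
    (.node 3
    (.leaf (.psd ⟨⟨⟨1024, 0, 0⟩, ⟨(-799), 1, 0⟩, ⟨0, 0, 1⟩⟩, ⟨⟨1, 0, 0⟩, ⟨799, 1024, 0⟩, ⟨0, 0, 1024⟩⟩, 1024, ⟨1778, 1048576, 1⟩⟩))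
    (.leaf (.psd ⟨⟨⟨1024, 0, 0⟩, ⟨(-648), 1, 0⟩, ⟨0, 0, 1⟩⟩, ⟨⟨1, 0, 0⟩, ⟨648, 1024, 0⟩, ⟨0, 0, 1024⟩⟩, 1024, ⟨8, 4096, 1⟩⟩))))
    (.node 1
    (.node 3
    (.leaf (.psd ⟨⟨⟨1024, 0, 0⟩, ⟨(-793), 1, 0⟩, ⟨0, 0, 1⟩⟩, ⟨⟨1, 0, 0⟩, ⟨793, 1024, 0⟩, ⟨0, 0, 1024⟩⟩, 1024, ⟨7, 4096, 1⟩⟩))
    (.leaf (.psd ⟨⟨⟨1024, 0, 0⟩, ⟨(-643), 1, 0⟩, ⟨0, 0, 1⟩⟩, ⟨⟨1, 0, 0⟩, ⟨643, 1024, 0⟩, ⟨0, 0, 1024⟩⟩, 1024, ⟨8, 4096, 1⟩⟩)))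
    (.node 0
    (.node 1
    (.leaf (.psd ⟨⟨⟨1024, 0, 0⟩, ⟨(-538), 1, 0⟩, ⟨0, 0, 1⟩⟩, ⟨⟨1, 0, 0⟩, ⟨538, 1024, 0⟩, ⟨0, 0, 1024⟩⟩, 1024, ⟨9, 4096, 1⟩⟩))
    (.leaf (.psd ⟨⟨⟨1024, 0, 0⟩, ⟨(-379), 1, 0⟩, ⟨0, 0, 1⟩⟩, ⟨⟨1, 0, 0⟩, ⟨379, 1024, 0⟩, ⟨0, 0, 1024⟩⟩, 1024, ⟨3181, 1048576, 1⟩⟩)))
    (.node 1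
    (.leaf (.psd ⟨⟨⟨1024, 0, 0⟩, ⟨(-376), 1, 0⟩, ⟨0, 0, 1⟩⟩, ⟨⟨1, 0, 0⟩, ⟨376, 1024, 0⟩, ⟨0, 0, 1024⟩⟩, 1024, ⟨3205, 1048576, 1⟩⟩))
    (.node 0
    (.leaf (.psd ⟨⟨⟨1024, 0, 0⟩, ⟨(-256), 1, 0⟩, ⟨0, 0, 1⟩⟩, ⟨⟨1, 0, 0⟩, ⟨256, 1024, 0⟩, ⟨0, 0, 1024⟩⟩, 1024, ⟨17, 4096, 1⟩⟩))
    (.node 1
    (.leaf (.psd ⟨⟨⟨1024, 0, 0⟩, ⟨(-214), 1, 0⟩, ⟨0, 0, 1⟩⟩, ⟨⟨1, 0, 0⟩, ⟨214, 1024, 0⟩, ⟨0, 0, 1024⟩⟩, 1024, ⟨20, 4096, 1⟩⟩))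
    (.leaf (.skip 8))))))))))
    (.node 0
    (.node 1
    (.leaf (.psd ⟨⟨⟨1024, 0, 0⟩, ⟨(-1390), 1, 0⟩, ⟨0, 0, 1⟩⟩, ⟨⟨1, 0, 0⟩, ⟨1390, 1024, 0⟩, ⟨0, 0, 1024⟩⟩, 1024, ⟨3, 4096, 1⟩⟩))
    (.leaf (.psd ⟨⟨⟨1024, 0, 0⟩, ⟨(-948), 1, 0⟩, ⟨0, 0, 1⟩⟩, ⟨⟨1, 0, 0⟩, ⟨948, 1024, 0⟩, ⟨0, 0, 1024⟩⟩, 1024, ⟨1382, 1048576, 1⟩⟩)))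
    (.node 1
    (.leaf (.psd ⟨⟨⟨1024, 0, 0⟩, ⟨(-942), 1, 0⟩, ⟨0, 0, 1⟩⟩, ⟨⟨1, 0, 0⟩, ⟨942, 1024, 0⟩, ⟨0, 0, 1024⟩⟩, 1024, ⟨1392, 1048576, 1⟩⟩))
    (.node 0
    (.node 1
    (.leaf (.psd ⟨⟨⟨1024, 0, 0⟩, ⟨(-718), 1, 0⟩, ⟨0, 0, 1⟩⟩, ⟨⟨1, 0, 0⟩, ⟨718, 1024, 0⟩, ⟨0, 0, 1024⟩⟩, 1024, ⟨7, 4096, 1⟩⟩))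
    (.leaf (.psd ⟨⟨⟨1024, 0, 0⟩, ⟨(-496), 1, 0⟩, ⟨0, 0, 1⟩⟩, ⟨⟨1, 0, 0⟩, ⟨496, 1024, 0⟩, ⟨0, 0, 1024⟩⟩, 1024, ⟨10, 4096, 1⟩⟩)))
    (.node 1
    (.leaf (.psd ⟨⟨⟨1024, 0, 0⟩, ⟨(-492), 1, 0⟩, ⟨0, 0, 1⟩⟩, ⟨⟨1, 0, 0⟩, ⟨492, 1024, 0⟩, ⟨0, 0, 1024⟩⟩, 1024, ⟨10, 4096, 1⟩⟩))
    (.node 0
    (.leaf (.psd ⟨⟨⟨1024, 0, 0⟩, ⟨(-324), 1, 0⟩, ⟨0, 0, 1⟩⟩, ⟨⟨1, 0, 0⟩, ⟨324, 1024, 0⟩, ⟨0, 0, 1024⟩⟩, 1024, ⟨3782, 1048576, 1⟩⟩))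
    (.node 1
    (.leaf (.psd ⟨⟨⟨1024, 0, 0⟩, ⟨(-266), 1, 0⟩, ⟨0, 0, 1⟩⟩, ⟨⟨1, 0, 0⟩, ⟨266, 1024, 0⟩, ⟨0, 0, 1024⟩⟩, 1024, ⟨18, 4096, 1⟩⟩))
    (.node 0
    (.leaf (.psd ⟨⟨⟨1024, 0, 0⟩, ⟨(-182), 1, 0⟩, ⟨0, 0, 1⟩⟩, ⟨⟨1, 0, 0⟩, ⟨182, 1024, 0⟩, ⟨0, 0, 1024⟩⟩, 1024, ⟨24, 4096, 1⟩⟩))
    (.leaf (.psd ⟨⟨⟨1024, 0, 0⟩, ⟨(-124), 1, 0⟩, ⟨0, 0, 1⟩⟩, ⟨⟨1, 0, 0⟩, ⟨124, 1024, 0⟩, ⟨0, 0, 1024⟩⟩, 1024, ⟨30, 4096, 1⟩⟩))))))))))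
    (.node 0
    (.node 1
    (.node 3
    (.node 0
    (.node 1
    (.leaf (.psd ⟨⟨⟨1024, 0, 0⟩, ⟨(-1042), 1, 0⟩, ⟨0, 0, 1⟩⟩, ⟨⟨1, 0, 0⟩, ⟨1042, 1024, 0⟩, ⟨0, 0, 1024⟩⟩, 1024, ⟨4, 4096, 1⟩⟩))
    (.node 3
    (.leaf (.psd ⟨⟨⟨1024, 0, 0⟩, ⟨(-833), 1, 0⟩, ⟨0, 0, 1⟩⟩, ⟨⟨1, 0, 0⟩, ⟨833, 1024, 0⟩, ⟨0, 0, 1024⟩⟩, 1024, ⟨6, 4096, 1⟩⟩))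
    (.leaf (.psd ⟨⟨⟨1024, 0, 0⟩, ⟨(-675), 1, 0⟩, ⟨0, 0, 1⟩⟩, ⟨⟨1, 0, 0⟩, ⟨675, 1024, 0⟩, ⟨0, 0, 1024⟩⟩, 1024, ⟨8, 4096, 1⟩⟩))))
    (.node 1
    (.node 3
    (.leaf (.psd ⟨⟨⟨1024, 0, 0⟩, ⟨(-813), 1, 0⟩, ⟨0, 0, 1⟩⟩, ⟨⟨1, 0, 0⟩, ⟨813, 1024, 0⟩, ⟨0, 0, 1024⟩⟩, 1024, ⟨1752, 1048576, 1⟩⟩))
    (.leaf (.psd ⟨⟨⟨1024, 0, 0⟩, ⟨(-658), 1, 0⟩, ⟨0, 0, 1⟩⟩, ⟨⟨1, 0, 0⟩, ⟨658, 1024, 0⟩, ⟨0, 0, 1024⟩⟩, 1024, ⟨8, 4096, 1⟩⟩)))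
    (.node 0
    (.node 3
    (.leaf (.psd ⟨⟨⟨1024, 0, 0⟩, ⟨(-551), 1, 0⟩, ⟨0, 0, 1⟩⟩, ⟨⟨1, 0, 0⟩, ⟨551, 1024, 0⟩, ⟨0, 0, 1024⟩⟩, 1024, ⟨2504, 1048576, 1⟩⟩))
    (.leaf (.psd ⟨⟨⟨1024, 0, 0⟩, ⟨(-447), 1, 0⟩, ⟨0, 0, 1⟩⟩, ⟨⟨1, 0, 0⟩, ⟨447, 1024, 0⟩, ⟨0, 0, 1024⟩⟩, 1024, ⟨12, 4096, 1⟩⟩)))
    (.node 1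
    (.leaf (.psd ⟨⟨⟨1024, 0, 0⟩, ⟨(-397), 1, 0⟩, ⟨0, 0, 1⟩⟩, ⟨⟨1, 0, 0⟩, ⟨397, 1024, 0⟩, ⟨0, 0, 1024⟩⟩, 1024, ⟨3052, 1048576, 1⟩⟩))
    (.node 3
    (.node 0
    (.leaf (.psd ⟨⟨⟨1024, 0, 0⟩, ⟨(-320), 1, 0⟩, ⟨0, 0, 1⟩⟩, ⟨⟨1, 0, 0⟩, ⟨320, 1024, 0⟩, ⟨0, 0, 1024⟩⟩, 1024, ⟨16, 4096, 1⟩⟩))
    (.leaf (.psd ⟨⟨⟨1024, 0, 0⟩, ⟨(-225), 1, 0⟩, ⟨0, 0, 1⟩⟩, ⟨⟨1, 0, 0⟩, ⟨225, 1024, 0⟩, ⟨0, 0, 1024⟩⟩, 1024, ⟨20, 4096, 1⟩⟩)))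
    (.leaf (.psd ⟨⟨⟨1024, 0, 0⟩, ⟨(-222), 1, 0⟩, ⟨0, 0, 1⟩⟩, ⟨⟨1, 0, 0⟩, ⟨222, 1024, 0⟩, ⟨0, 0, 1024⟩⟩, 1024, ⟨5324, 1048576, 1⟩⟩)))))))
    (.node 0
    (.node 1
    (.leaf (.psd ⟨⟨⟨1024, 0, 0⟩, ⟨(-733), 1, 0⟩, ⟨0, 0, 1⟩⟩, ⟨⟨1, 0, 0⟩, ⟨733, 1024, 0⟩, ⟨0, 0, 1024⟩⟩, 1024, ⟨7, 4096, 1⟩⟩))
    (.leaf (.psd ⟨⟨⟨1024, 0, 0⟩, ⟨(-517), 1, 0⟩, ⟨0, 0, 1⟩⟩, ⟨⟨1, 0, 0⟩, ⟨517, 1024, 0⟩, ⟨0, 0, 1024⟩⟩, 1024, ⟨9, 4096, 1⟩⟩)))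
    (.node 1
    (.leaf (.psd ⟨⟨⟨1024, 0, 0⟩, ⟨(-504), 1, 0⟩, ⟨0, 0, 1⟩⟩, ⟨⟨1, 0, 0⟩, ⟨504, 1024, 0⟩, ⟨0, 0, 1024⟩⟩, 1024, ⟨10, 4096, 1⟩⟩))
    (.node 0
    (.leaf (.psd ⟨⟨⟨1024, 0, 0⟩, ⟨(-342), 1, 0⟩, ⟨0, 0, 1⟩⟩, ⟨⟨1, 0, 0⟩, ⟨342, 1024, 0⟩, ⟨0, 0, 1024⟩⟩, 1024, ⟨14, 4096, 1⟩⟩))
    (.node 1
    (.leaf (.psd ⟨⟨⟨1024, 0, 0⟩, ⟨(-281), 1, 0⟩, ⟨0, 0, 1⟩⟩, ⟨⟨1, 0, 0⟩, ⟨281, 1024, 0⟩, ⟨0, 0, 1024⟩⟩, 1024, ⟨17, 4096, 1⟩⟩))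
    (.leaf (.psd ⟨⟨⟨1024, 0, 0⟩, ⟨(-170), 1, 0⟩, ⟨0, 0, 1⟩⟩, ⟨⟨1, 0, 0⟩, ⟨170, 1024, 0⟩, ⟨0, 0, 1024⟩⟩, 1024, ⟨6129, 1048576, 1⟩⟩)))))))
    (.node 0
    (.node 1
    (.node 3
    (.node 0
    (.node 3
    (.leaf (.psd ⟨⟨⟨1024, 0, 0⟩, ⟨(-576), 1, 0⟩, ⟨0, 0, 1⟩⟩, ⟨⟨1, 0, 0⟩, ⟨576, 1024, 0⟩, ⟨0, 0, 1024⟩⟩, 1024, ⟨9, 4096, 1⟩⟩))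
    (.leaf (.psd ⟨⟨⟨1024, 0, 0⟩, ⟨(-467), 1, 0⟩, ⟨0, 0, 1⟩⟩, ⟨⟨1, 0, 0⟩, ⟨467, 1024, 0⟩, ⟨0, 0, 1024⟩⟩, 1024, ⟨11, 4096, 1⟩⟩)))
    (.node 1
    (.leaf (.psd ⟨⟨⟨1024, 0, 0⟩, ⟨(-417), 1, 0⟩, ⟨0, 0, 1⟩⟩, ⟨⟨1, 0, 0⟩, ⟨417, 1024, 0⟩, ⟨0, 0, 1024⟩⟩, 1024, ⟨11, 4096, 1⟩⟩))
    (.node 3
    (.leaf (.psd ⟨⟨⟨1024, 0, 0⟩, ⟨(-298), 1, 0⟩, ⟨0, 0, 1⟩⟩, ⟨⟨1, 0, 0⟩, ⟨298, 1024, 0⟩, ⟨0, 0, 1024⟩⟩, 1024, ⟨16, 4096, 1⟩⟩))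
    (.leaf (.psd ⟨⟨⟨1024, 0, 0⟩, ⟨(-242), 1, 0⟩, ⟨0, 0, 1⟩⟩, ⟨⟨1, 0, 0⟩, ⟨242, 1024, 0⟩, ⟨0, 0, 1024⟩⟩, 1024, ⟨19, 4096, 1⟩⟩)))))
    (.node 0
    (.leaf (.psd ⟨⟨⟨1024, 0, 0⟩, ⟨(-358), 1, 0⟩, ⟨0, 0, 1⟩⟩, ⟨⟨1, 0, 0⟩, ⟨358, 1024, 0⟩, ⟨0, 0, 1024⟩⟩, 1024, ⟨13, 4096, 1⟩⟩))
    (.node 1
    (.leaf (.psd ⟨⟨⟨1024, 0, 0⟩, ⟨(-295), 1, 0⟩, ⟨0, 0, 1⟩⟩, ⟨⟨1, 0, 0⟩, ⟨295, 1024, 0⟩, ⟨0, 0, 1024⟩⟩, 1024, ⟨16, 4096, 1⟩⟩))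
    (.leaf (.psd ⟨⟨⟨1024, 0, 0⟩, ⟨(-186), 1, 0⟩, ⟨0, 0, 1⟩⟩, ⟨⟨1, 0, 0⟩, ⟨186, 1024, 0⟩, ⟨0, 0, 1024⟩⟩, 1024, ⟨22, 4096, 1⟩⟩)))))
    (.node 0
    (.node 1
    (.node 3
    (.node 3
    (.leaf (.psd ⟨⟨⟨1024, 0, 0⟩, ⟨(-313), 1, 0⟩, ⟨0, 0, 1⟩⟩, ⟨⟨1, 0, 0⟩, ⟨313, 1024, 0⟩, ⟨0, 0, 1024⟩⟩, 1024, ⟨4012, 1048576, 1⟩⟩))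
    (.leaf (.psd ⟨⟨⟨1024, 0, 0⟩, ⟨(-254), 1, 0⟩, ⟨0, 0, 1⟩⟩, ⟨⟨1, 0, 0⟩, ⟨254, 1024, 0⟩, ⟨0, 0, 1024⟩⟩, 1024, ⟨19, 4096, 1⟩⟩)))
    (.leaf (.psd ⟨⟨⟨1024, 0, 0⟩, ⟨(-195), 1, 0⟩, ⟨0, 0, 1⟩⟩, ⟨⟨1, 0, 0⟩, ⟨195, 1024, 0⟩, ⟨0, 0, 1024⟩⟩, 1024, ⟨22, 4096, 1⟩⟩)))
    (.node 3
    (.node 0
    (.node 1
    (.leaf (.psd ⟨⟨⟨1024, 0, 0⟩, ⟨(-202), 1, 0⟩, ⟨0, 0, 1⟩⟩, ⟨⟨1, 0, 0⟩, ⟨202, 1024, 0⟩, ⟨0, 0, 1024⟩⟩, 1024, ⟨21, 4096, 1⟩⟩))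
    (.leaf (.skip 8)))
    (.leaf (.skip 8)))
    (.node 0
    (.leaf (.psd ⟨⟨⟨1024, 0, 0⟩, ⟨(-116), 1, 0⟩, ⟨0, 0, 1⟩⟩, ⟨⟨1, 0, 0⟩, ⟨116, 1024, 0⟩, ⟨0, 0, 1024⟩⟩, 1024, ⟨31, 4096, 1⟩⟩))
    (.node 1
    (.leaf (.psd ⟨⟨⟨1024, 0, 0⟩, ⟨(-84), 1, 0⟩, ⟨0, 0, 1⟩⟩, ⟨⟨1, 0, 0⟩, ⟨84, 1024, 0⟩, ⟨0, 0, 1024⟩⟩, 1024, ⟨40, 4096, 1⟩⟩))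
    (.leaf (.skip 8))))))
    (.node 1
    (.node 3
    (.node 0
    (.node 1
    (.leaf (.psd ⟨⟨⟨1024, 0, 0⟩, ⟨(-188), 1, 0⟩, ⟨0, 0, 1⟩⟩, ⟨⟨1, 0, 0⟩, ⟨188, 1024, 0⟩, ⟨0, 0, 1024⟩⟩, 1024, ⟨22, 4096, 1⟩⟩))
    (.leaf (.skip 8)))
    (.leaf (.skip 8)))
    (.node 0
    (.leaf (.psd ⟨⟨⟨1024, 0, 0⟩, ⟨(-106), 1, 0⟩, ⟨0, 0, 1⟩⟩, ⟨⟨1, 0, 0⟩, ⟨106, 1024, 0⟩, ⟨0, 0, 1024⟩⟩, 1024, ⟨8603, 1048576, 1⟩⟩))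
    (.node 1
    (.leaf (.psd ⟨⟨⟨1024, 0, 0⟩, ⟨(-74), 1, 0⟩, ⟨0, 0, 1⟩⟩, ⟨⟨1, 0, 0⟩, ⟨74, 1024, 0⟩, ⟨0, 0, 1024⟩⟩, 1024, ⟨43, 4096, 1⟩⟩))
    (.leaf (.skip 8)))))
    (.leaf (.skip 8)))))
    (.node 1
    (.node 0
    (.node 1
    (.node 3
    (.node 3
    (.node 0
    (.leaf (.psd ⟨⟨⟨1024, 0, 0⟩, ⟨(-332), 1, 0⟩, ⟨0, 0, 1⟩⟩, ⟨⟨1, 0, 0⟩, ⟨332, 1024, 0⟩, ⟨0, 0, 1024⟩⟩, 1024, ⟨16, 4096, 1⟩⟩))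
    (.leaf (.psd ⟨⟨⟨1024, 0, 0⟩, ⟨(-237), 1, 0⟩, ⟨0, 0, 1⟩⟩, ⟨⟨1, 0, 0⟩, ⟨237, 1024, 0⟩, ⟨0, 0, 1024⟩⟩, 1024, ⟨20, 4096, 1⟩⟩)))
    (.leaf (.psd ⟨⟨⟨1024, 0, 0⟩, ⟨(-231), 1, 0⟩, ⟨0, 0, 1⟩⟩, ⟨⟨1, 0, 0⟩, ⟨231, 1024, 0⟩, ⟨0, 0, 1024⟩⟩, 1024, ⟨20, 4096, 1⟩⟩)))
    (.leaf (.psd ⟨⟨⟨1024, 0, 0⟩, ⟨(-178), 1, 0⟩, ⟨0, 0, 1⟩⟩, ⟨⟨1, 0, 0⟩, ⟨178, 1024, 0⟩, ⟨0, 0, 1024⟩⟩, 1024, ⟨23, 4096, 1⟩⟩)))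
    (.node 0
    (.node 3
    (.node 1
    (.leaf (.psd ⟨⟨⟨1024, 0, 0⟩, ⟨(-175), 1, 0⟩, ⟨0, 0, 1⟩⟩, ⟨⟨1, 0, 0⟩, ⟨175, 1024, 0⟩, ⟨0, 0, 1024⟩⟩, 1024, ⟨23, 4096, 1⟩⟩))
    (.leaf (.skip 8)))
    (.leaf (.psd ⟨⟨⟨1, (-4282), 0⟩, ⟨0, 1024, 0⟩, ⟨0, 0, 1⟩⟩, ⟨⟨1024, 4282, 0⟩, ⟨0, 1, 0⟩, ⟨0, 0, 1024⟩⟩, 1024, ⟨4096, 1, 1⟩⟩)))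
    (.leaf (.skip 8))))
    (.node 1
    (.node 0
    (.node 3
    (.node 1
    (.leaf (.psd ⟨⟨⟨1024, 0, 0⟩, ⟨(-164), 1, 0⟩, ⟨0, 0, 1⟩⟩, ⟨⟨1, 0, 0⟩, ⟨164, 1024, 0⟩, ⟨0, 0, 1024⟩⟩, 1024, ⟨24, 4096, 1⟩⟩))
    (.leaf (.skip 8)))
    (.leaf (.psd ⟨⟨⟨1, (-4439), 0⟩, ⟨0, 1024, 0⟩, ⟨0, 0, 1⟩⟩, ⟨⟨1024, 4439, 0⟩, ⟨0, 1, 0⟩, ⟨0, 0, 1024⟩⟩, 1024, ⟨4096, 1, 1⟩⟩)))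
    (.leaf (.skip 8)))
    (.leaf (.skip 8))))
    (.leaf (.skip 8)))))
    (.node 1
    (.node 0
    (.node 1
    (.node 3
    (.node 0
    (.node 1
    (.leaf (.psd ⟨⟨⟨1024, 0, 0⟩, ⟨(-547), 1, 0⟩, ⟨0, 0, 1⟩⟩, ⟨⟨1, 0, 0⟩, ⟨547, 1024, 0⟩, ⟨0, 0, 1024⟩⟩, 1024, ⟨8, 4096, 1⟩⟩))
    (.leaf (.psd ⟨⟨⟨1024, 0, 0⟩, ⟨(-390), 1, 0⟩, ⟨0, 0, 1⟩⟩, ⟨⟨1, 0, 0⟩, ⟨390, 1024, 0⟩, ⟨0, 0, 1024⟩⟩, 1024, ⟨12, 4096, 1⟩⟩)))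
    (.node 1
    (.leaf (.psd ⟨⟨⟨1024, 0, 0⟩, ⟨(-383), 1, 0⟩, ⟨0, 0, 1⟩⟩, ⟨⟨1, 0, 0⟩, ⟨383, 1024, 0⟩, ⟨0, 0, 1024⟩⟩, 1024, ⟨12, 4096, 1⟩⟩))
    (.node 3
    (.node 0
    (.leaf (.psd ⟨⟨⟨1024, 0, 0⟩, ⟨(-302), 1, 0⟩, ⟨0, 0, 1⟩⟩, ⟨⟨1, 0, 0⟩, ⟨302, 1024, 0⟩, ⟨0, 0, 1024⟩⟩, 1024, ⟨17, 4096, 1⟩⟩))
    (.leaf (.psd ⟨⟨⟨1024, 0, 0⟩, ⟨(-208), 1, 0⟩, ⟨0, 0, 1⟩⟩, ⟨⟨1, 0, 0⟩, ⟨208, 1024, 0⟩, ⟨0, 0, 1024⟩⟩, 1024, ⟨5557, 1048576, 1⟩⟩)))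
    (.leaf (.psd ⟨⟨⟨1024, 0, 0⟩, ⟨(-207), 1, 0⟩, ⟨0, 0, 1⟩⟩, ⟨⟨1, 0, 0⟩, ⟨207, 1024, 0⟩, ⟨0, 0, 1024⟩⟩, 1024, ⟨5510, 1048576, 1⟩⟩)))))
    (.node 0
    (.leaf (.psd ⟨⟨⟨1024, 0, 0⟩, ⟨(-331), 1, 0⟩, ⟨0, 0, 1⟩⟩, ⟨⟨1, 0, 0⟩, ⟨331, 1024, 0⟩, ⟨0, 0, 1024⟩⟩, 1024, ⟨14, 4096, 1⟩⟩))
    (.node 1
    (.leaf (.psd ⟨⟨⟨1024, 0, 0⟩, ⟨(-271), 1, 0⟩, ⟨0, 0, 1⟩⟩, ⟨⟨1, 0, 0⟩, ⟨271, 1024, 0⟩, ⟨0, 0, 1024⟩⟩, 1024, ⟨17, 4096, 1⟩⟩))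
    (.leaf (.psd ⟨⟨⟨1, (-3170), 0⟩, ⟨0, 1024, 0⟩, ⟨0, 0, 1⟩⟩, ⟨⟨1024, 3170, 0⟩, ⟨0, 1, 0⟩, ⟨0, 0, 1024⟩⟩, 1024, ⟨1048576, 328, 1⟩⟩)))))
    (.node 0
    (.node 1
    (.node 3
    (.node 3
    (.node 0
    (.leaf (.psd ⟨⟨⟨1024, 0, 0⟩, ⟨(-310), 1, 0⟩, ⟨0, 0, 1⟩⟩, ⟨⟨1, 0, 0⟩, ⟨310, 1024, 0⟩, ⟨0, 0, 1024⟩⟩, 1024, ⟨16, 4096, 1⟩⟩))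
    (.leaf (.psd ⟨⟨⟨1024, 0, 0⟩, ⟨(-216), 1, 0⟩, ⟨0, 0, 1⟩⟩, ⟨⟨1, 0, 0⟩, ⟨216, 1024, 0⟩, ⟨0, 0, 1024⟩⟩, 1024, ⟨21, 4096, 1⟩⟩)))
    (.leaf (.psd ⟨⟨⟨1024, 0, 0⟩, ⟨(-214), 1, 0⟩, ⟨0, 0, 1⟩⟩, ⟨⟨1, 0, 0⟩, ⟨214, 1024, 0⟩, ⟨0, 0, 1024⟩⟩, 1024, ⟨21, 4096, 1⟩⟩)))
    (.leaf (.psd ⟨⟨⟨1, (-3100), 0⟩, ⟨0, 1024, 0⟩, ⟨0, 0, 1⟩⟩, ⟨⟨1024, 3100, 0⟩, ⟨0, 1, 0⟩, ⟨0, 0, 1024⟩⟩, 1024, ⟨1048576, 336, 1⟩⟩)))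
    (.node 0
    (.node 3
    (.leaf (.skip 8))
    (.node 1
    (.leaf (.psd ⟨⟨⟨1024, 0, 0⟩, ⟨(-110), 1, 0⟩, ⟨0, 0, 1⟩⟩, ⟨⟨1, 0, 0⟩, ⟨110, 1024, 0⟩, ⟨0, 0, 1024⟩⟩, 1024, ⟨34, 4096, 1⟩⟩))
    (.leaf (.skip 8))))
    (.leaf (.skip 8))))
    (.node 1
    (.node 0
    (.node 3
    (.leaf (.skip 8))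
    (.node 1
    (.leaf (.psd ⟨⟨⟨1024, 0, 0⟩, ⟨(-104), 1, 0⟩, ⟨0, 0, 1⟩⟩, ⟨⟨1, 0, 0⟩, ⟨104, 1024, 0⟩, ⟨0, 0, 1024⟩⟩, 1024, ⟨35, 4096, 1⟩⟩))
    (.leaf (.skip 8))))
    (.leaf (.skip 8)))
    (.leaf (.skip 8)))))
    (.node 1
    (.node 0
    (.node 1
    (.node 3
    (.node 3
    (.node 0
    (.leaf (.psd ⟨⟨⟨1024, 0, 0⟩, ⟨(-295), 1, 0⟩, ⟨0, 0, 1⟩⟩, ⟨⟨1, 0, 0⟩, ⟨295, 1024, 0⟩, ⟨0, 0, 1024⟩⟩, 1024, ⟨17, 4096, 1⟩⟩))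
    (.leaf (.psd ⟨⟨⟨1024, 0, 0⟩, ⟨(-201), 1, 0⟩, ⟨0, 0, 1⟩⟩, ⟨⟨1, 0, 0⟩, ⟨201, 1024, 0⟩, ⟨0, 0, 1024⟩⟩, 1024, ⟨22, 4096, 1⟩⟩)))
    (.node 0
    (.leaf (.psd ⟨⟨⟨1024, 0, 0⟩, ⟨(-240), 1, 0⟩, ⟨0, 0, 1⟩⟩, ⟨⟨1, 0, 0⟩, ⟨240, 1024, 0⟩, ⟨0, 0, 1024⟩⟩, 1024, ⟨21, 4096, 1⟩⟩))
    (.leaf (.psd ⟨⟨⟨1024, 0, 0⟩, ⟨(-164), 1, 0⟩, ⟨0, 0, 1⟩⟩, ⟨⟨1, 0, 0⟩, ⟨164, 1024, 0⟩, ⟨0, 0, 1024⟩⟩, 1024, ⟨26, 4096, 1⟩⟩))))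
    (.leaf (.psd ⟨⟨⟨1, (-3228), 0⟩, ⟨0, 1024, 0⟩, ⟨0, 0, 1⟩⟩, ⟨⟨1024, 3228, 0⟩, ⟨0, 1, 0⟩, ⟨0, 0, 1024⟩⟩, 1024, ⟨1048576, 321, 1⟩⟩)))
    (.node 0
    (.node 1
    (.leaf (.psd ⟨⟨⟨1, (-4145), 0⟩, ⟨0, 1024, 0⟩, ⟨0, 0, 1⟩⟩, ⟨⟨1024, 4145, 0⟩, ⟨0, 1, 0⟩, ⟨0, 0, 1024⟩⟩, 1024, ⟨1048576, 362, 1⟩⟩))
    (.leaf (.skip 8)))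
    (.leaf (.skip 8))))
    (.node 1
    (.node 0
    (.node 1
    (.leaf (.psd ⟨⟨⟨1, (-4239), 0⟩, ⟨0, 1024, 0⟩, ⟨0, 0, 1⟩⟩, ⟨⟨1024, 4239, 0⟩, ⟨0, 1, 0⟩, ⟨0, 0, 1024⟩⟩, 1024, ⟨1048576, 354, 1⟩⟩))
    (.leaf (.skip 8)))
    (.leaf (.skip 8)))
    (.leaf (.skip 8))))
    (.leaf (.skip 8))))
    (.leaf (.skip 8)))))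

theorem chunk11 : Check.Good ⟨false, false, false⟩ cfg (reach cfg base [(3, true), (1, true), (3, false), (0, false), (0, true), (1, true), (3, false), (3, false), (0, true), (1, true), (0, true)]) :=
  Check.check_sound tree11 (by decide +kernel)

end Vale.Agent.P211.Cert.Pair.PairOuterL
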