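import Vale.Agent.P211.Cert.Pair.Data.PairOuterL.Part1

/-!
P211, data: the root `outerL` of the form across the gradient, generated from the exact search.
-/

namespace Vale.Agent.P211.Cert.Pair.PairOuterL

open Vale.Agent.P098.Check6 (Face St ofChunks reach)
open Vale.Agent.P098.Cert6.Kron (RootPar)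

/-- A subtree. -/
def tree12 : Check.Tree Check.Leaf :=
  .node 3
    (.node 0
    (.leaf (.psd ⟨⟨⟨1024, 0, 0⟩, ⟨(-2088), 1, 0⟩, ⟨0, 0, 1⟩⟩, ⟨⟨1, 0, 0⟩, ⟨2088, 1024, 0⟩, ⟨0, 0, 1024⟩⟩, 1024, ⟨2, 4096, 1⟩⟩))
    (.node 1
    (.leaf (.psd ⟨⟨⟨1024, 0, 0⟩, ⟨(-1841), 1, 0⟩, ⟨0, 0, 1⟩⟩, ⟨⟨1, 0, 0⟩, ⟨1841, 1024, 0⟩, ⟨0, 0, 1024⟩⟩, 1024, ⟨2, 4096, 1⟩⟩))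
    (.node 3
    (.leaf (.psd ⟨⟨⟨1024, 0, 0⟩, ⟨(-1403), 1, 0⟩, ⟨0, 0, 1⟩⟩, ⟨⟨1, 0, 0⟩, ⟨1403, 1024, 0⟩, ⟨0, 0, 1024⟩⟩, 1024, ⟨944, 1048576, 1⟩⟩))
    (.leaf (.psd ⟨⟨⟨1024, 0, 0⟩, ⟨(-1116), 1, 0⟩, ⟨0, 0, 1⟩⟩, ⟨⟨1, 0, 0⟩, ⟨1116, 1024, 0⟩, ⟨0, 0, 1024⟩⟩, 1024, ⟨1215, 1048576, 1⟩⟩)))))
    (.node 0
    (.leaf (.psd ⟨⟨⟨1024, 0, 0⟩, ⟨(-1414), 1, 0⟩, ⟨0, 0, 1⟩⟩, ⟨⟨1, 0, 0⟩, ⟨1414, 1024, 0⟩, ⟨0, 0, 1024⟩⟩, 1024, ⟨3, 4096, 1⟩⟩))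
    (.node 1
    (.leaf (.psd ⟨⟨⟨1024, 0, 0⟩, ⟨(-1245), 1, 0⟩, ⟨0, 0, 1⟩⟩, ⟨⟨1, 0, 0⟩, ⟨1245, 1024, 0⟩, ⟨0, 0, 1024⟩⟩, 1024, ⟨3, 4096, 1⟩⟩))
    (.leaf (.psd ⟨⟨⟨1024, 0, 0⟩, ⟨(-833), 1, 0⟩, ⟨0, 0, 1⟩⟩, ⟨⟨1, 0, 0⟩, ⟨833, 1024, 0⟩, ⟨0, 0, 1024⟩⟩, 1024, ⟨1480, 1048576, 1⟩⟩))))

theorem chunk12 : Check.Good ⟨false, false, false⟩ cfg (reach cfg base [(1, false), (3, true), (0, false), (0, true), (1, true), (3, false), (3, false), (0, true), (1, true), (0, true)]) :=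
  Check.check_sound tree12 (by decide +kernel)

/-- A subtree. -/
def tree13 : Check.Tree Check.Leaf :=
  .node 1
    (.node 3
    (.node 3
    (.leaf (.psd ⟨⟨⟨1024, 0, 0⟩, ⟨(-1401), 1, 0⟩, ⟨0, 0, 1⟩⟩, ⟨⟨1, 0, 0⟩, ⟨1401, 1024, 0⟩, ⟨0, 0, 1024⟩⟩, 1024, ⟨944, 1048576, 1⟩⟩))
    (.leaf (.psd ⟨⟨⟨1024, 0, 0⟩, ⟨(-1116), 1, 0⟩, ⟨0, 0, 1⟩⟩, ⟨⟨1, 0, 0⟩, ⟨1116, 1024, 0⟩, ⟨0, 0, 1024⟩⟩, 1024, ⟨4, 4096, 1⟩⟩)))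
    (.leaf (.psd ⟨⟨⟨1024, 0, 0⟩, ⟨(-834), 1, 0⟩, ⟨0, 0, 1⟩⟩, ⟨⟨1, 0, 0⟩, ⟨834, 1024, 0⟩, ⟨0, 0, 1024⟩⟩, 1024, ⟨1474, 1048576, 1⟩⟩)))
    (.node 3
    (.node 0
    (.node 1
    (.leaf (.psd ⟨⟨⟨1024, 0, 0⟩, ⟨(-949), 1, 0⟩, ⟨0, 0, 1⟩⟩, ⟨⟨1, 0, 0⟩, ⟨949, 1024, 0⟩, ⟨0, 0, 1024⟩⟩, 1024, ⟨4, 4096, 1⟩⟩))
    (.leaf (.psd ⟨⟨⟨1024, 0, 0⟩, ⟨(-672), 1, 0⟩, ⟨0, 0, 1⟩⟩, ⟨⟨1, 0, 0⟩, ⟨672, 1024, 0⟩, ⟨0, 0, 1024⟩⟩, 1024, ⟨1744, 1048576, 1⟩⟩)))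
    (.node 1
    (.node 3
    (.leaf (.psd ⟨⟨⟨1024, 0, 0⟩, ⟨(-739), 1, 0⟩, ⟨0, 0, 1⟩⟩, ⟨⟨1, 0, 0⟩, ⟨739, 1024, 0⟩, ⟨0, 0, 1024⟩⟩, 1024, ⟨7, 4096, 1⟩⟩))
    (.leaf (.psd ⟨⟨⟨1024, 0, 0⟩, ⟨(-590), 1, 0⟩, ⟨0, 0, 1⟩⟩, ⟨⟨1, 0, 0⟩, ⟨590, 1024, 0⟩, ⟨0, 0, 1024⟩⟩, 1024, ⟨9, 4096, 1⟩⟩)))
    (.node 0
    (.node 1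
    (.leaf (.psd ⟨⟨⟨1024, 0, 0⟩, ⟨(-510), 1, 0⟩, ⟨0, 0, 1⟩⟩, ⟨⟨1, 0, 0⟩, ⟨510, 1024, 0⟩, ⟨0, 0, 1024⟩⟩, 1024, ⟨8, 4096, 1⟩⟩))
    (.leaf (.psd ⟨⟨⟨1024, 0, 0⟩, ⟨(-370), 1, 0⟩, ⟨0, 0, 1⟩⟩, ⟨⟨1, 0, 0⟩, ⟨370, 1024, 0⟩, ⟨0, 0, 1024⟩⟩, 1024, ⟨12, 4096, 1⟩⟩)))
    (.node 1
    (.leaf (.psd ⟨⟨⟨1024, 0, 0⟩, ⟨(-356), 1, 0⟩, ⟨0, 0, 1⟩⟩, ⟨⟨1, 0, 0⟩, ⟨356, 1024, 0⟩, ⟨0, 0, 1024⟩⟩, 1024, ⟨12, 4096, 1⟩⟩))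
    (.node 0
    (.leaf (.psd ⟨⟨⟨1024, 0, 0⟩, ⟨(-252), 1, 0⟩, ⟨0, 0, 1⟩⟩, ⟨⟨1, 0, 0⟩, ⟨252, 1024, 0⟩, ⟨0, 0, 1024⟩⟩, 1024, ⟨16, 4096, 1⟩⟩))
    (.leaf (.psd ⟨⟨⟨1, (-2809), 0⟩, ⟨0, 1024, 0⟩, ⟨0, 0, 1⟩⟩, ⟨⟨1024, 2809, 0⟩, ⟨0, 1, 0⟩, ⟨0, 0, 1024⟩⟩, 1024, ⟨1048576, 400, 1⟩⟩)))))))
    (.node 0
    (.leaf (.psd ⟨⟨⟨1024, 0, 0⟩, ⟨(-555), 1, 0⟩, ⟨0, 0, 1⟩⟩, ⟨⟨1, 0, 0⟩, ⟨555, 1024, 0⟩, ⟨0, 0, 1024⟩⟩, 1024, ⟨2170, 1048576, 1⟩⟩))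
    (.node 1
    (.leaf (.psd ⟨⟨⟨1024, 0, 0⟩, ⟨(-442), 1, 0⟩, ⟨0, 0, 1⟩⟩, ⟨⟨1, 0, 0⟩, ⟨442, 1024, 0⟩, ⟨0, 0, 1024⟩⟩, 1024, ⟨10, 4096, 1⟩⟩))
    (.node 0
    (.leaf (.psd ⟨⟨⟨1024, 0, 0⟩, ⟨(-302), 1, 0⟩, ⟨0, 0, 1⟩⟩, ⟨⟨1, 0, 0⟩, ⟨302, 1024, 0⟩, ⟨0, 0, 1024⟩⟩, 1024, ⟨14, 4096, 1⟩⟩))
    (.node 1
    (.leaf (.psd ⟨⟨⟨1024, 0, 0⟩, ⟨(-244), 1, 0⟩, ⟨0, 0, 1⟩⟩, ⟨⟨1, 0, 0⟩, ⟨244, 1024, 0⟩, ⟨0, 0, 1024⟩⟩, 1024, ⟨17, 4096, 1⟩⟩))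
    (.leaf (.psd ⟨⟨⟨1024, 0, 0⟩, ⟨(-146), 1, 0⟩, ⟨0, 0, 1⟩⟩, ⟨⟨1, 0, 0⟩, ⟨146, 1024, 0⟩, ⟨0, 0, 1024⟩⟩, 1024, ⟨24, 4096, 1⟩⟩)))))))

theorem chunk13 : Check.Good ⟨false, false, false⟩ cfg (reach cfg base [(0, false), (1, true), (3, true), (0, false), (0, true), (1, true), (3, false), (3, false), (0, true), (1, true), (0, true)]) :=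
  Check.check_sound tree13 (by decide +kernel)

/-- A subtree. -/
def tree14 : Check.Tree Check.Leaf :=
  .node 0
    (.node 3
    (.node 1
    (.leaf (.psd ⟨⟨⟨1024, 0, 0⟩, ⟨(-921), 1, 0⟩, ⟨0, 0, 1⟩⟩, ⟨⟨1, 0, 0⟩, ⟨921, 1024, 0⟩, ⟨0, 0, 1024⟩⟩, 1024, ⟨4, 4096, 1⟩⟩))
    (.node 3
    (.leaf (.psd ⟨⟨⟨1024, 0, 0⟩, ⟨(-721), 1, 0⟩, ⟨0, 0, 1⟩⟩, ⟨⟨1, 0, 0⟩, ⟨721, 1024, 0⟩, ⟨0, 0, 1024⟩⟩, 1024, ⟨7, 4096, 1⟩⟩))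
    (.leaf (.psd ⟨⟨⟨1024, 0, 0⟩, ⟨(-576), 1, 0⟩, ⟨0, 0, 1⟩⟩, ⟨⟨1, 0, 0⟩, ⟨576, 1024, 0⟩, ⟨0, 0, 1024⟩⟩, 1024, ⟨9, 4096, 1⟩⟩))))
    (.node 1
    (.leaf (.psd ⟨⟨⟨1024, 0, 0⟩, ⟨(-630), 1, 0⟩, ⟨0, 0, 1⟩⟩, ⟨⟨1, 0, 0⟩, ⟨630, 1024, 0⟩, ⟨0, 0, 1024⟩⟩, 1024, ⟨7, 4096, 1⟩⟩))
    (.leaf (.psd ⟨⟨⟨1024, 0, 0⟩, ⟨(-431), 1, 0⟩, ⟨0, 0, 1⟩⟩, ⟨⟨1, 0, 0⟩, ⟨431, 1024, 0⟩, ⟨0, 0, 1024⟩⟩, 1024, ⟨10, 4096, 1⟩⟩))))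
    (.node 1
    (.node 3
    (.node 3
    (.leaf (.psd ⟨⟨⟨1024, 0, 0⟩, ⟨(-717), 1, 0⟩, ⟨0, 0, 1⟩⟩, ⟨⟨1, 0, 0⟩, ⟨717, 1024, 0⟩, ⟨0, 0, 1024⟩⟩, 1024, ⟨7, 4096, 1⟩⟩))
    (.leaf (.psd ⟨⟨⟨1024, 0, 0⟩, ⟨(-573), 1, 0⟩, ⟨0, 0, 1⟩⟩, ⟨⟨1, 0, 0⟩, ⟨573, 1024, 0⟩, ⟨0, 0, 1024⟩⟩, 1024, ⟨9, 4096, 1⟩⟩)))
    (.leaf (.psd ⟨⟨⟨1024, 0, 0⟩, ⟨(-429), 1, 0⟩, ⟨0, 0, 1⟩⟩, ⟨⟨1, 0, 0⟩, ⟨429, 1024, 0⟩, ⟨0, 0, 1024⟩⟩, 1024, ⟨11, 4096, 1⟩⟩)))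
    (.node 3
    (.node 0
    (.node 1
    (.leaf (.psd ⟨⟨⟨1024, 0, 0⟩, ⟨(-478), 1, 0⟩, ⟨0, 0, 1⟩⟩, ⟨⟨1, 0, 0⟩, ⟨478, 1024, 0⟩, ⟨0, 0, 1024⟩⟩, 1024, ⟨9, 4096, 1⟩⟩))
    (.leaf (.psd ⟨⟨⟨1024, 0, 0⟩, ⟨(-331), 1, 0⟩, ⟨0, 0, 1⟩⟩, ⟨⟨1, 0, 0⟩, ⟨331, 1024, 0⟩, ⟨0, 0, 1024⟩⟩, 1024, ⟨13, 4096, 1⟩⟩)))
    (.node 1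
    (.leaf (.psd ⟨⟨⟨1024, 0, 0⟩, ⟨(-328), 1, 0⟩, ⟨0, 0, 1⟩⟩, ⟨⟨1, 0, 0⟩, ⟨328, 1024, 0⟩, ⟨0, 0, 1024⟩⟩, 1024, ⟨3422, 1048576, 1⟩⟩))
    (.node 0
    (.leaf (.psd ⟨⟨⟨1024, 0, 0⟩, ⟨(-217), 1, 0⟩, ⟨0, 0, 1⟩⟩, ⟨⟨1, 0, 0⟩, ⟨217, 1024, 0⟩, ⟨0, 0, 1024⟩⟩, 1024, ⟨4752, 1048576, 1⟩⟩))
    (.leaf (.psd ⟨⟨⟨1, (-3239), 0⟩, ⟨0, 1024, 0⟩, ⟨0, 0, 1⟩⟩, ⟨⟨1024, 3239, 0⟩, ⟨0, 1, 0⟩, ⟨0, 0, 1024⟩⟩, 1024, ⟨1048576, 338, 1⟩⟩)))))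
    (.node 0
    (.leaf (.psd ⟨⟨⟨1024, 0, 0⟩, ⟨(-277), 1, 0⟩, ⟨0, 0, 1⟩⟩, ⟨⟨1, 0, 0⟩, ⟨277, 1024, 0⟩, ⟨0, 0, 1024⟩⟩, 1024, ⟨15, 4096, 1⟩⟩))
    (.node 1
    (.leaf (.psd ⟨⟨⟨1024, 0, 0⟩, ⟨(-225), 1, 0⟩, ⟨0, 0, 1⟩⟩, ⟨⟨1, 0, 0⟩, ⟨225, 1024, 0⟩, ⟨0, 0, 1024⟩⟩, 1024, ⟨19, 4096, 1⟩⟩))
    (.leaf (.psd ⟨⟨⟨1, (-3323), 0⟩, ⟨0, 1024, 0⟩, ⟨0, 0, 1⟩⟩, ⟨⟨1024, 3323, 0⟩, ⟨0, 1, 0⟩, ⟨0, 0, 1024⟩⟩, 1024, ⟨4096, 1, 1⟩⟩))))))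

theorem chunk14 : Check.Good ⟨false, false, false⟩ cfg (reach cfg base [(1, false), (0, true), (1, true), (3, true), (0, false), (0, true), (1, true), (3, false), (3, false), (0, true), (1, true), (0, true)]) :=
  Check.check_sound tree14 (by decide +kernel)

/-- A subtree. -/
def tree15 : Check.Tree Check.Leaf :=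
  .node 0
    (.node 1
    (.node 3
    (.node 0
    (.node 1
    (.leaf (.psd ⟨⟨⟨1024, 0, 0⟩, ⟨(-488), 1, 0⟩, ⟨0, 0, 1⟩⟩, ⟨⟨1, 0, 0⟩, ⟨488, 1024, 0⟩, ⟨0, 0, 1024⟩⟩, 1024, ⟨9, 4096, 1⟩⟩))
    (.leaf (.psd ⟨⟨⟨1024, 0, 0⟩, ⟨(-344), 1, 0⟩, ⟨0, 0, 1⟩⟩, ⟨⟨1, 0, 0⟩, ⟨344, 1024, 0⟩, ⟨0, 0, 1024⟩⟩, 1024, ⟨3280, 1048576, 1⟩⟩)))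
    (.node 1
    (.leaf (.psd ⟨⟨⟨1024, 0, 0⟩, ⟨(-336), 1, 0⟩, ⟨0, 0, 1⟩⟩, ⟨⟨1, 0, 0⟩, ⟨336, 1024, 0⟩, ⟨0, 0, 1024⟩⟩, 1024, ⟨13, 4096, 1⟩⟩))
    (.node 0
    (.leaf (.psd ⟨⟨⟨1024, 0, 0⟩, ⟨(-229), 1, 0⟩, ⟨0, 0, 1⟩⟩, ⟨⟨1, 0, 0⟩, ⟨229, 1024, 0⟩, ⟨0, 0, 1024⟩⟩, 1024, ⟨17, 4096, 1⟩⟩))
    (.leaf (.psd ⟨⟨⟨1, (-3079), 0⟩, ⟨0, 1024, 0⟩, ⟨0, 0, 1⟩⟩, ⟨⟨1024, 3079, 0⟩, ⟨0, 1, 0⟩, ⟨0, 0, 1024⟩⟩, 1024, ⟨1048576, 357, 1⟩⟩)))))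
    (.node 0
    (.leaf (.psd ⟨⟨⟨1024, 0, 0⟩, ⟨(-285), 1, 0⟩, ⟨0, 0, 1⟩⟩, ⟨⟨1, 0, 0⟩, ⟨285, 1024, 0⟩, ⟨0, 0, 1024⟩⟩, 1024, ⟨15, 4096, 1⟩⟩))
    (.node 1
    (.leaf (.psd ⟨⟨⟨1024, 0, 0⟩, ⟨(-230), 1, 0⟩, ⟨0, 0, 1⟩⟩, ⟨⟨1, 0, 0⟩, ⟨230, 1024, 0⟩, ⟨0, 0, 1024⟩⟩, 1024, ⟨18, 4096, 1⟩⟩))
    (.leaf (.psd ⟨⟨⟨1024, 0, 0⟩, ⟨(-130), 1, 0⟩, ⟨0, 0, 1⟩⟩, ⟨⟨1, 0, 0⟩, ⟨130, 1024, 0⟩, ⟨0, 0, 1024⟩⟩, 1024, ⟨6768, 1048576, 1⟩⟩)))))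
    (.node 0
    (.node 1
    (.node 3
    (.node 0
    (.leaf (.psd ⟨⟨⟨1024, 0, 0⟩, ⟨(-239), 1, 0⟩, ⟨0, 0, 1⟩⟩, ⟨⟨1, 0, 0⟩, ⟨239, 1024, 0⟩, ⟨0, 0, 1024⟩⟩, 1024, ⟨17, 4096, 1⟩⟩))
    (.leaf (.psd ⟨⟨⟨1, (-2956), 0⟩, ⟨0, 1024, 0⟩, ⟨0, 0, 1⟩⟩, ⟨⟨1024, 2956, 0⟩, ⟨0, 1, 0⟩, ⟨0, 0, 1024⟩⟩, 1024, ⟨1048576, 377, 1⟩⟩)))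
    (.leaf (.psd ⟨⟨⟨1024, 0, 0⟩, ⟨(-137), 1, 0⟩, ⟨0, 0, 1⟩⟩, ⟨⟨1, 0, 0⟩, ⟨137, 1024, 0⟩, ⟨0, 0, 1024⟩⟩, 1024, ⟨25, 4096, 1⟩⟩)))
    (.node 0
    (.node 1
    (.leaf (.psd ⟨⟨⟨1024, 0, 0⟩, ⟨(-102), 1, 0⟩, ⟨0, 0, 1⟩⟩, ⟨⟨1, 0, 0⟩, ⟨102, 1024, 0⟩, ⟨0, 0, 1024⟩⟩, 1024, ⟨6121, 1048576, 1⟩⟩))
    (.node 3
    (.node 0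
    (.leaf (.psd ⟨⟨⟨1024, 0, 0⟩, ⟨(-78), 1, 0⟩, ⟨0, 0, 1⟩⟩, ⟨⟨1, 0, 0⟩, ⟨78, 1024, 0⟩, ⟨0, 0, 1024⟩⟩, 1024, ⟨36, 4096, 1⟩⟩))
    (.node 1
    (.leaf (.psd ⟨⟨⟨1024, 0, 0⟩, ⟨(-56), 1, 0⟩, ⟨0, 0, 1⟩⟩, ⟨⟨1, 0, 0⟩, ⟨56, 1024, 0⟩, ⟨0, 0, 1024⟩⟩, 1024, ⟨42, 4096, 1⟩⟩))
    (.leaf (.psd ⟨⟨⟨1, (-4178), 0⟩, ⟨0, 1024, 0⟩, ⟨0, 0, 1⟩⟩, ⟨⟨1024, 4178, 0⟩, ⟨0, 1, 0⟩, ⟨0, 0, 1024⟩⟩, 1024, ⟨1048576, 27, 1⟩⟩))))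
    (.leaf (.psd ⟨⟨⟨1024, 0, 0⟩, ⟨(-39), 1, 0⟩, ⟨0, 0, 1⟩⟩, ⟨⟨1, 0, 0⟩, ⟨39, 1024, 0⟩, ⟨0, 0, 1024⟩⟩, 1024, ⟨50, 4096, 1⟩⟩))))
    (.node 1
    (.node 3
    (.node 0
    (.leaf (.psd ⟨⟨⟨1024, 0, 0⟩, ⟨(-71), 1, 0⟩, ⟨0, 0, 1⟩⟩, ⟨⟨1, 0, 0⟩, ⟨71, 1024, 0⟩, ⟨0, 0, 1024⟩⟩, 1024, ⟨38, 4096, 1⟩⟩))
    (.node 1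
    (.leaf (.psd ⟨⟨⟨1024, 0, 0⟩, ⟨(-49), 1, 0⟩, ⟨0, 0, 1⟩⟩, ⟨⟨1, 0, 0⟩, ⟨49, 1024, 0⟩, ⟨0, 0, 1024⟩⟩, 1024, ⟨45, 4096, 1⟩⟩))
    (.node 0
    (.leaf (.psd ⟨⟨⟨1024, 0, 0⟩, ⟨(-23), 1, 0⟩, ⟨0, 0, 1⟩⟩, ⟨⟨1, 0, 0⟩, ⟨23, 1024, 0⟩, ⟨0, 0, 1024⟩⟩, 1024, ⟨71, 4096, 1⟩⟩))
    (.node 1
    (.leaf (.psd ⟨⟨⟨1024, 0, 0⟩, ⟨(-12), 1, 0⟩, ⟨0, 0, 1⟩⟩, ⟨⟨1, 0, 0⟩, ⟨12, 1024, 0⟩, ⟨0, 0, 1024⟩⟩, 1024, ⟨87, 4096, 1⟩⟩))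
    (.leaf (.skip 8))))))
    (.leaf (.psd ⟨⟨⟨1024, 0, 0⟩, ⟨(-34), 1, 0⟩, ⟨0, 0, 1⟩⟩, ⟨⟨1, 0, 0⟩, ⟨34, 1024, 0⟩, ⟨0, 0, 1024⟩⟩, 1024, ⟨52, 4096, 1⟩⟩)))
    (.node 3
    (.node 0
    (.node 1
    (.node 0
    (.leaf (.psd ⟨⟨⟨1024, 0, 0⟩, ⟨(-26), 1, 0⟩, ⟨0, 0, 1⟩⟩, ⟨⟨1, 0, 0⟩, ⟨26, 1024, 0⟩, ⟨0, 0, 1024⟩⟩, 1024, ⟨65, 4096, 1⟩⟩))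
    (.node 1
    (.leaf (.psd ⟨⟨⟨1024, 0, 0⟩, ⟨(-15), 1, 0⟩, ⟨0, 0, 1⟩⟩, ⟨⟨1, 0, 0⟩, ⟨15, 1024, 0⟩, ⟨0, 0, 1024⟩⟩, 1024, ⟨77, 4096, 1⟩⟩))
    (.leaf (.skip 8))))
    (.node 3
    (.leaf (.skip 8))
    (.node 0
    (.node 1
    (.leaf (.psd ⟨⟨⟨1024, 0, 0⟩, ⟨2, 1, 0⟩, ⟨0, 0, 1⟩⟩, ⟨⟨1, 0, 0⟩, ⟨(-2), 1024, 0⟩, ⟨0, 0, 1024⟩⟩, 1024, ⟨107, 4096, 1⟩⟩))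
    (.leaf (.skip 6)))
    (.leaf (.skip 6)))))
    (.leaf (.skip 8)))
    (.node 0
    (.node 1
    (.leaf (.psd ⟨⟨⟨1024, 0, 0⟩, ⟨(-10), 1, 0⟩, ⟨0, 0, 1⟩⟩, ⟨⟨1, 0, 0⟩, ⟨10, 1024, 0⟩, ⟨0, 0, 1024⟩⟩, 1024, ⟨73, 4096, 1⟩⟩))
    (.node 3
    (.node 0
    (.leaf (.psd ⟨⟨⟨1024, 0, 0⟩, ⟨9, 1, 0⟩, ⟨0, 0, 1⟩⟩, ⟨⟨1, 0, 0⟩, ⟨(-9), 1024, 0⟩, ⟨0, 0, 1024⟩⟩, 1024, ⟨108, 4096, 1⟩⟩))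
    (.leaf (.skip 6)))
    (.leaf (.psd ⟨⟨⟨1024, 0, 0⟩, ⟨14, 1, 0⟩, ⟨0, 0, 1⟩⟩, ⟨⟨1, 0, 0⟩, ⟨(-14), 1024, 0⟩, ⟨0, 0, 1024⟩⟩, 1024, ⟨100, 4096, 1⟩⟩))))
    (.node 1
    (.node 3
    (.node 0
    (.leaf (.psd ⟨⟨⟨1024, 0, 0⟩, ⟨11, 1, 0⟩, ⟨0, 0, 1⟩⟩, ⟨⟨1, 0, 0⟩, ⟨(-11), 1024, 0⟩, ⟨0, 0, 1024⟩⟩, 1024, ⟨112, 4096, 1⟩⟩))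
    (.leaf (.skip 6)))
    (.leaf (.psd ⟨⟨⟨1024, 0, 0⟩, ⟨16, 1, 0⟩, ⟨0, 0, 1⟩⟩, ⟨⟨1, 0, 0⟩, ⟨(-16), 1024, 0⟩, ⟨0, 0, 1024⟩⟩, 1024, ⟨103, 4096, 1⟩⟩)))
    (.leaf (.skip 6))))))))
    (.node 1
    (.node 0
    (.node 1
    (.leaf (.psd ⟨⟨⟨1, (-3965), 0⟩, ⟨0, 1024, 0⟩, ⟨0, 0, 1⟩⟩, ⟨⟨1024, 3965, 0⟩, ⟨0, 1, 0⟩, ⟨0, 0, 1024⟩⟩, 1024, ⟨4096, 1, 1⟩⟩))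
    (.node 3
    (.node 0
    (.leaf (.psd ⟨⟨⟨1024, 0, 0⟩, ⟨(-65), 1, 0⟩, ⟨0, 0, 1⟩⟩, ⟨⟨1, 0, 0⟩, ⟨65, 1024, 0⟩, ⟨0, 0, 1024⟩⟩, 1024, ⟨41, 4096, 1⟩⟩))
    (.node 1
    (.leaf (.psd ⟨⟨⟨1024, 0, 0⟩, ⟨(-44), 1, 0⟩, ⟨0, 0, 1⟩⟩, ⟨⟨1, 0, 0⟩, ⟨44, 1024, 0⟩, ⟨0, 0, 1024⟩⟩, 1024, ⟨51, 4096, 1⟩⟩))
    (.node 0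
    (.leaf (.psd ⟨⟨⟨1024, 0, 0⟩, ⟨(-16), 1, 0⟩, ⟨0, 0, 1⟩⟩, ⟨⟨1, 0, 0⟩, ⟨16, 1024, 0⟩, ⟨0, 0, 1024⟩⟩, 1024, ⟨82, 4096, 1⟩⟩))
    (.node 1
    (.leaf (.psd ⟨⟨⟨1024, 0, 0⟩, ⟨(-6), 1, 0⟩, ⟨0, 0, 1⟩⟩, ⟨⟨1, 0, 0⟩, ⟨6, 1024, 0⟩, ⟨0, 0, 1024⟩⟩, 1024, ⟨107, 4096, 1⟩⟩))
    (.leaf (.skip 8))))))
    (.leaf (.psd ⟨⟨⟨1024, 0, 0⟩, ⟨(-30), 1, 0⟩, ⟨0, 0, 1⟩⟩, ⟨⟨1, 0, 0⟩, ⟨30, 1024, 0⟩, ⟨0, 0, 1024⟩⟩, 1024, ⟨54, 4096, 1⟩⟩))))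
    (.node 1
    (.node 3
    (.node 0
    (.leaf (.psd ⟨⟨⟨1024, 0, 0⟩, ⟨(-59), 1, 0⟩, ⟨0, 0, 1⟩⟩, ⟨⟨1, 0, 0⟩, ⟨59, 1024, 0⟩, ⟨0, 0, 1024⟩⟩, 1024, ⟨11203, 1048576, 1⟩⟩))
    (.node 1
    (.leaf (.psd ⟨⟨⟨1024, 0, 0⟩, ⟨(-38), 1, 0⟩, ⟨0, 0, 1⟩⟩, ⟨⟨1, 0, 0⟩, ⟨38, 1024, 0⟩, ⟨0, 0, 1024⟩⟩, 1024, ⟨55, 4096, 1⟩⟩))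
    (.node 0
    (.leaf (.psd ⟨⟨⟨1024, 0, 0⟩, ⟨(-11), 1, 0⟩, ⟨0, 0, 1⟩⟩, ⟨⟨1, 0, 0⟩, ⟨11, 1024, 0⟩, ⟨0, 0, 1024⟩⟩, 1024, ⟨94, 4096, 1⟩⟩))
    (.node 1
    (.leaf (.psd ⟨⟨⟨1024, 0, 0⟩, ⟨(-1), 1, 0⟩, ⟨0, 0, 1⟩⟩, ⟨⟨1, 0, 0⟩, ⟨1, 1024, 0⟩, ⟨0, 0, 1024⟩⟩, 1024, ⟨130, 4096, 1⟩⟩))
    (.leaf (.skip 6))))))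
    (.leaf (.psd ⟨⟨⟨1024, 0, 0⟩, ⟨(-27), 1, 0⟩, ⟨0, 0, 1⟩⟩, ⟨⟨1, 0, 0⟩, ⟨27, 1024, 0⟩, ⟨0, 0, 1024⟩⟩, 1024, ⟨56, 4096, 1⟩⟩)))
    (.node 3
    (.node 0
    (.node 1
    (.node 0
    (.leaf (.psd ⟨⟨⟨1024, 0, 0⟩, ⟨(-14), 1, 0⟩, ⟨0, 0, 1⟩⟩, ⟨⟨1, 0, 0⟩, ⟨14, 1024, 0⟩, ⟨0, 0, 1024⟩⟩, 1024, ⟨88, 4096, 1⟩⟩))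
    (.node 1
    (.leaf (.psd ⟨⟨⟨1024, 0, 0⟩, ⟨(-3), 1, 0⟩, ⟨0, 0, 1⟩⟩, ⟨⟨1, 0, 0⟩, ⟨3, 1024, 0⟩, ⟨0, 0, 1024⟩⟩, 1024, ⟨118, 4096, 1⟩⟩))
    (.leaf (.skip 6))))
    (.leaf (.skip 6)))
    (.leaf (.skip 6)))
    (.node 0
    (.node 1
    (.leaf (.psd ⟨⟨⟨1024, 0, 0⟩, ⟨(-2), 1, 0⟩, ⟨0, 0, 1⟩⟩, ⟨⟨1, 0, 0⟩, ⟨2, 1024, 0⟩, ⟨0, 0, 1024⟩⟩, 1024, ⟨87, 4096, 1⟩⟩))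
    (.leaf (.skip 6)))
    (.leaf (.skip 6))))))
    (.node 0
    (.node 1
    (.node 3
    (.node 0
    (.node 1
    (.node 0
    (.leaf (.psd ⟨⟨⟨1024, 0, 0⟩, ⟨(-19), 1, 0⟩, ⟨0, 0, 1⟩⟩, ⟨⟨1, 0, 0⟩, ⟨19, 1024, 0⟩, ⟨0, 0, 1024⟩⟩, 1024, ⟨76, 4096, 1⟩⟩))
    (.node 1
    (.leaf (.psd ⟨⟨⟨1024, 0, 0⟩, ⟨(-9), 1, 0⟩, ⟨0, 0, 1⟩⟩, ⟨⟨1, 0, 0⟩, ⟨9, 1024, 0⟩, ⟨0, 0, 1024⟩⟩, 1024, ⟨97, 4096, 1⟩⟩))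
    (.leaf (.skip 8))))
    (.leaf (.skip 8)))
    (.leaf (.skip 8)))
    (.node 0
    (.node 1
    (.leaf (.psd ⟨⟨⟨1024, 0, 0⟩, ⟨(-6), 1, 0⟩, ⟨0, 0, 1⟩⟩, ⟨⟨1, 0, 0⟩, ⟨6, 1024, 0⟩, ⟨0, 0, 1024⟩⟩, 1024, ⟨81, 4096, 1⟩⟩))
    (.node 3
    (.node 0
    (.leaf (.psd ⟨⟨⟨1024, 0, 0⟩, ⟨14, 1, 0⟩, ⟨0, 0, 1⟩⟩, ⟨⟨1, 0, 0⟩, ⟨(-14), 1024, 0⟩, ⟨0, 0, 1024⟩⟩, 1024, ⟨120, 4096, 1⟩⟩))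
    (.leaf (.skip 6)))
    (.leaf (.psd ⟨⟨⟨1024, 0, 0⟩, ⟨18, 1, 0⟩, ⟨0, 0, 1⟩⟩, ⟨⟨1, 0, 0⟩, ⟨(-18), 1024, 0⟩, ⟨0, 0, 1024⟩⟩, 1024, ⟨107, 4096, 1⟩⟩))))
    (.node 1
    (.node 3
    (.node 0
    (.leaf (.psd ⟨⟨⟨1024, 0, 0⟩, ⟨16, 1, 0⟩, ⟨0, 0, 1⟩⟩, ⟨⟨1, 0, 0⟩, ⟨(-16), 1024, 0⟩, ⟨0, 0, 1024⟩⟩, 1024, ⟨126, 4096, 1⟩⟩))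
    (.leaf (.skip 6)))
    (.leaf (.psd ⟨⟨⟨1024, 0, 0⟩, ⟨20, 1, 0⟩, ⟨0, 0, 1⟩⟩, ⟨⟨1, 0, 0⟩, ⟨(-20), 1024, 0⟩, ⟨0, 0, 1024⟩⟩, 1024, ⟨111, 4096, 1⟩⟩)))
    (.leaf (.skip 6)))))
    (.leaf (.skip 6)))
    (.leaf (.skip 6))))))
    (.node 1
    (.node 0
    (.node 1
    (.node 3
    (.node 0
    (.leaf (.psd ⟨⟨⟨1024, 0, 0⟩, ⟨(-221), 1, 0⟩, ⟨0, 0, 1⟩⟩, ⟨⟨1, 0, 0⟩, ⟨221, 1024, 0⟩, ⟨0, 0, 1024⟩⟩, 1024, ⟨18, 4096, 1⟩⟩))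
    (.leaf (.psd ⟨⟨⟨1, (-3175), 0⟩, ⟨0, 1024, 0⟩, ⟨0, 0, 1⟩⟩, ⟨⟨1024, 3175, 0⟩, ⟨0, 1, 0⟩, ⟨0, 0, 1024⟩⟩, 1024, ⟨1048576, 349, 1⟩⟩)))
    (.leaf (.psd ⟨⟨⟨1, (-3270), 0⟩, ⟨0, 1024, 0⟩, ⟨0, 0, 1⟩⟩, ⟨⟨1024, 3270, 0⟩, ⟨0, 1, 0⟩, ⟨0, 0, 1024⟩⟩, 1024, ⟨1048576, 357, 1⟩⟩)))
    (.node 0
    (.node 1
    (.leaf (.psd ⟨⟨⟨1, (-4091), 0⟩, ⟨0, 1024, 0⟩, ⟨0, 0, 1⟩⟩, ⟨⟨1024, 4091, 0⟩, ⟨0, 1, 0⟩, ⟨0, 0, 1024⟩⟩, 1024, ⟨4096, 1, 1⟩⟩))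
    (.node 3
    (.node 0
    (.leaf (.psd ⟨⟨⟨1, (-4907), 0⟩, ⟨0, 1024, 0⟩, ⟨0, 0, 1⟩⟩, ⟨⟨1024, 4907, 0⟩, ⟨0, 1, 0⟩, ⟨0, 0, 1024⟩⟩, 1024, ⟨1048576, 120, 1⟩⟩))
    (.node 1
    (.leaf (.psd ⟨⟨⟨1024, 0, 0⟩, ⟨(-34), 1, 0⟩, ⟨0, 0, 1⟩⟩, ⟨⟨1, 0, 0⟩, ⟨34, 1024, 0⟩, ⟨0, 0, 1024⟩⟩, 1024, ⟨59, 4096, 1⟩⟩))
    (.node 0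
    (.node 1
    (.leaf (.psd ⟨⟨⟨1024, 0, 0⟩, ⟨(-16), 1, 0⟩, ⟨0, 0, 1⟩⟩, ⟨⟨1, 0, 0⟩, ⟨16, 1024, 0⟩, ⟨0, 0, 1024⟩⟩, 1024, ⟨76, 4096, 1⟩⟩))
    (.leaf (.skip 8)))
    (.leaf (.skip 8)))))
    (.leaf (.psd ⟨⟨⟨1024, 0, 0⟩, ⟨(-24), 1, 0⟩, ⟨0, 0, 1⟩⟩, ⟨⟨1, 0, 0⟩, ⟨24, 1024, 0⟩, ⟨0, 0, 1024⟩⟩, 1024, ⟨58, 4096, 1⟩⟩))))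
    (.node 1
    (.node 3
    (.node 0
    (.leaf (.psd ⟨⟨⟨1, (-4937), 0⟩, ⟨0, 1024, 0⟩, ⟨0, 0, 1⟩⟩, ⟨⟨1024, 4937, 0⟩, ⟨0, 1, 0⟩, ⟨0, 0, 1024⟩⟩, 1024, ⟨1048576, 89, 1⟩⟩))
    (.node 1
    (.leaf (.psd ⟨⟨⟨1024, 0, 0⟩, ⟨(-31), 1, 0⟩, ⟨0, 0, 1⟩⟩, ⟨⟨1, 0, 0⟩, ⟨31, 1024, 0⟩, ⟨0, 0, 1024⟩⟩, 1024, ⟨63, 4096, 1⟩⟩))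
    (.node 0
    (.node 1
    (.leaf (.psd ⟨⟨⟨1024, 0, 0⟩, ⟨(-12), 1, 0⟩, ⟨0, 0, 1⟩⟩, ⟨⟨1, 0, 0⟩, ⟨12, 1024, 0⟩, ⟨0, 0, 1024⟩⟩, 1024, ⟨85, 4096, 1⟩⟩))
    (.leaf (.skip 6)))
    (.leaf (.skip 6)))))
    (.leaf (.psd ⟨⟨⟨1024, 0, 0⟩, ⟨(-21), 1, 0⟩, ⟨0, 0, 1⟩⟩, ⟨⟨1, 0, 0⟩, ⟨21, 1024, 0⟩, ⟨0, 0, 1024⟩⟩, 1024, ⟨15185, 1048576, 1⟩⟩)))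
    (.node 3
    (.node 0
    (.node 1
    (.node 0
    (.node 1
    (.leaf (.psd ⟨⟨⟨1024, 0, 0⟩, ⟨(-14), 1, 0⟩, ⟨0, 0, 1⟩⟩, ⟨⟨1, 0, 0⟩, ⟨14, 1024, 0⟩, ⟨0, 0, 1024⟩⟩, 1024, ⟨81, 4096, 1⟩⟩))
    (.leaf (.skip 8)))
    (.leaf (.skip 8)))
    (.leaf (.skip 6)))
    (.leaf (.skip 6)))
    (.node 0
    (.node 1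
    (.leaf (.psd ⟨⟨⟨1024, 0, 0⟩, ⟨4, 1, 0⟩, ⟨0, 0, 1⟩⟩, ⟨⟨1, 0, 0⟩, ⟨(-4), 1024, 0⟩, ⟨0, 0, 1024⟩⟩, 1024, ⟨98, 4096, 1⟩⟩))
    (.leaf (.skip 6)))
    (.leaf (.skip 6)))))))
    (.node 1
    (.node 0
    (.node 1
    (.leaf (.psd ⟨⟨⟨1, (-4183), 0⟩, ⟨0, 1024, 0⟩, ⟨0, 0, 1⟩⟩, ⟨⟨1024, 4183, 0⟩, ⟨0, 1, 0⟩, ⟨0, 0, 1024⟩⟩, 1024, ⟨4096, 1, 1⟩⟩))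
    (.node 3
    (.node 0
    (.node 1
    (.leaf (.psd ⟨⟨⟨1024, 0, 0⟩, ⟨(-67), 1, 0⟩, ⟨0, 0, 1⟩⟩, ⟨⟨1, 0, 0⟩, ⟨67, 1024, 0⟩, ⟨0, 0, 1024⟩⟩, 1024, ⟨38, 4096, 1⟩⟩))
    (.leaf (.psd ⟨⟨⟨1024, 0, 0⟩, ⟨(-29), 1, 0⟩, ⟨0, 0, 1⟩⟩, ⟨⟨1, 0, 0⟩, ⟨29, 1024, 0⟩, ⟨0, 0, 1024⟩⟩, 1024, ⟨65, 4096, 1⟩⟩)))
    (.node 1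
    (.leaf (.psd ⟨⟨⟨1024, 0, 0⟩, ⟨(-28), 1, 0⟩, ⟨0, 0, 1⟩⟩, ⟨⟨1, 0, 0⟩, ⟨28, 1024, 0⟩, ⟨0, 0, 1024⟩⟩, 1024, ⟨66, 4096, 1⟩⟩))
    (.node 0
    (.node 1
    (.leaf (.psd ⟨⟨⟨1024, 0, 0⟩, ⟨(-9), 1, 0⟩, ⟨0, 0, 1⟩⟩, ⟨⟨1, 0, 0⟩, ⟨9, 1024, 0⟩, ⟨0, 0, 1024⟩⟩, 1024, ⟨95, 4096, 1⟩⟩))
    (.leaf (.skip 6)))
    (.leaf (.skip 6)))))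
    (.leaf (.psd ⟨⟨⟨1, (-3094), 0⟩, ⟨0, 1024, 0⟩, ⟨0, 0, 1⟩⟩, ⟨⟨1024, 3094, 0⟩, ⟨0, 1, 0⟩, ⟨0, 0, 1024⟩⟩, 1024, ⟨1048576, 42, 1⟩⟩))))
    (.node 1
    (.node 3
    (.node 0
    (.node 1
    (.leaf (.psd ⟨⟨⟨1024, 0, 0⟩, ⟨(-65), 1, 0⟩, ⟨0, 0, 1⟩⟩, ⟨⟨1, 0, 0⟩, ⟨65, 1024, 0⟩, ⟨0, 0, 1024⟩⟩, 1024, ⟨39, 4096, 1⟩⟩))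
    (.leaf (.psd ⟨⟨⟨1024, 0, 0⟩, ⟨(-27), 1, 0⟩, ⟨0, 0, 1⟩⟩, ⟨⟨1, 0, 0⟩, ⟨27, 1024, 0⟩, ⟨0, 0, 1024⟩⟩, 1024, ⟨67, 4096, 1⟩⟩)))
    (.node 1
    (.leaf (.psd ⟨⟨⟨1024, 0, 0⟩, ⟨(-26), 1, 0⟩, ⟨0, 0, 1⟩⟩, ⟨⟨1, 0, 0⟩, ⟨26, 1024, 0⟩, ⟨0, 0, 1024⟩⟩, 1024, ⟨68, 4096, 1⟩⟩))
    (.node 3
    (.leaf (.skip 8))
    (.node 0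
    (.leaf (.psd ⟨⟨⟨1024, 0, 0⟩, ⟨3, 1, 0⟩, ⟨0, 0, 1⟩⟩, ⟨⟨1, 0, 0⟩, ⟨(-3), 1024, 0⟩, ⟨0, 0, 1024⟩⟩, 1024, ⟨113, 4096, 1⟩⟩))
    (.leaf (.skip 6))))))
    (.leaf (.psd ⟨⟨⟨1, (-2946), 0⟩, ⟨0, 1024, 0⟩, ⟨0, 0, 1⟩⟩, ⟨⟨1024, 2946, 0⟩, ⟨0, 1, 0⟩, ⟨0, 0, 1024⟩⟩, 1024, ⟨1073741824, 45801, 24⟩⟩)))
    (.node 3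
    (.node 0
    (.node 1
    (.node 0
    (.node 1
    (.leaf (.psd ⟨⟨⟨1024, 0, 0⟩, ⟨(-8), 1, 0⟩, ⟨0, 0, 1⟩⟩, ⟨⟨1, 0, 0⟩, ⟨8, 1024, 0⟩, ⟨0, 0, 1024⟩⟩, 1024, ⟨100, 4096, 1⟩⟩))
    (.leaf (.skip 6)))
    (.leaf (.skip 6)))
    (.leaf (.skip 6)))
    (.leaf (.skip 6)))
    (.node 0
    (.node 1
    (.leaf (.psd ⟨⟨⟨1024, 0, 0⟩, ⟨8, 1, 0⟩, ⟨0, 0, 1⟩⟩, ⟨⟨1, 0, 0⟩, ⟨(-8), 1024, 0⟩, ⟨0, 0, 1024⟩⟩, 1024, ⟨103, 4096, 1⟩⟩))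
    (.leaf (.skip 6)))
    (.leaf (.skip 6))))))
    (.node 0
    (.node 1
    (.node 3
    (.node 0
    (.node 1
    (.node 0
    (.node 1
    (.leaf (.psd ⟨⟨⟨1024, 0, 0⟩, ⟨(-10), 1, 0⟩, ⟨0, 0, 1⟩⟩, ⟨⟨1, 0, 0⟩, ⟨10, 1024, 0⟩, ⟨0, 0, 1024⟩⟩, 1024, ⟨89, 4096, 1⟩⟩))
    (.leaf (.skip 6)))
    (.leaf (.skip 6)))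
    (.leaf (.skip 6)))
    (.leaf (.skip 6)))
    (.node 0
    (.node 1
    (.leaf (.psd ⟨⟨⟨1024, 0, 0⟩, ⟨7, 1, 0⟩, ⟨0, 0, 1⟩⟩, ⟨⟨1, 0, 0⟩, ⟨(-7), 1024, 0⟩, ⟨0, 0, 1024⟩⟩, 1024, ⟨102, 4096, 1⟩⟩))
    (.leaf (.skip 6)))
    (.leaf (.skip 6))))
    (.leaf (.skip 6)))
    (.leaf (.skip 6)))))
    (.node 3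
    (.node 0
    (.node 1
    (.node 0
    (.node 1
    (.node 0
    (.node 1
    (.node 0
    (.leaf (.psd ⟨⟨⟨1024, 0, 0⟩, ⟨(-9), 1, 0⟩, ⟨0, 0, 1⟩⟩, ⟨⟨1, 0, 0⟩, ⟨9, 1024, 0⟩, ⟨0, 0, 1024⟩⟩, 1024, ⟨100, 4096, 1⟩⟩))
    (.leaf (.skip 8)))
    (.leaf (.skip 6)))
    (.leaf (.skip 6)))
    (.leaf (.skip 6)))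
    (.leaf (.skip 6)))
    (.leaf (.skip 6)))
    (.leaf (.skip 6)))
    (.node 0
    (.node 1
    (.node 0
    (.node 1
    (.node 0
    (.node 1
    (.leaf (.psd ⟨⟨⟨1024, 0, 0⟩, ⟨1, 1, 0⟩, ⟨0, 0, 1⟩⟩, ⟨⟨1, 0, 0⟩, ⟨(-1), 1024, 0⟩, ⟨0, 0, 1024⟩⟩, 1024, ⟨94, 4096, 1⟩⟩))
    (.leaf (.skip 6)))
    (.leaf (.skip 6)))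
    (.leaf (.skip 6)))
    (.leaf (.skip 6)))
    (.leaf (.skip 6)))
    (.leaf (.skip 6)))))

theorem chunk15 : Check.Good ⟨false, false, false⟩ cfg (reach cfg base [(1, true), (0, true), (1, true), (3, true), (0, false), (0, true), (1, true), (3, false), (3, false), (0, true), (1, true), (0, true)]) :=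
  Check.check_sound tree15 (by decide +kernel)

/-- A subtree. -/
def tree16 : Check.Tree Check.Leaf :=
  .node 3
    (.node 1
    (.leaf (.psd ⟨⟨⟨1024, 0, 0⟩, ⟨(-7715), 1, 0⟩, ⟨0, 0, 1⟩⟩, ⟨⟨1, 0, 0⟩, ⟨7715, 1024, 0⟩, ⟨0, 0, 1024⟩⟩, 1024, ⟨144, 1048576, 1⟩⟩))
    (.node 3
    (.node 1
    (.leaf (.psd ⟨⟨⟨1024, 0, 0⟩, ⟨(-7315), 1, 0⟩, ⟨0, 0, 1⟩⟩, ⟨⟨1, 0, 0⟩, ⟨7315, 1024, 0⟩, ⟨0, 0, 1024⟩⟩, 1024, ⟨152, 1048576, 1⟩⟩))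
    (.node 0
    (.leaf (.psd ⟨⟨⟨1024, 0, 0⟩, ⟨(-7061), 1, 0⟩, ⟨0, 0, 1⟩⟩, ⟨⟨1, 0, 0⟩, ⟨7061, 1024, 0⟩, ⟨0, 0, 1024⟩⟩, 1024, ⟨170, 1048576, 1⟩⟩))
    (.node 3
    (.node 1
    (.leaf (.psd ⟨⟨⟨1024, 0, 0⟩, ⟨(-4196), 1, 0⟩, ⟨0, 0, 1⟩⟩, ⟨⟨1, 0, 0⟩, ⟨4196, 1024, 0⟩, ⟨0, 0, 1024⟩⟩, 1024, ⟨1, 4096, 1⟩⟩))
    (.node 0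
    (.leaf (.psd ⟨⟨⟨1024, 0, 0⟩, ⟨(-4078), 1, 0⟩, ⟨0, 0, 1⟩⟩, ⟨⟨1, 0, 0⟩, ⟨4078, 1024, 0⟩, ⟨0, 0, 1024⟩⟩, 1024, ⟨1, 4096, 1⟩⟩))
    (.node 3
    (.node 1
    (.leaf (.psd ⟨⟨⟨1024, 0, 0⟩, ⟨(-1802), 1, 0⟩, ⟨0, 0, 1⟩⟩, ⟨⟨1, 0, 0⟩, ⟨1802, 1024, 0⟩, ⟨0, 0, 1024⟩⟩, 1024, ⟨1, 4096, 1⟩⟩))
    (.node 0
    (.leaf (.psd ⟨⟨⟨1024, 0, 0⟩, ⟨(-1632), 1, 0⟩, ⟨0, 0, 1⟩⟩, ⟨⟨1, 0, 0⟩, ⟨1632, 1024, 0⟩, ⟨0, 0, 1024⟩⟩, 1024, ⟨1, 4096, 1⟩⟩))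
    (.leaf (.skip 8))))
    (.node 1
    (.leaf (.psd ⟨⟨⟨1024, 0, 0⟩, ⟨(-2510), 1, 0⟩, ⟨0, 0, 1⟩⟩, ⟨⟨1, 0, 0⟩, ⟨2510, 1024, 0⟩, ⟨0, 0, 1024⟩⟩, 1024, ⟨1, 4096, 1⟩⟩))
    (.node 0
    (.leaf (.psd ⟨⟨⟨1024, 0, 0⟩, ⟨(-2289), 1, 0⟩, ⟨0, 0, 1⟩⟩, ⟨⟨1, 0, 0⟩, ⟨2289, 1024, 0⟩, ⟨0, 0, 1024⟩⟩, 1024, ⟨1, 4096, 1⟩⟩))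
    (.leaf (.skip 8)))))))
    (.node 1
    (.leaf (.psd ⟨⟨⟨1024, 0, 0⟩, ⟨(-4048), 1, 0⟩, ⟨0, 0, 1⟩⟩, ⟨⟨1, 0, 0⟩, ⟨4048, 1024, 0⟩, ⟨0, 0, 1024⟩⟩, 1024, ⟨326, 1048576, 1⟩⟩))
    (.node 0
    (.leaf (.psd ⟨⟨⟨1024, 0, 0⟩, ⟨(-3600), 1, 0⟩, ⟨0, 0, 1⟩⟩, ⟨⟨1, 0, 0⟩, ⟨3600, 1024, 0⟩, ⟨0, 0, 1024⟩⟩, 1024, ⟨380, 1048576, 1⟩⟩))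
    (.node 1
    (.leaf (.psd ⟨⟨⟨1024, 0, 0⟩, ⟨(-2328), 1, 0⟩, ⟨0, 0, 1⟩⟩, ⟨⟨1, 0, 0⟩, ⟨2328, 1024, 0⟩, ⟨0, 0, 1024⟩⟩, 1024, ⟨2, 4096, 1⟩⟩))
    (.node 0
    (.leaf (.psd ⟨⟨⟨1024, 0, 0⟩, ⟨(-2008), 1, 0⟩, ⟨0, 0, 1⟩⟩, ⟨⟨1, 0, 0⟩, ⟨2008, 1024, 0⟩, ⟨0, 0, 1024⟩⟩, 1024, ⟨2, 4096, 1⟩⟩))
    (.leaf (.skip 8)))))))))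
    (.node 1
    (.node 0
    (.leaf (.psd ⟨⟨⟨1024, 0, 0⟩, ⟨(-6083), 1, 0⟩, ⟨0, 0, 1⟩⟩, ⟨⟨1, 0, 0⟩, ⟨6083, 1024, 0⟩, ⟨0, 0, 1024⟩⟩, 1024, ⟨185, 1048576, 1⟩⟩))
    (.leaf (.psd ⟨⟨⟨1024, 0, 0⟩, ⟨(-4016), 1, 0⟩, ⟨0, 0, 1⟩⟩, ⟨⟨1, 0, 0⟩, ⟨4016, 1024, 0⟩, ⟨0, 0, 1024⟩⟩, 1024, ⟨305, 1048576, 1⟩⟩)))
    (.node 0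
    (.node 3
    (.leaf (.psd ⟨⟨⟨1024, 0, 0⟩, ⟨(-5106), 1, 0⟩, ⟨0, 0, 1⟩⟩, ⟨⟨1, 0, 0⟩, ⟨5106, 1024, 0⟩, ⟨0, 0, 1024⟩⟩, 1024, ⟨1, 4096, 1⟩⟩))
    (.leaf (.psd ⟨⟨⟨1024, 0, 0⟩, ⟨(-3909), 1, 0⟩, ⟨0, 0, 1⟩⟩, ⟨⟨1, 0, 0⟩, ⟨3909, 1024, 0⟩, ⟨0, 0, 1024⟩⟩, 1024, ⟨353, 1048576, 1⟩⟩)))
    (.node 3
    (.node 1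
    (.leaf (.psd ⟨⟨⟨1024, 0, 0⟩, ⟨(-3190), 1, 0⟩, ⟨0, 0, 1⟩⟩, ⟨⟨1, 0, 0⟩, ⟨3190, 1024, 0⟩, ⟨0, 0, 1024⟩⟩, 1024, ⟨417, 1048576, 1⟩⟩))
    (.node 0
    (.leaf (.psd ⟨⟨⟨1024, 0, 0⟩, ⟨(-2684), 1, 0⟩, ⟨0, 0, 1⟩⟩, ⟨⟨1, 0, 0⟩, ⟨2684, 1024, 0⟩, ⟨0, 0, 1024⟩⟩, 1024, ⟨2, 4096, 1⟩⟩))
    (.node 1
    (.leaf (.psd ⟨⟨⟨1024, 0, 0⟩, ⟨(-1776), 1, 0⟩, ⟨0, 0, 1⟩⟩, ⟨⟨1, 0, 0⟩, ⟨1776, 1024, 0⟩, ⟨0, 0, 1024⟩⟩, 1024, ⟨755, 1048576, 1⟩⟩))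
    (.node 0
    (.leaf (.psd ⟨⟨⟨1024, 0, 0⟩, ⟨(-1484), 1, 0⟩, ⟨0, 0, 1⟩⟩, ⟨⟨1, 0, 0⟩, ⟨1484, 1024, 0⟩, ⟨0, 0, 1024⟩⟩, 1024, ⟨922, 1048576, 1⟩⟩))
    (.node 1
    (.leaf (.psd ⟨⟨⟨1024, 0, 0⟩, ⟨(-1026), 1, 0⟩, ⟨0, 0, 1⟩⟩, ⟨⟨1, 0, 0⟩, ⟨1026, 1024, 0⟩, ⟨0, 0, 1024⟩⟩, 1024, ⟨5, 4096, 1⟩⟩))
    (.leaf (.skip 8)))))))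
    (.node 1
    (.leaf (.psd ⟨⟨⟨1024, 0, 0⟩, ⟨(-2495), 1, 0⟩, ⟨0, 0, 1⟩⟩, ⟨⟨1, 0, 0⟩, ⟨2495, 1024, 0⟩, ⟨0, 0, 1024⟩⟩, 1024, ⟨548, 1048576, 1⟩⟩))
    (.node 0
    (.leaf (.psd ⟨⟨⟨1024, 0, 0⟩, ⟨(-2049), 1, 0⟩, ⟨0, 0, 1⟩⟩, ⟨⟨1, 0, 0⟩, ⟨2049, 1024, 0⟩, ⟨0, 0, 1024⟩⟩, 1024, ⟨697, 1048576, 1⟩⟩))
    (.node 1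
    (.leaf (.psd ⟨⟨⟨1024, 0, 0⟩, ⟨(-1367), 1, 0⟩, ⟨0, 0, 1⟩⟩, ⟨⟨1, 0, 0⟩, ⟨1367, 1024, 0⟩, ⟨0, 0, 1024⟩⟩, 1024, ⟨1017, 1048576, 1⟩⟩))
    (.node 0
    (.leaf (.psd ⟨⟨⟨1024, 0, 0⟩, ⟨(-1128), 1, 0⟩, ⟨0, 0, 1⟩⟩, ⟨⟨1, 0, 0⟩, ⟨1128, 1024, 0⟩, ⟨0, 0, 1024⟩⟩, 1024, ⟨1272, 1048576, 1⟩⟩))
    (.node 1
    (.leaf (.psd ⟨⟨⟨1024, 0, 0⟩, ⟨(-785), 1, 0⟩, ⟨0, 0, 1⟩⟩, ⟨⟨1, 0, 0⟩, ⟨785, 1024, 0⟩, ⟨0, 0, 1024⟩⟩, 1024, ⟨1769, 1048576, 1⟩⟩))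
    (.leaf (.skip 8))))))))))))
    (.node 1
    (.node 3
    (.leaf (.psd ⟨⟨⟨1024, 0, 0⟩, ⟨(-5352), 1, 0⟩, ⟨0, 0, 1⟩⟩, ⟨⟨1, 0, 0⟩, ⟨5352, 1024, 0⟩, ⟨0, 0, 1024⟩⟩, 1024, ⟨1, 4096, 1⟩⟩))
    (.leaf (.psd ⟨⟨⟨1024, 0, 0⟩, ⟨(-3997), 1, 0⟩, ⟨0, 0, 1⟩⟩, ⟨⟨1, 0, 0⟩, ⟨3997, 1024, 0⟩, ⟨0, 0, 1024⟩⟩, 1024, ⟨330, 1048576, 1⟩⟩)))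
    (.node 0
    (.node 3
    (.node 1
    (.leaf (.psd ⟨⟨⟨1024, 0, 0⟩, ⟨(-4083), 1, 0⟩, ⟨0, 0, 1⟩⟩, ⟨⟨1, 0, 0⟩, ⟨4083, 1024, 0⟩, ⟨0, 0, 1024⟩⟩, 1024, ⟨1, 4096, 1⟩⟩))
    (.node 3
    (.leaf (.psd ⟨⟨⟨1024, 0, 0⟩, ⟨(-3114), 1, 0⟩, ⟨0, 0, 1⟩⟩, ⟨⟨1, 0, 0⟩, ⟨3114, 1024, 0⟩, ⟨0, 0, 1024⟩⟩, 1024, ⟨456, 1048576, 1⟩⟩))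
    (.leaf (.psd ⟨⟨⟨1024, 0, 0⟩, ⟨(-2567), 1, 0⟩, ⟨0, 0, 1⟩⟩, ⟨⟨1, 0, 0⟩, ⟨2567, 1024, 0⟩, ⟨0, 0, 1024⟩⟩, 1024, ⟨2, 4096, 1⟩⟩))))
    (.node 1
    (.leaf (.psd ⟨⟨⟨1024, 0, 0⟩, ⟨(-2971), 1, 0⟩, ⟨0, 0, 1⟩⟩, ⟨⟨1, 0, 0⟩, ⟨2971, 1024, 0⟩, ⟨0, 0, 1024⟩⟩, 1024, ⟨438, 1048576, 1⟩⟩))
    (.leaf (.psd ⟨⟨⟨1024, 0, 0⟩, ⟨(-1995), 1, 0⟩, ⟨0, 0, 1⟩⟩, ⟨⟨1, 0, 0⟩, ⟨1995, 1024, 0⟩, ⟨0, 0, 1024⟩⟩, 1024, ⟨675, 1048576, 1⟩⟩))))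
    (.node 1
    (.node 3
    (.leaf (.psd ⟨⟨⟨1024, 0, 0⟩, ⟨(-2760), 1, 0⟩, ⟨0, 0, 1⟩⟩, ⟨⟨1, 0, 0⟩, ⟨2760, 1024, 0⟩, ⟨0, 0, 1024⟩⟩, 1024, ⟨466, 1048576, 1⟩⟩))
    (.leaf (.psd ⟨⟨⟨1024, 0, 0⟩, ⟨(-2029), 1, 0⟩, ⟨0, 0, 1⟩⟩, ⟨⟨1, 0, 0⟩, ⟨2029, 1024, 0⟩, ⟨0, 0, 1024⟩⟩, 1024, ⟨670, 1048576, 1⟩⟩)))
    (.node 3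
    (.node 1
    (.node 0
    (.leaf (.psd ⟨⟨⟨1024, 0, 0⟩, ⟨(-2105), 1, 0⟩, ⟨0, 0, 1⟩⟩, ⟨⟨1, 0, 0⟩, ⟨2105, 1024, 0⟩, ⟨0, 0, 1024⟩⟩, 1024, ⟨2, 4096, 1⟩⟩))
    (.leaf (.psd ⟨⟨⟨1024, 0, 0⟩, ⟨(-1468), 1, 0⟩, ⟨0, 0, 1⟩⟩, ⟨⟨1, 0, 0⟩, ⟨1468, 1024, 0⟩, ⟨0, 0, 1024⟩⟩, 1024, ⟨896, 1048576, 1⟩⟩)))
    (.node 0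
    (.node 3
    (.leaf (.psd ⟨⟨⟨1024, 0, 0⟩, ⟨(-1632), 1, 0⟩, ⟨0, 0, 1⟩⟩, ⟨⟨1, 0, 0⟩, ⟨1632, 1024, 0⟩, ⟨0, 0, 1024⟩⟩, 1024, ⟨902, 1048576, 1⟩⟩))
    (.leaf (.psd ⟨⟨⟨1024, 0, 0⟩, ⟨(-1347), 1, 0⟩, ⟨0, 0, 1⟩⟩, ⟨⟨1, 0, 0⟩, ⟨1347, 1024, 0⟩, ⟨0, 0, 1024⟩⟩, 1024, ⟨4, 4096, 1⟩⟩)))
    (.node 1
    (.node 0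
    (.leaf (.psd ⟨⟨⟨1024, 0, 0⟩, ⟨(-1131), 1, 0⟩, ⟨0, 0, 1⟩⟩, ⟨⟨1, 0, 0⟩, ⟨1131, 1024, 0⟩, ⟨0, 0, 1024⟩⟩, 1024, ⟨4, 4096, 1⟩⟩))
    (.leaf (.psd ⟨⟨⟨1024, 0, 0⟩, ⟨(-811), 1, 0⟩, ⟨0, 0, 1⟩⟩, ⟨⟨1, 0, 0⟩, ⟨811, 1024, 0⟩, ⟨0, 0, 1024⟩⟩, 1024, ⟨1622, 1048576, 1⟩⟩)))
    (.node 0
    (.leaf (.psd ⟨⟨⟨1024, 0, 0⟩, ⟨(-798), 1, 0⟩, ⟨0, 0, 1⟩⟩, ⟨⟨1, 0, 0⟩, ⟨798, 1024, 0⟩, ⟨0, 0, 1024⟩⟩, 1024, ⟨1640, 1048576, 1⟩⟩))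
    (.node 1
    (.leaf (.psd ⟨⟨⟨1024, 0, 0⟩, ⟨(-558), 1, 0⟩, ⟨0, 0, 1⟩⟩, ⟨⟨1, 0, 0⟩, ⟨558, 1024, 0⟩, ⟨0, 0, 1024⟩⟩, 1024, ⟨2271, 1048576, 1⟩⟩))
    (.leaf (.skip 8)))))))
    (.node 1
    (.node 0
    (.leaf (.psd ⟨⟨⟨1024, 0, 0⟩, ⟨(-1531), 1, 0⟩, ⟨0, 0, 1⟩⟩, ⟨⟨1, 0, 0⟩, ⟨1531, 1024, 0⟩, ⟨0, 0, 1024⟩⟩, 1024, ⟨3, 4096, 1⟩⟩))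
    (.leaf (.psd ⟨⟨⟨1024, 0, 0⟩, ⟨(-1071), 1, 0⟩, ⟨0, 0, 1⟩⟩, ⟨⟨1, 0, 0⟩, ⟨1071, 1024, 0⟩, ⟨0, 0, 1024⟩⟩, 1024, ⟨5, 4096, 1⟩⟩)))
    (.node 0
    (.leaf (.psd ⟨⟨⟨1024, 0, 0⟩, ⟨(-1050), 1, 0⟩, ⟨0, 0, 1⟩⟩, ⟨⟨1, 0, 0⟩, ⟨1050, 1024, 0⟩, ⟨0, 0, 1024⟩⟩, 1024, ⟨5, 4096, 1⟩⟩))
    (.node 1
    (.leaf (.psd ⟨⟨⟨1024, 0, 0⟩, ⟨(-707), 1, 0⟩, ⟨0, 0, 1⟩⟩, ⟨⟨1, 0, 0⟩, ⟨707, 1024, 0⟩, ⟨0, 0, 1024⟩⟩, 1024, ⟨1907, 1048576, 1⟩⟩))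
    (.node 0
    (.leaf (.psd ⟨⟨⟨1024, 0, 0⟩, ⟨(-579), 1, 0⟩, ⟨0, 0, 1⟩⟩, ⟨⟨1, 0, 0⟩, ⟨579, 1024, 0⟩, ⟨0, 0, 1024⟩⟩, 1024, ⟨9, 4096, 1⟩⟩))
    (.node 1
    (.leaf (.psd ⟨⟨⟨1024, 0, 0⟩, ⟨(-407), 1, 0⟩, ⟨0, 0, 1⟩⟩, ⟨⟨1, 0, 0⟩, ⟨407, 1024, 0⟩, ⟨0, 0, 1024⟩⟩, 1024, ⟨12, 4096, 1⟩⟩))
    (.leaf (.skip 8)))))))))))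

theorem chunk16 : Check.Good ⟨false, false, false⟩ cfg (reach cfg base [(0, false), (3, false), (3, false), (1, false), (0, true), (0, true), (1, true), (3, false), (3, false), (0, true), (1, true), (0, true)]) :=
  Check.check_sound tree16 (by decide +kernel)

/-- A subtree. -/
def tree17 : Check.Tree Check.Leaf :=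
  .node 3
    (.node 3
    (.node 1
    (.leaf (.psd ⟨⟨⟨1024, 0, 0⟩, ⟨(-4018), 1, 0⟩, ⟨0, 0, 1⟩⟩, ⟨⟨1, 0, 0⟩, ⟨4018, 1024, 0⟩, ⟨0, 0, 1024⟩⟩, 1024, ⟨1, 4096, 1⟩⟩))
    (.node 0
    (.leaf (.psd ⟨⟨⟨1024, 0, 0⟩, ⟨(-4015), 1, 0⟩, ⟨0, 0, 1⟩⟩, ⟨⟨1, 0, 0⟩, ⟨4015, 1024, 0⟩, ⟨0, 0, 1024⟩⟩, 1024, ⟨1, 4096, 1⟩⟩))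
    (.node 3
    (.node 1
    (.leaf (.psd ⟨⟨⟨1024, 0, 0⟩, ⟨(-1494), 1, 0⟩, ⟨0, 0, 1⟩⟩, ⟨⟨1, 0, 0⟩, ⟨1494, 1024, 0⟩, ⟨0, 0, 1024⟩⟩, 1024, ⟨1, 4096, 1⟩⟩))
    (.node 0
    (.leaf (.psd ⟨⟨⟨1024, 0, 0⟩, ⟨(-1371), 1, 0⟩, ⟨0, 0, 1⟩⟩, ⟨⟨1, 0, 0⟩, ⟨1371, 1024, 0⟩, ⟨0, 0, 1024⟩⟩, 1024, ⟨1, 4096, 1⟩⟩))
    (.node 1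
    (.leaf (.psd ⟨⟨⟨1024, 0, 0⟩, ⟨(-554), 1, 0⟩, ⟨0, 0, 1⟩⟩, ⟨⟨1, 0, 0⟩, ⟨554, 1024, 0⟩, ⟨0, 0, 1024⟩⟩, 1024, ⟨1, 4096, 1⟩⟩))
    (.node 0
    (.leaf (.psd ⟨⟨⟨1024, 0, 0⟩, ⟨(-450), 1, 0⟩, ⟨0, 0, 1⟩⟩, ⟨⟨1, 0, 0⟩, ⟨450, 1024, 0⟩, ⟨0, 0, 1024⟩⟩, 1024, ⟨1, 4096, 1⟩⟩))
    (.leaf (.skip 6))))))
    (.node 1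
    (.leaf (.psd ⟨⟨⟨1024, 0, 0⟩, ⟨(-2215), 1, 0⟩, ⟨0, 0, 1⟩⟩, ⟨⟨1, 0, 0⟩, ⟨2215, 1024, 0⟩, ⟨0, 0, 1024⟩⟩, 1024, ⟨1, 4096, 1⟩⟩))
    (.leaf (.psd ⟨⟨⟨1024, 0, 0⟩, ⟨(-1599), 1, 0⟩, ⟨0, 0, 1⟩⟩, ⟨⟨1, 0, 0⟩, ⟨1599, 1024, 0⟩, ⟨0, 0, 1024⟩⟩, 1024, ⟨579, 1048576, 1⟩⟩))))))
    (.node 1
    (.leaf (.psd ⟨⟨⟨1024, 0, 0⟩, ⟨(-4054), 1, 0⟩, ⟨0, 0, 1⟩⟩, ⟨⟨1, 0, 0⟩, ⟨4054, 1024, 0⟩, ⟨0, 0, 1024⟩⟩, 1024, ⟨1, 4096, 1⟩⟩))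
    (.node 0
    (.leaf (.psd ⟨⟨⟨1024, 0, 0⟩, ⟨(-3641), 1, 0⟩, ⟨0, 0, 1⟩⟩, ⟨⟨1, 0, 0⟩, ⟨3641, 1024, 0⟩, ⟨0, 0, 1024⟩⟩, 1024, ⟨349, 1048576, 1⟩⟩))
    (.node 1
    (.leaf (.psd ⟨⟨⟨1024, 0, 0⟩, ⟨(-2265), 1, 0⟩, ⟨0, 0, 1⟩⟩, ⟨⟨1, 0, 0⟩, ⟨2265, 1024, 0⟩, ⟨0, 0, 1024⟩⟩, 1024, ⟨2, 4096, 1⟩⟩))
    (.node 0
    (.leaf (.psd ⟨⟨⟨1024, 0, 0⟩, ⟨(-1981), 1, 0⟩, ⟨0, 0, 1⟩⟩, ⟨⟨1, 0, 0⟩, ⟨1981, 1024, 0⟩, ⟨0, 0, 1024⟩⟩, 1024, ⟨2, 4096, 1⟩⟩))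
    (.leaf (.psd ⟨⟨⟨1024, 0, 0⟩, ⟨(-1166), 1, 0⟩, ⟨0, 0, 1⟩⟩, ⟨⟨1, 0, 0⟩, ⟨1166, 1024, 0⟩, ⟨0, 0, 1024⟩⟩, 1024, ⟨4, 4096, 1⟩⟩)))))))
    (.node 1
    (.node 3
    (.leaf (.psd ⟨⟨⟨1024, 0, 0⟩, ⟨(-3270), 1, 0⟩, ⟨0, 0, 1⟩⟩, ⟨⟨1, 0, 0⟩, ⟨3270, 1024, 0⟩, ⟨0, 0, 1024⟩⟩, 1024, ⟨378, 1048576, 1⟩⟩))
    (.leaf (.psd ⟨⟨⟨1024, 0, 0⟩, ⟨(-2564), 1, 0⟩, ⟨0, 0, 1⟩⟩, ⟨⟨1, 0, 0⟩, ⟨2564, 1024, 0⟩, ⟨0, 0, 1024⟩⟩, 1024, ⟨507, 1048576, 1⟩⟩)))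
    (.node 0
    (.node 3
    (.leaf (.psd ⟨⟨⟨1024, 0, 0⟩, ⟨(-2725), 1, 0⟩, ⟨0, 0, 1⟩⟩, ⟨⟨1, 0, 0⟩, ⟨2725, 1024, 0⟩, ⟨0, 0, 1024⟩⟩, 1024, ⟨479, 1048576, 1⟩⟩))
    (.leaf (.psd ⟨⟨⟨1024, 0, 0⟩, ⟨(-2068), 1, 0⟩, ⟨0, 0, 1⟩⟩, ⟨⟨1, 0, 0⟩, ⟨2068, 1024, 0⟩, ⟨0, 0, 1024⟩⟩, 1024, ⟨661, 1048576, 1⟩⟩)))
    (.node 3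
    (.node 1
    (.leaf (.psd ⟨⟨⟨1024, 0, 0⟩, ⟨(-1808), 1, 0⟩, ⟨0, 0, 1⟩⟩, ⟨⟨1, 0, 0⟩, ⟨1808, 1024, 0⟩, ⟨0, 0, 1024⟩⟩, 1024, ⟨716, 1048576, 1⟩⟩))
    (.node 0
    (.leaf (.psd ⟨⟨⟨1024, 0, 0⟩, ⟨(-1512), 1, 0⟩, ⟨0, 0, 1⟩⟩, ⟨⟨1, 0, 0⟩, ⟨1512, 1024, 0⟩, ⟨0, 0, 1024⟩⟩, 1024, ⟨3, 4096, 1⟩⟩))
    (.node 1
    (.leaf (.psd ⟨⟨⟨1024, 0, 0⟩, ⟨(-1074), 1, 0⟩, ⟨0, 0, 1⟩⟩, ⟨⟨1, 0, 0⟩, ⟨1074, 1024, 0⟩, ⟨0, 0, 1024⟩⟩, 1024, ⟨4, 4096, 1⟩⟩))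
    (.leaf (.psd ⟨⟨⟨1024, 0, 0⟩, ⟨(-769), 1, 0⟩, ⟨0, 0, 1⟩⟩, ⟨⟨1, 0, 0⟩, ⟨769, 1024, 0⟩, ⟨0, 0, 1024⟩⟩, 1024, ⟨1573, 1048576, 1⟩⟩)))))
    (.node 1
    (.leaf (.psd ⟨⟨⟨1024, 0, 0⟩, ⟨(-1408), 1, 0⟩, ⟨0, 0, 1⟩⟩, ⟨⟨1, 0, 0⟩, ⟨1408, 1024, 0⟩, ⟨0, 0, 1024⟩⟩, 1024, ⟨967, 1048576, 1⟩⟩))
    (.node 0
    (.leaf (.psd ⟨⟨⟨1024, 0, 0⟩, ⟨(-1157), 1, 0⟩, ⟨0, 0, 1⟩⟩, ⟨⟨1, 0, 0⟩, ⟨1157, 1024, 0⟩, ⟨0, 0, 1024⟩⟩, 1024, ⟨4, 4096, 1⟩⟩))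
    (.node 1
    (.leaf (.psd ⟨⟨⟨1024, 0, 0⟩, ⟨(-836), 1, 0⟩, ⟨0, 0, 1⟩⟩, ⟨⟨1, 0, 0⟩, ⟨836, 1024, 0⟩, ⟨0, 0, 1024⟩⟩, 1024, ⟨6, 4096, 1⟩⟩))
    (.leaf (.psd ⟨⟨⟨1024, 0, 0⟩, ⟨(-598), 1, 0⟩, ⟨0, 0, 1⟩⟩, ⟨⟨1, 0, 0⟩, ⟨598, 1024, 0⟩, ⟨0, 0, 1024⟩⟩, 1024, ⟨2123, 1048576, 1⟩⟩))))))))

theorem chunk17 : Check.Good ⟨false, false, false⟩ cfg (reach cfg base [(1, false), (0, true), (3, false), (3, false), (1, false), (0, true), (0, true), (1, true), (3, false), (3, false), (0, true), (1, true), (0, true)]) :=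
  Check.check_sound tree17 (by decide +kernel)

/-- A subtree. -/
def tree18 : Check.Tree Check.Leaf :=
  .node 1
    (.node 0
    (.node 3
    (.node 3
    (.node 3
    (.node 1
    (.leaf (.psd ⟨⟨⟨1024, 0, 0⟩, ⟨(-2549), 1, 0⟩, ⟨0, 0, 1⟩⟩, ⟨⟨1, 0, 0⟩, ⟨2549, 1024, 0⟩, ⟨0, 0, 1024⟩⟩, 1024, ⟨1, 4096, 1⟩⟩))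
    (.node 0
    (.leaf (.psd ⟨⟨⟨1024, 0, 0⟩, ⟨(-2440), 1, 0⟩, ⟨0, 0, 1⟩⟩, ⟨⟨1, 0, 0⟩, ⟨2440, 1024, 0⟩, ⟨0, 0, 1024⟩⟩, 1024, ⟨1, 4096, 1⟩⟩))
    (.node 1
    (.leaf (.psd ⟨⟨⟨1024, 0, 0⟩, ⟨(-1262), 1, 0⟩, ⟨0, 0, 1⟩⟩, ⟨⟨1, 0, 0⟩, ⟨1262, 1024, 0⟩, ⟨0, 0, 1024⟩⟩, 1024, ⟨1, 4096, 1⟩⟩))
    (.node 0
    (.leaf (.psd ⟨⟨⟨1024, 0, 0⟩, ⟨(-1127), 1, 0⟩, ⟨0, 0, 1⟩⟩, ⟨⟨1, 0, 0⟩, ⟨1127, 1024, 0⟩, ⟨0, 0, 1024⟩⟩, 1024, ⟨1, 4096, 1⟩⟩))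
    (.node 3
    (.node 1
    (.node 0
    (.leaf (.psd ⟨⟨⟨1024, 0, 0⟩, ⟨(-246), 1, 0⟩, ⟨0, 0, 1⟩⟩, ⟨⟨1, 0, 0⟩, ⟨246, 1024, 0⟩, ⟨0, 0, 1024⟩⟩, 1024, ⟨1, 4096, 1⟩⟩))
    (.leaf (.skip 8)))
    (.leaf (.skip 8)))
    (.node 1
    (.leaf (.psd ⟨⟨⟨1024, 0, 0⟩, ⟨(-709), 1, 0⟩, ⟨0, 0, 1⟩⟩, ⟨⟨1, 0, 0⟩, ⟨709, 1024, 0⟩, ⟨0, 0, 1024⟩⟩, 1024, ⟨2, 4096, 1⟩⟩))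
    (.leaf (.skip 8))))))))
    (.node 1
    (.leaf (.psd ⟨⟨⟨1024, 0, 0⟩, ⟨(-3108), 1, 0⟩, ⟨0, 0, 1⟩⟩, ⟨⟨1, 0, 0⟩, ⟨3108, 1024, 0⟩, ⟨0, 0, 1024⟩⟩, 1024, ⟨1, 4096, 1⟩⟩))
    (.node 0
    (.leaf (.psd ⟨⟨⟨1024, 0, 0⟩, ⟨(-2858), 1, 0⟩, ⟨0, 0, 1⟩⟩, ⟨⟨1, 0, 0⟩, ⟨2858, 1024, 0⟩, ⟨0, 0, 1024⟩⟩, 1024, ⟨1, 4096, 1⟩⟩))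
    (.node 1
    (.leaf (.psd ⟨⟨⟨1024, 0, 0⟩, ⟨(-1806), 1, 0⟩, ⟨0, 0, 1⟩⟩, ⟨⟨1, 0, 0⟩, ⟨1806, 1024, 0⟩, ⟨0, 0, 1024⟩⟩, 1024, ⟨2, 4096, 1⟩⟩))
    (.leaf (.psd ⟨⟨⟨1024, 0, 0⟩, ⟨(-1286), 1, 0⟩, ⟨0, 0, 1⟩⟩, ⟨⟨1, 0, 0⟩, ⟨1286, 1024, 0⟩, ⟨0, 0, 1024⟩⟩, 1024, ⟨824, 1048576, 1⟩⟩))))))
    (.node 1
    (.leaf (.psd ⟨⟨⟨1024, 0, 0⟩, ⟨(-2540), 1, 0⟩, ⟨0, 0, 1⟩⟩, ⟨⟨1, 0, 0⟩, ⟨2540, 1024, 0⟩, ⟨0, 0, 1024⟩⟩, 1024, ⟨489, 1048576, 1⟩⟩))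
    (.node 0
    (.leaf (.psd ⟨⟨⟨1024, 0, 0⟩, ⟨(-2152), 1, 0⟩, ⟨0, 0, 1⟩⟩, ⟨⟨1, 0, 0⟩, ⟨2152, 1024, 0⟩, ⟨0, 0, 1024⟩⟩, 1024, ⟨588, 1048576, 1⟩⟩))
    (.node 3
    (.leaf (.psd ⟨⟨⟨1024, 0, 0⟩, ⟨(-1412), 1, 0⟩, ⟨0, 0, 1⟩⟩, ⟨⟨1, 0, 0⟩, ⟨1412, 1024, 0⟩, ⟨0, 0, 1024⟩⟩, 1024, ⟨879, 1048576, 1⟩⟩))
    (.node 1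
    (.leaf (.psd ⟨⟨⟨1024, 0, 0⟩, ⟨(-1372), 1, 0⟩, ⟨0, 0, 1⟩⟩, ⟨⟨1, 0, 0⟩, ⟨1372, 1024, 0⟩, ⟨0, 0, 1024⟩⟩, 1024, ⟨1006, 1048576, 1⟩⟩))
    (.node 0
    (.leaf (.psd ⟨⟨⟨1024, 0, 0⟩, ⟨(-1156), 1, 0⟩, ⟨0, 0, 1⟩⟩, ⟨⟨1, 0, 0⟩, ⟨1156, 1024, 0⟩, ⟨0, 0, 1024⟩⟩, 1024, ⟨4, 4096, 1⟩⟩))
    (.leaf (.psd ⟨⟨⟨1024, 0, 0⟩, ⟨(-724), 1, 0⟩, ⟨0, 0, 1⟩⟩, ⟨⟨1, 0, 0⟩, ⟨724, 1024, 0⟩, ⟨0, 0, 1024⟩⟩, 1024, ⟨1743, 1048576, 1⟩⟩))))))))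
    (.node 3
    (.node 1
    (.node 0
    (.leaf (.psd ⟨⟨⟨1024, 0, 0⟩, ⟨(-2114), 1, 0⟩, ⟨0, 0, 1⟩⟩, ⟨⟨1, 0, 0⟩, ⟨2114, 1024, 0⟩, ⟨0, 0, 1024⟩⟩, 1024, ⟨2, 4096, 1⟩⟩))
    (.leaf (.psd ⟨⟨⟨1024, 0, 0⟩, ⟨(-1503), 1, 0⟩, ⟨0, 0, 1⟩⟩, ⟨⟨1, 0, 0⟩, ⟨1503, 1024, 0⟩, ⟨0, 0, 1024⟩⟩, 1024, ⟨889, 1048576, 1⟩⟩)))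
    (.node 0
    (.leaf (.psd ⟨⟨⟨1024, 0, 0⟩, ⟨(-1487), 1, 0⟩, ⟨0, 0, 1⟩⟩, ⟨⟨1, 0, 0⟩, ⟨1487, 1024, 0⟩, ⟨0, 0, 1024⟩⟩, 1024, ⟨894, 1048576, 1⟩⟩))
    (.node 1
    (.leaf (.psd ⟨⟨⟨1024, 0, 0⟩, ⟨(-1028), 1, 0⟩, ⟨0, 0, 1⟩⟩, ⟨⟨1, 0, 0⟩, ⟨1028, 1024, 0⟩, ⟨0, 0, 1024⟩⟩, 1024, ⟨1267, 1048576, 1⟩⟩))
    (.node 0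
    (.leaf (.psd ⟨⟨⟨1024, 0, 0⟩, ⟨(-856), 1, 0⟩, ⟨0, 0, 1⟩⟩, ⟨⟨1, 0, 0⟩, ⟨856, 1024, 0⟩, ⟨0, 0, 1024⟩⟩, 1024, ⟨6, 4096, 1⟩⟩))
    (.node 3
    (.leaf (.psd ⟨⟨⟨1024, 0, 0⟩, ⟨(-602), 1, 0⟩, ⟨0, 0, 1⟩⟩, ⟨⟨1, 0, 0⟩, ⟨602, 1024, 0⟩, ⟨0, 0, 1024⟩⟩, 1024, ⟨8, 4096, 1⟩⟩))
    (.leaf (.psd ⟨⟨⟨1024, 0, 0⟩, ⟨(-510), 1, 0⟩, ⟨0, 0, 1⟩⟩, ⟨⟨1, 0, 0⟩, ⟨510, 1024, 0⟩, ⟨0, 0, 1024⟩⟩, 1024, ⟨10, 4096, 1⟩⟩)))))))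
    (.node 1
    (.leaf (.psd ⟨⟨⟨1024, 0, 0⟩, ⟨(-1355), 1, 0⟩, ⟨0, 0, 1⟩⟩, ⟨⟨1, 0, 0⟩, ⟨1355, 1024, 0⟩, ⟨0, 0, 1024⟩⟩, 1024, ⟨999, 1048576, 1⟩⟩))
    (.node 0
    (.leaf (.psd ⟨⟨⟨1024, 0, 0⟩, ⟨(-1097), 1, 0⟩, ⟨0, 0, 1⟩⟩, ⟨⟨1, 0, 0⟩, ⟨1097, 1024, 0⟩, ⟨0, 0, 1024⟩⟩, 1024, ⟨5, 4096, 1⟩⟩))
    (.node 1
    (.leaf (.psd ⟨⟨⟨1024, 0, 0⟩, ⟨(-766), 1, 0⟩, ⟨0, 0, 1⟩⟩, ⟨⟨1, 0, 0⟩, ⟨766, 1024, 0⟩, ⟨0, 0, 1024⟩⟩, 1024, ⟨7, 4096, 1⟩⟩))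
    (.node 0
    (.leaf (.psd ⟨⟨⟨1024, 0, 0⟩, ⟨(-635), 1, 0⟩, ⟨0, 0, 1⟩⟩, ⟨⟨1, 0, 0⟩, ⟨635, 1024, 0⟩, ⟨0, 0, 1024⟩⟩, 1024, ⟨8, 4096, 1⟩⟩))
    (.leaf (.psd ⟨⟨⟨1024, 0, 0⟩, ⟨(-407), 1, 0⟩, ⟨0, 0, 1⟩⟩, ⟨⟨1, 0, 0⟩, ⟨407, 1024, 0⟩, ⟨0, 0, 1024⟩⟩, 1024, ⟨3038, 1048576, 1⟩⟩))))))))
    (.node 3
    (.node 1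
    (.node 3
    (.node 0
    (.node 3
    (.node 1
    (.leaf (.psd ⟨⟨⟨1024, 0, 0⟩, ⟨(-867), 1, 0⟩, ⟨0, 0, 1⟩⟩, ⟨⟨1, 0, 0⟩, ⟨867, 1024, 0⟩, ⟨0, 0, 1024⟩⟩, 1024, ⟨1, 4096, 1⟩⟩))
    (.node 0
    (.leaf (.psd ⟨⟨⟨1024, 0, 0⟩, ⟨(-749), 1, 0⟩, ⟨0, 0, 1⟩⟩, ⟨⟨1, 0, 0⟩, ⟨749, 1024, 0⟩, ⟨0, 0, 1024⟩⟩, 1024, ⟨1, 4096, 1⟩⟩))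
    (.node 3
    (.node 1
    (.node 0
    (.leaf (.psd ⟨⟨⟨1024, 0, 0⟩, ⟨(-11), 1, 0⟩, ⟨0, 0, 1⟩⟩, ⟨⟨1, 0, 0⟩, ⟨11, 1024, 0⟩, ⟨0, 0, 1024⟩⟩, 1024, ⟨1, 4096, 1⟩⟩))
    (.leaf (.skip 6)))
    (.leaf (.skip 6)))
    (.node 1
    (.leaf (.psd ⟨⟨⟨1024, 0, 0⟩, ⟨(-419), 1, 0⟩, ⟨0, 0, 1⟩⟩, ⟨⟨1, 0, 0⟩, ⟨419, 1024, 0⟩, ⟨0, 0, 1024⟩⟩, 1024, ⟨2, 4096, 1⟩⟩))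
    (.leaf (.skip 6))))))
    (.leaf (.psd ⟨⟨⟨1024, 0, 0⟩, ⟨(-1317), 1, 0⟩, ⟨0, 0, 1⟩⟩, ⟨⟨1, 0, 0⟩, ⟨1317, 1024, 0⟩, ⟨0, 0, 1024⟩⟩, 1024, ⟨731, 1048576, 1⟩⟩)))
    (.node 3
    (.node 1
    (.node 0
    (.node 3
    (.node 1
    (.node 0
    (.leaf (.psd ⟨⟨⟨1024, 0, 0⟩, ⟨82, 1, 0⟩, ⟨0, 0, 1⟩⟩, ⟨⟨1, 0, 0⟩, ⟨(-82), 1024, 0⟩, ⟨0, 0, 1024⟩⟩, 1024, ⟨1, 4096, 1⟩⟩))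
    (.leaf (.skip 6)))
    (.leaf (.skip 6)))
    (.node 1
    (.leaf (.psd ⟨⟨⟨1024, 0, 0⟩, ⟨(-295), 1, 0⟩, ⟨0, 0, 1⟩⟩, ⟨⟨1, 0, 0⟩, ⟨295, 1024, 0⟩, ⟨0, 0, 1024⟩⟩, 1024, ⟨2, 4096, 1⟩⟩))
    (.leaf (.skip 6))))
    (.leaf (.skip 6)))
    (.leaf (.skip 6)))
    (.node 1
    (.node 0
    (.leaf (.psd ⟨⟨⟨1024, 0, 0⟩, ⟨(-685), 1, 0⟩, ⟨0, 0, 1⟩⟩, ⟨⟨1, 0, 0⟩, ⟨685, 1024, 0⟩, ⟨0, 0, 1024⟩⟩, 1024, ⟨3, 4096, 1⟩⟩))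
    (.leaf (.skip 6)))
    (.leaf (.skip 6)))))
    (.node 0
    (.node 3
    (.leaf (.psd ⟨⟨⟨1024, 0, 0⟩, ⟨(-1333), 1, 0⟩, ⟨0, 0, 1⟩⟩, ⟨⟨1, 0, 0⟩, ⟨1333, 1024, 0⟩, ⟨0, 0, 1024⟩⟩, 1024, ⟨917, 1048576, 1⟩⟩))
    (.leaf (.psd ⟨⟨⟨1024, 0, 0⟩, ⟨(-1162), 1, 0⟩, ⟨0, 0, 1⟩⟩, ⟨⟨1, 0, 0⟩, ⟨1162, 1024, 0⟩, ⟨0, 0, 1024⟩⟩, 1024, ⟨1081, 1048576, 1⟩⟩)))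
    (.node 1
    (.node 0
    (.leaf (.psd ⟨⟨⟨1024, 0, 0⟩, ⟨(-769), 1, 0⟩, ⟨0, 0, 1⟩⟩, ⟨⟨1, 0, 0⟩, ⟨769, 1024, 0⟩, ⟨0, 0, 1024⟩⟩, 1024, ⟨6, 4096, 1⟩⟩))
    (.leaf (.skip 6)))
    (.leaf (.skip 6)))))
    (.node 0
    (.node 3
    (.node 3
    (.node 1
    (.node 0
    (.node 3
    (.node 1
    (.node 0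
    (.leaf (.psd ⟨⟨⟨1024, 0, 0⟩, ⟨(-119), 1, 0⟩, ⟨0, 0, 1⟩⟩, ⟨⟨1, 0, 0⟩, ⟨119, 1024, 0⟩, ⟨0, 0, 1024⟩⟩, 1024, ⟨1, 4096, 1⟩⟩))
    (.leaf (.skip 6)))
    (.leaf (.skip 6)))
    (.node 1
    (.leaf (.psd ⟨⟨⟨1024, 0, 0⟩, ⟨(-556), 1, 0⟩, ⟨0, 0, 1⟩⟩, ⟨⟨1, 0, 0⟩, ⟨556, 1024, 0⟩, ⟨0, 0, 1024⟩⟩, 1024, ⟨2, 4096, 1⟩⟩))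
    (.leaf (.skip 6))))
    (.leaf (.skip 6)))
    (.leaf (.skip 6)))
    (.node 1
    (.node 0
    (.leaf (.psd ⟨⟨⟨1024, 0, 0⟩, ⟨(-857), 1, 0⟩, ⟨0, 0, 1⟩⟩, ⟨⟨1, 0, 0⟩, ⟨857, 1024, 0⟩, ⟨0, 0, 1024⟩⟩, 1024, ⟨1014, 1048576, 1⟩⟩))
    (.leaf (.skip 6)))
    (.leaf (.skip 6))))
    (.node 1
    (.node 0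
    (.leaf (.psd ⟨⟨⟨1024, 0, 0⟩, ⟨(-773), 1, 0⟩, ⟨0, 0, 1⟩⟩, ⟨⟨1, 0, 0⟩, ⟨773, 1024, 0⟩, ⟨0, 0, 1024⟩⟩, 1024, ⟨1519, 1048576, 1⟩⟩))
    (.leaf (.skip 6)))
    (.leaf (.skip 6))))
    (.leaf (.skip 6))))
    (.node 1
    (.node 0
    (.node 3
    (.node 1
    (.leaf (.psd ⟨⟨⟨1024, 0, 0⟩, ⟨(-1054), 1, 0⟩, ⟨0, 0, 1⟩⟩, ⟨⟨1, 0, 0⟩, ⟨1054, 1024, 0⟩, ⟨0, 0, 1024⟩⟩, 1024, ⟨1241, 1048576, 1⟩⟩))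
    (.node 0
    (.leaf (.psd ⟨⟨⟨1024, 0, 0⟩, ⟨(-888), 1, 0⟩, ⟨0, 0, 1⟩⟩, ⟨⟨1, 0, 0⟩, ⟨888, 1024, 0⟩, ⟨0, 0, 1024⟩⟩, 1024, ⟨5, 4096, 1⟩⟩))
    (.leaf (.psd ⟨⟨⟨1024, 0, 0⟩, ⟨(-582), 1, 0⟩, ⟨0, 0, 1⟩⟩, ⟨⟨1, 0, 0⟩, ⟨582, 1024, 0⟩, ⟨0, 0, 1024⟩⟩, 1024, ⟨8, 4096, 1⟩⟩))))
    (.node 1
    (.leaf (.psd ⟨⟨⟨1024, 0, 0⟩, ⟨(-800), 1, 0⟩, ⟨0, 0, 1⟩⟩, ⟨⟨1, 0, 0⟩, ⟨800, 1024, 0⟩, ⟨0, 0, 1024⟩⟩, 1024, ⟨6, 4096, 1⟩⟩))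
    (.node 0
    (.leaf (.psd ⟨⟨⟨1024, 0, 0⟩, ⟨(-670), 1, 0⟩, ⟨0, 0, 1⟩⟩, ⟨⟨1, 0, 0⟩, ⟨670, 1024, 0⟩, ⟨0, 0, 1024⟩⟩, 1024, ⟨8, 4096, 1⟩⟩))
    (.leaf (.psd ⟨⟨⟨1024, 0, 0⟩, ⟨(-445), 1, 0⟩, ⟨0, 0, 1⟩⟩, ⟨⟨1, 0, 0⟩, ⟨445, 1024, 0⟩, ⟨0, 0, 1024⟩⟩, 1024, ⟨11, 4096, 1⟩⟩)))))
    (.node 1
    (.node 3
    (.node 0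
    (.leaf (.psd ⟨⟨⟨1024, 0, 0⟩, ⟨(-601), 1, 0⟩, ⟨0, 0, 1⟩⟩, ⟨⟨1, 0, 0⟩, ⟨601, 1024, 0⟩, ⟨0, 0, 1024⟩⟩, 1024, ⟨2043, 1048576, 1⟩⟩))
    (.leaf (.skip 6)))
    (.node 0
    (.leaf (.psd ⟨⟨⟨1024, 0, 0⟩, ⟨(-465), 1, 0⟩, ⟨0, 0, 1⟩⟩, ⟨⟨1, 0, 0⟩, ⟨465, 1024, 0⟩, ⟨0, 0, 1024⟩⟩, 1024, ⟨10, 4096, 1⟩⟩))
    (.leaf (.skip 6))))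
    (.leaf (.skip 6))))
    (.node 0
    (.node 1
    (.node 0
    (.node 3
    (.node 3
    (.leaf (.psd ⟨⟨⟨1024, 0, 0⟩, ⟨(-621), 1, 0⟩, ⟨0, 0, 1⟩⟩, ⟨⟨1, 0, 0⟩, ⟨621, 1024, 0⟩, ⟨0, 0, 1024⟩⟩, 1024, ⟨8, 4096, 1⟩⟩))
    (.leaf (.psd ⟨⟨⟨1024, 0, 0⟩, ⟨(-529), 1, 0⟩, ⟨0, 0, 1⟩⟩, ⟨⟨1, 0, 0⟩, ⟨529, 1024, 0⟩, ⟨0, 0, 1024⟩⟩, 1024, ⟨9, 4096, 1⟩⟩)))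
    (.leaf (.psd ⟨⟨⟨1024, 0, 0⟩, ⟨(-425), 1, 0⟩, ⟨0, 0, 1⟩⟩, ⟨⟨1, 0, 0⟩, ⟨425, 1024, 0⟩, ⟨0, 0, 1024⟩⟩, 1024, ⟨2956, 1048576, 1⟩⟩)))
    (.leaf (.skip 6)))
    (.leaf (.skip 6)))
    (.leaf (.skip 6))))))
    (.node 3
    (.node 0
    (.node 1
    (.node 3
    (.node 0
    (.node 3
    (.node 1
    (.leaf (.psd ⟨⟨⟨1024, 0, 0⟩, ⟨(-1759), 1, 0⟩, ⟨0, 0, 1⟩⟩, ⟨⟨1, 0, 0⟩, ⟨1759, 1024, 0⟩, ⟨0, 0, 1024⟩⟩, 1024, ⟨1, 4096, 1⟩⟩))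
    (.node 0
    (.leaf (.psd ⟨⟨⟨1024, 0, 0⟩, ⟨(-1598), 1, 0⟩, ⟨0, 0, 1⟩⟩, ⟨⟨1, 0, 0⟩, ⟨1598, 1024, 0⟩, ⟨0, 0, 1024⟩⟩, 1024, ⟨1, 4096, 1⟩⟩))
    (.leaf (.skip 8))))
    (.node 1
    (.leaf (.psd ⟨⟨⟨1024, 0, 0⟩, ⟨(-2082), 1, 0⟩, ⟨0, 0, 1⟩⟩, ⟨⟨1, 0, 0⟩, ⟨2082, 1024, 0⟩, ⟨0, 0, 1024⟩⟩, 1024, ⟨2, 4096, 1⟩⟩))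
    (.node 0
    (.leaf (.psd ⟨⟨⟨1024, 0, 0⟩, ⟨(-1823), 1, 0⟩, ⟨0, 0, 1⟩⟩, ⟨⟨1, 0, 0⟩, ⟨1823, 1024, 0⟩, ⟨0, 0, 1024⟩⟩, 1024, ⟨2, 4096, 1⟩⟩))
    (.leaf (.psd ⟨⟨⟨1024, 0, 0⟩, ⟨(-1069), 1, 0⟩, ⟨0, 0, 1⟩⟩, ⟨⟨1, 0, 0⟩, ⟨1069, 1024, 0⟩, ⟨0, 0, 1024⟩⟩, 1024, ⟨1078, 1048576, 1⟩⟩)))))
    (.node 3
    (.node 1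
    (.node 0
    (.node 3
    (.leaf (.skip 8))
    (.node 1
    (.leaf (.psd ⟨⟨⟨1024, 0, 0⟩, ⟨(-875), 1, 0⟩, ⟨0, 0, 1⟩⟩, ⟨⟨1, 0, 0⟩, ⟨875, 1024, 0⟩, ⟨0, 0, 1024⟩⟩, 1024, ⟨1, 4096, 1⟩⟩))
    (.leaf (.skip 8))))
    (.leaf (.skip 6)))
    (.leaf (.skip 6)))
    (.node 1
    (.node 0
    (.leaf (.psd ⟨⟨⟨1024, 0, 0⟩, ⟨(-1006), 1, 0⟩, ⟨0, 0, 1⟩⟩, ⟨⟨1, 0, 0⟩, ⟨1006, 1024, 0⟩, ⟨0, 0, 1024⟩⟩, 1024, ⟨4, 4096, 1⟩⟩))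
    (.leaf (.skip 6)))
    (.leaf (.skip 6)))))
    (.node 0
    (.node 3
    (.node 1
    (.leaf (.psd ⟨⟨⟨1024, 0, 0⟩, ⟨(-1725), 1, 0⟩, ⟨0, 0, 1⟩⟩, ⟨⟨1, 0, 0⟩, ⟨1725, 1024, 0⟩, ⟨0, 0, 1024⟩⟩, 1024, ⟨3, 4096, 1⟩⟩))
    (.node 0
    (.leaf (.psd ⟨⟨⟨1024, 0, 0⟩, ⟨(-1459), 1, 0⟩, ⟨0, 0, 1⟩⟩, ⟨⟨1, 0, 0⟩, ⟨1459, 1024, 0⟩, ⟨0, 0, 1024⟩⟩, 1024, ⟨3, 4096, 1⟩⟩))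
    (.node 1
    (.leaf (.psd ⟨⟨⟨1024, 0, 0⟩, ⟨(-1023), 1, 0⟩, ⟨0, 0, 1⟩⟩, ⟨⟨1, 0, 0⟩, ⟨1023, 1024, 0⟩, ⟨0, 0, 1024⟩⟩, 1024, ⟨4, 4096, 1⟩⟩))
    (.leaf (.skip 8)))))
    (.node 1
    (.leaf (.psd ⟨⟨⟨1024, 0, 0⟩, ⟨(-1374), 1, 0⟩, ⟨0, 0, 1⟩⟩, ⟨⟨1, 0, 0⟩, ⟨1374, 1024, 0⟩, ⟨0, 0, 1024⟩⟩, 1024, ⟨1015, 1048576, 1⟩⟩))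
    (.node 0
    (.leaf (.psd ⟨⟨⟨1024, 0, 0⟩, ⟨(-1144), 1, 0⟩, ⟨0, 0, 1⟩⟩, ⟨⟨1, 0, 0⟩, ⟨1144, 1024, 0⟩, ⟨0, 0, 1024⟩⟩, 1024, ⟨4, 4096, 1⟩⟩))
    (.node 1
    (.leaf (.psd ⟨⟨⟨1024, 0, 0⟩, ⟨(-811), 1, 0⟩, ⟨0, 0, 1⟩⟩, ⟨⟨1, 0, 0⟩, ⟨811, 1024, 0⟩, ⟨0, 0, 1024⟩⟩, 1024, ⟨6, 4096, 1⟩⟩))
    (.leaf (.skip 8))))))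
    (.node 1
    (.node 0
    (.node 3
    (.leaf (.psd ⟨⟨⟨1024, 0, 0⟩, ⟨(-878), 1, 0⟩, ⟨0, 0, 1⟩⟩, ⟨⟨1, 0, 0⟩, ⟨878, 1024, 0⟩, ⟨0, 0, 1024⟩⟩, 1024, ⟨1394, 1048576, 1⟩⟩))
    (.leaf (.psd ⟨⟨⟨1024, 0, 0⟩, ⟨(-711), 1, 0⟩, ⟨0, 0, 1⟩⟩, ⟨⟨1, 0, 0⟩, ⟨711, 1024, 0⟩, ⟨0, 0, 1024⟩⟩, 1024, ⟨1751, 1048576, 1⟩⟩)))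
    (.leaf (.skip 6)))
    (.leaf (.skip 6)))))
    (.node 0
    (.node 3
    (.leaf (.skip 8))
    (.node 1
    (.node 0
    (.node 3
    (.node 1
    (.leaf (.psd ⟨⟨⟨1024, 0, 0⟩, ⟨(-1026), 1, 0⟩, ⟨0, 0, 1⟩⟩, ⟨⟨1, 0, 0⟩, ⟨1026, 1024, 0⟩, ⟨0, 0, 1024⟩⟩, 1024, ⟨5, 4096, 1⟩⟩))
    (.leaf (.skip 8)))
    (.node 1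
    (.leaf (.psd ⟨⟨⟨1024, 0, 0⟩, ⟨(-798), 1, 0⟩, ⟨0, 0, 1⟩⟩, ⟨⟨1, 0, 0⟩, ⟨798, 1024, 0⟩, ⟨0, 0, 1024⟩⟩, 1024, ⟨6, 4096, 1⟩⟩))
    (.leaf (.skip 8))))
    (.leaf (.skip 6)))
    (.leaf (.skip 8))))
    (.leaf (.skip 6))))
    (.leaf (.skip 6)))
    (.node 0
    (.node 1
    (.node 0
    (.node 3
    (.node 1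
    (.node 0
    (.leaf (.psd ⟨⟨⟨1024, 0, 0⟩, ⟨(-1155), 1, 0⟩, ⟨0, 0, 1⟩⟩, ⟨⟨1, 0, 0⟩, ⟨1155, 1024, 0⟩, ⟨0, 0, 1024⟩⟩, 1024, ⟨4, 4096, 1⟩⟩))
    (.leaf (.psd ⟨⟨⟨1024, 0, 0⟩, ⟨(-840), 1, 0⟩, ⟨0, 0, 1⟩⟩, ⟨⟨1, 0, 0⟩, ⟨840, 1024, 0⟩, ⟨0, 0, 1024⟩⟩, 1024, ⟨6, 4096, 1⟩⟩)))
    (.node 0
    (.leaf (.psd ⟨⟨⟨1024, 0, 0⟩, ⟨(-825), 1, 0⟩, ⟨0, 0, 1⟩⟩, ⟨⟨1, 0, 0⟩, ⟨825, 1024, 0⟩, ⟨0, 0, 1024⟩⟩, 1024, ⟨6, 4096, 1⟩⟩))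
    (.node 1
    (.leaf (.psd ⟨⟨⟨1024, 0, 0⟩, ⟨(-590), 1, 0⟩, ⟨0, 0, 1⟩⟩, ⟨⟨1, 0, 0⟩, ⟨590, 1024, 0⟩, ⟨0, 0, 1024⟩⟩, 1024, ⟨8, 4096, 1⟩⟩))
    (.leaf (.skip 8)))))
    (.node 1
    (.leaf (.psd ⟨⟨⟨1024, 0, 0⟩, ⟨(-734), 1, 0⟩, ⟨0, 0, 1⟩⟩, ⟨⟨1, 0, 0⟩, ⟨734, 1024, 0⟩, ⟨0, 0, 1024⟩⟩, 1024, ⟨7, 4096, 1⟩⟩))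
    (.node 0
    (.leaf (.psd ⟨⟨⟨1024, 0, 0⟩, ⟨(-604), 1, 0⟩, ⟨0, 0, 1⟩⟩, ⟨⟨1, 0, 0⟩, ⟨604, 1024, 0⟩, ⟨0, 0, 1024⟩⟩, 1024, ⟨9, 4096, 1⟩⟩))
    (.node 1
    (.leaf (.psd ⟨⟨⟨1024, 0, 0⟩, ⟨(-435), 1, 0⟩, ⟨0, 0, 1⟩⟩, ⟨⟨1, 0, 0⟩, ⟨435, 1024, 0⟩, ⟨0, 0, 1024⟩⟩, 1024, ⟨12, 4096, 1⟩⟩))
    (.leaf (.psd ⟨⟨⟨1024, 0, 0⟩, ⟨(-311), 1, 0⟩, ⟨0, 0, 1⟩⟩, ⟨⟨1, 0, 0⟩, ⟨311, 1024, 0⟩, ⟨0, 0, 1024⟩⟩, 1024, ⟨15, 4096, 1⟩⟩))))))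
    (.node 1
    (.node 0
    (.node 3
    (.node 3
    (.leaf (.psd ⟨⟨⟨1024, 0, 0⟩, ⟨(-583), 1, 0⟩, ⟨0, 0, 1⟩⟩, ⟨⟨1, 0, 0⟩, ⟨583, 1024, 0⟩, ⟨0, 0, 1024⟩⟩, 1024, ⟨2190, 1048576, 1⟩⟩))
    (.leaf (.psd ⟨⟨⟨1024, 0, 0⟩, ⟨(-490), 1, 0⟩, ⟨0, 0, 1⟩⟩, ⟨⟨1, 0, 0⟩, ⟨490, 1024, 0⟩, ⟨0, 0, 1024⟩⟩, 1024, ⟨10, 4096, 1⟩⟩)))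
    (.node 1
    (.leaf (.psd ⟨⟨⟨1024, 0, 0⟩, ⟨(-451), 1, 0⟩, ⟨0, 0, 1⟩⟩, ⟨⟨1, 0, 0⟩, ⟨451, 1024, 0⟩, ⟨0, 0, 1024⟩⟩, 1024, ⟨11, 4096, 1⟩⟩))
    (.leaf (.psd ⟨⟨⟨1024, 0, 0⟩, ⟨(-327), 1, 0⟩, ⟨0, 0, 1⟩⟩, ⟨⟨1, 0, 0⟩, ⟨327, 1024, 0⟩, ⟨0, 0, 1024⟩⟩, 1024, ⟨3787, 1048576, 1⟩⟩))))
    (.leaf (.skip 6)))
    (.leaf (.skip 6))))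
    (.node 0
    (.node 1
    (.node 0
    (.node 3
    (.node 1
    (.leaf (.psd ⟨⟨⟨1024, 0, 0⟩, ⟨(-573), 1, 0⟩, ⟨0, 0, 1⟩⟩, ⟨⟨1, 0, 0⟩, ⟨573, 1024, 0⟩, ⟨0, 0, 1024⟩⟩, 1024, ⟨2225, 1048576, 1⟩⟩))
    (.leaf (.skip 8)))
    (.node 1
    (.leaf (.psd ⟨⟨⟨1024, 0, 0⟩, ⟨(-420), 1, 0⟩, ⟨0, 0, 1⟩⟩, ⟨⟨1, 0, 0⟩, ⟨420, 1024, 0⟩, ⟨0, 0, 1024⟩⟩, 1024, ⟨12, 4096, 1⟩⟩))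
    (.leaf (.skip 8))))
    (.leaf (.skip 6)))
    (.leaf (.skip 8)))
    (.leaf (.skip 6))))
    (.leaf (.skip 6))))

theorem chunk18 : Check.Good ⟨false, false, false⟩ cfg (reach cfg base [(1, true), (0, true), (3, false), (3, false), (1, false), (0, true), (0, true), (1, true), (3, false), (3, false), (0, true), (1, true), (0, true)]) :=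
  Check.check_sound tree18 (by decide +kernel)

end Vale.Agent.P211.Cert.Pair.PairOuterL
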