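import Vale.Agent.P211.Cert.Pair.Data.PairOuterL.Part2

/-!
P211, data: the root `outerL` of the form across the gradient, generated from the exact search.
-/

namespace Vale.Agent.P211.Cert.Pair.PairOuterL

open Vale.Agent.P098.Check6 (Face St ofChunks reach)
open Vale.Agent.P098.Cert6.Kron (RootPar)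

/-- A subtree. -/
def tree19 : Check.Tree Check.Leaf :=
  .node 0
    (.node 1
    (.node 3
    (.node 3
    (.leaf (.psd ⟨⟨⟨1024, 0, 0⟩, ⟨(-3124), 1, 0⟩, ⟨0, 0, 1⟩⟩, ⟨⟨1, 0, 0⟩, ⟨3124, 1024, 0⟩, ⟨0, 0, 1024⟩⟩, 1024, ⟨434, 1048576, 1⟩⟩))
    (.leaf (.psd ⟨⟨⟨1024, 0, 0⟩, ⟨(-2535), 1, 0⟩, ⟨0, 0, 1⟩⟩, ⟨⟨1, 0, 0⟩, ⟨2535, 1024, 0⟩, ⟨0, 0, 1024⟩⟩, 1024, ⟨2, 4096, 1⟩⟩)))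
    (.leaf (.psd ⟨⟨⟨1024, 0, 0⟩, ⟨(-1933), 1, 0⟩, ⟨0, 0, 1⟩⟩, ⟨⟨1, 0, 0⟩, ⟨1933, 1024, 0⟩, ⟨0, 0, 1024⟩⟩, 1024, ⟨663, 1048576, 1⟩⟩)))
    (.node 3
    (.node 0
    (.node 1
    (.leaf (.psd ⟨⟨⟨1024, 0, 0⟩, ⟨(-2024), 1, 0⟩, ⟨0, 0, 1⟩⟩, ⟨⟨1, 0, 0⟩, ⟨2024, 1024, 0⟩, ⟨0, 0, 1024⟩⟩, 1024, ⟨2, 4096, 1⟩⟩))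
    (.node 3
    (.leaf (.psd ⟨⟨⟨1024, 0, 0⟩, ⟨(-1543), 1, 0⟩, ⟨0, 0, 1⟩⟩, ⟨⟨1, 0, 0⟩, ⟨1543, 1024, 0⟩, ⟨0, 0, 1024⟩⟩, 1024, ⟨909, 1048576, 1⟩⟩))
    (.leaf (.psd ⟨⟨⟨1024, 0, 0⟩, ⟨(-1249), 1, 0⟩, ⟨0, 0, 1⟩⟩, ⟨⟨1, 0, 0⟩, ⟨1249, 1024, 0⟩, ⟨0, 0, 1024⟩⟩, 1024, ⟨4, 4096, 1⟩⟩))))
    (.node 1
    (.node 3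
    (.leaf (.psd ⟨⟨⟨1024, 0, 0⟩, ⟨(-1581), 1, 0⟩, ⟨0, 0, 1⟩⟩, ⟨⟨1, 0, 0⟩, ⟨1581, 1024, 0⟩, ⟨0, 0, 1024⟩⟩, 1024, ⟨893, 1048576, 1⟩⟩))
    (.leaf (.psd ⟨⟨⟨1024, 0, 0⟩, ⟨(-1285), 1, 0⟩, ⟨0, 0, 1⟩⟩, ⟨⟨1, 0, 0⟩, ⟨1285, 1024, 0⟩, ⟨0, 0, 1024⟩⟩, 1024, ⟨4, 4096, 1⟩⟩)))
    (.node 1
    (.node 0
    (.leaf (.psd ⟨⟨⟨1024, 0, 0⟩, ⟨(-1048), 1, 0⟩, ⟨0, 0, 1⟩⟩, ⟨⟨1, 0, 0⟩, ⟨1048, 1024, 0⟩, ⟨0, 0, 1024⟩⟩, 1024, ⟨4, 4096, 1⟩⟩))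
    (.node 3
    (.leaf (.psd ⟨⟨⟨1024, 0, 0⟩, ⟨(-834), 1, 0⟩, ⟨0, 0, 1⟩⟩, ⟨⟨1, 0, 0⟩, ⟨834, 1024, 0⟩, ⟨0, 0, 1024⟩⟩, 1024, ⟨6, 4096, 1⟩⟩))
    (.leaf (.psd ⟨⟨⟨1024, 0, 0⟩, ⟨(-679), 1, 0⟩, ⟨0, 0, 1⟩⟩, ⟨⟨1, 0, 0⟩, ⟨679, 1024, 0⟩, ⟨0, 0, 1024⟩⟩, 1024, ⟨8, 4096, 1⟩⟩))))
    (.node 0
    (.node 3
    (.leaf (.psd ⟨⟨⟨1024, 0, 0⟩, ⟨(-815), 1, 0⟩, ⟨0, 0, 1⟩⟩, ⟨⟨1, 0, 0⟩, ⟨815, 1024, 0⟩, ⟨0, 0, 1024⟩⟩, 1024, ⟨1769, 1048576, 1⟩⟩))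
    (.leaf (.psd ⟨⟨⟨1024, 0, 0⟩, ⟨(-662), 1, 0⟩, ⟨0, 0, 1⟩⟩, ⟨⟨1, 0, 0⟩, ⟨662, 1024, 0⟩, ⟨0, 0, 1024⟩⟩, 1024, ⟨8, 4096, 1⟩⟩)))
    (.node 1
    (.node 3
    (.leaf (.psd ⟨⟨⟨1024, 0, 0⟩, ⟨(-551), 1, 0⟩, ⟨0, 0, 1⟩⟩, ⟨⟨1, 0, 0⟩, ⟨551, 1024, 0⟩, ⟨0, 0, 1024⟩⟩, 1024, ⟨2532, 1048576, 1⟩⟩))
    (.leaf (.psd ⟨⟨⟨1024, 0, 0⟩, ⟨(-448), 1, 0⟩, ⟨0, 0, 1⟩⟩, ⟨⟨1, 0, 0⟩, ⟨448, 1024, 0⟩, ⟨0, 0, 1024⟩⟩, 1024, ⟨12, 4096, 1⟩⟩)))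
    (.node 0
    (.leaf (.psd ⟨⟨⟨1024, 0, 0⟩, ⟨(-398), 1, 0⟩, ⟨0, 0, 1⟩⟩, ⟨⟨1, 0, 0⟩, ⟨398, 1024, 0⟩, ⟨0, 0, 1024⟩⟩, 1024, ⟨12, 4096, 1⟩⟩))
    (.node 1
    (.leaf (.psd ⟨⟨⟨1024, 0, 0⟩, ⟨(-281), 1, 0⟩, ⟨0, 0, 1⟩⟩, ⟨⟨1, 0, 0⟩, ⟨281, 1024, 0⟩, ⟨0, 0, 1024⟩⟩, 1024, ⟨16, 4096, 1⟩⟩))
    (.node 0
    (.leaf (.psd ⟨⟨⟨1024, 0, 0⟩, ⟨(-236), 1, 0⟩, ⟨0, 0, 1⟩⟩, ⟨⟨1, 0, 0⟩, ⟨236, 1024, 0⟩, ⟨0, 0, 1024⟩⟩, 1024, ⟨19, 4096, 1⟩⟩))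
    (.leaf (.skip 8))))))))))
    (.node 0
    (.node 1
    (.leaf (.psd ⟨⟨⟨1024, 0, 0⟩, ⟨(-1422), 1, 0⟩, ⟨0, 0, 1⟩⟩, ⟨⟨1, 0, 0⟩, ⟨1422, 1024, 0⟩, ⟨0, 0, 1024⟩⟩, 1024, ⟨3, 4096, 1⟩⟩))
    (.leaf (.psd ⟨⟨⟨1024, 0, 0⟩, ⟨(-955), 1, 0⟩, ⟨0, 0, 1⟩⟩, ⟨⟨1, 0, 0⟩, ⟨955, 1024, 0⟩, ⟨0, 0, 1024⟩⟩, 1024, ⟨1383, 1048576, 1⟩⟩)))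
    (.node 1
    (.leaf (.psd ⟨⟨⟨1024, 0, 0⟩, ⟨(-984), 1, 0⟩, ⟨0, 0, 1⟩⟩, ⟨⟨1, 0, 0⟩, ⟨984, 1024, 0⟩, ⟨0, 0, 1024⟩⟩, 1024, ⟨1354, 1048576, 1⟩⟩))
    (.node 1
    (.node 0
    (.leaf (.psd ⟨⟨⟨1024, 0, 0⟩, ⟨(-741), 1, 0⟩, ⟨0, 0, 1⟩⟩, ⟨⟨1, 0, 0⟩, ⟨741, 1024, 0⟩, ⟨0, 0, 1024⟩⟩, 1024, ⟨7, 4096, 1⟩⟩))
    (.leaf (.psd ⟨⟨⟨1024, 0, 0⟩, ⟨(-522), 1, 0⟩, ⟨0, 0, 1⟩⟩, ⟨⟨1, 0, 0⟩, ⟨522, 1024, 0⟩, ⟨0, 0, 1024⟩⟩, 1024, ⟨10, 4096, 1⟩⟩)))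
    (.node 0
    (.leaf (.psd ⟨⟨⟨1024, 0, 0⟩, ⟨(-508), 1, 0⟩, ⟨0, 0, 1⟩⟩, ⟨⟨1, 0, 0⟩, ⟨508, 1024, 0⟩, ⟨0, 0, 1024⟩⟩, 1024, ⟨10, 4096, 1⟩⟩))
    (.node 1
    (.leaf (.psd ⟨⟨⟨1024, 0, 0⟩, ⟨(-345), 1, 0⟩, ⟨0, 0, 1⟩⟩, ⟨⟨1, 0, 0⟩, ⟨345, 1024, 0⟩, ⟨0, 0, 1024⟩⟩, 1024, ⟨14, 4096, 1⟩⟩))
    (.node 0
    (.leaf (.psd ⟨⟨⟨1024, 0, 0⟩, ⟨(-283), 1, 0⟩, ⟨0, 0, 1⟩⟩, ⟨⟨1, 0, 0⟩, ⟨283, 1024, 0⟩, ⟨0, 0, 1024⟩⟩, 1024, ⟨17, 4096, 1⟩⟩))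
    (.leaf (.psd ⟨⟨⟨1024, 0, 0⟩, ⟨(-171), 1, 0⟩, ⟨0, 0, 1⟩⟩, ⟨⟨1, 0, 0⟩, ⟨171, 1024, 0⟩, ⟨0, 0, 1024⟩⟩, 1024, ⟨24, 4096, 1⟩⟩))))))))))
    (.node 1
    (.node 3
    (.node 1
    (.node 0
    (.leaf (.psd ⟨⟨⟨1024, 0, 0⟩, ⟨(-2131), 1, 0⟩, ⟨0, 0, 1⟩⟩, ⟨⟨1, 0, 0⟩, ⟨2131, 1024, 0⟩, ⟨0, 0, 1024⟩⟩, 1024, ⟨2, 4096, 1⟩⟩))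
    (.leaf (.psd ⟨⟨⟨1024, 0, 0⟩, ⟨(-1508), 1, 0⟩, ⟨0, 0, 1⟩⟩, ⟨⟨1, 0, 0⟩, ⟨1508, 1024, 0⟩, ⟨0, 0, 1024⟩⟩, 1024, ⟨841, 1048576, 1⟩⟩)))
    (.node 0
    (.node 3
    (.leaf (.psd ⟨⟨⟨1024, 0, 0⟩, ⟨(-1634), 1, 0⟩, ⟨0, 0, 1⟩⟩, ⟨⟨1, 0, 0⟩, ⟨1634, 1024, 0⟩, ⟨0, 0, 1024⟩⟩, 1024, ⟨3, 4096, 1⟩⟩))
    (.leaf (.psd ⟨⟨⟨1024, 0, 0⟩, ⟨(-1337), 1, 0⟩, ⟨0, 0, 1⟩⟩, ⟨⟨1, 0, 0⟩, ⟨1337, 1024, 0⟩, ⟨0, 0, 1024⟩⟩, 1024, ⟨4, 4096, 1⟩⟩)))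
    (.node 1
    (.node 0
    (.leaf (.psd ⟨⟨⟨1024, 0, 0⟩, ⟨(-1153), 1, 0⟩, ⟨0, 0, 1⟩⟩, ⟨⟨1, 0, 0⟩, ⟨1153, 1024, 0⟩, ⟨0, 0, 1024⟩⟩, 1024, ⟨4, 4096, 1⟩⟩))
    (.leaf (.psd ⟨⟨⟨1024, 0, 0⟩, ⟨(-850), 1, 0⟩, ⟨0, 0, 1⟩⟩, ⟨⟨1, 0, 0⟩, ⟨850, 1024, 0⟩, ⟨0, 0, 1024⟩⟩, 1024, ⟨1533, 1048576, 1⟩⟩)))
    (.node 0
    (.leaf (.psd ⟨⟨⟨1024, 0, 0⟩, ⟨(-817), 1, 0⟩, ⟨0, 0, 1⟩⟩, ⟨⟨1, 0, 0⟩, ⟨817, 1024, 0⟩, ⟨0, 0, 1024⟩⟩, 1024, ⟨6, 4096, 1⟩⟩))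
    (.node 1
    (.leaf (.psd ⟨⟨⟨1024, 0, 0⟩, ⟨(-598), 1, 0⟩, ⟨0, 0, 1⟩⟩, ⟨⟨1, 0, 0⟩, ⟨598, 1024, 0⟩, ⟨0, 0, 1024⟩⟩, 1024, ⟨8, 4096, 1⟩⟩))
    (.node 0
    (.leaf (.psd ⟨⟨⟨1024, 0, 0⟩, ⟨(-504), 1, 0⟩, ⟨0, 0, 1⟩⟩, ⟨⟨1, 0, 0⟩, ⟨504, 1024, 0⟩, ⟨0, 0, 1024⟩⟩, 1024, ⟨9, 4096, 1⟩⟩))
    (.leaf (.skip 6))))))))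
    (.node 1
    (.node 0
    (.leaf (.psd ⟨⟨⟨1024, 0, 0⟩, ⟨(-1519), 1, 0⟩, ⟨0, 0, 1⟩⟩, ⟨⟨1, 0, 0⟩, ⟨1519, 1024, 0⟩, ⟨0, 0, 1024⟩⟩, 1024, ⟨3, 4096, 1⟩⟩))
    (.leaf (.psd ⟨⟨⟨1024, 0, 0⟩, ⟨(-1088), 1, 0⟩, ⟨0, 0, 1⟩⟩, ⟨⟨1, 0, 0⟩, ⟨1088, 1024, 0⟩, ⟨0, 0, 1024⟩⟩, 1024, ⟨1248, 1048576, 1⟩⟩)))
    (.node 0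
    (.leaf (.psd ⟨⟨⟨1024, 0, 0⟩, ⟨(-1029), 1, 0⟩, ⟨0, 0, 1⟩⟩, ⟨⟨1, 0, 0⟩, ⟨1029, 1024, 0⟩, ⟨0, 0, 1024⟩⟩, 1024, ⟨5, 4096, 1⟩⟩))
    (.node 1
    (.leaf (.psd ⟨⟨⟨1024, 0, 0⟩, ⟨(-722), 1, 0⟩, ⟨0, 0, 1⟩⟩, ⟨⟨1, 0, 0⟩, ⟨722, 1024, 0⟩, ⟨0, 0, 1024⟩⟩, 1024, ⟨7, 4096, 1⟩⟩))
    (.node 0
    (.leaf (.psd ⟨⟨⟨1024, 0, 0⟩, ⟨(-587), 1, 0⟩, ⟨0, 0, 1⟩⟩, ⟨⟨1, 0, 0⟩, ⟨587, 1024, 0⟩, ⟨0, 0, 1024⟩⟩, 1024, ⟨9, 4096, 1⟩⟩))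
    (.node 1
    (.leaf (.psd ⟨⟨⟨1024, 0, 0⟩, ⟨(-433), 1, 0⟩, ⟨0, 0, 1⟩⟩, ⟨⟨1, 0, 0⟩, ⟨433, 1024, 0⟩, ⟨0, 0, 1024⟩⟩, 1024, ⟨12, 4096, 1⟩⟩))
    (.leaf (.psd ⟨⟨⟨1024, 0, 0⟩, ⟨(-311), 1, 0⟩, ⟨0, 0, 1⟩⟩, ⟨⟨1, 0, 0⟩, ⟨311, 1024, 0⟩, ⟨0, 0, 1024⟩⟩, 1024, ⟨15, 4096, 1⟩⟩))))))))
    (.node 1
    (.node 0
    (.node 3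
    (.node 1
    (.node 0
    (.leaf (.psd ⟨⟨⟨1024, 0, 0⟩, ⟨(-1093), 1, 0⟩, ⟨0, 0, 1⟩⟩, ⟨⟨1, 0, 0⟩, ⟨1093, 1024, 0⟩, ⟨0, 0, 1024⟩⟩, 1024, ⟨4, 4096, 1⟩⟩))
    (.leaf (.psd ⟨⟨⟨1024, 0, 0⟩, ⟨(-786), 1, 0⟩, ⟨0, 0, 1⟩⟩, ⟨⟨1, 0, 0⟩, ⟨786, 1024, 0⟩, ⟨0, 0, 1024⟩⟩, 1024, ⟨1638, 1048576, 1⟩⟩)))
    (.node 0
    (.node 3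
    (.leaf (.psd ⟨⟨⟨1024, 0, 0⟩, ⟨(-859), 1, 0⟩, ⟨0, 0, 1⟩⟩, ⟨⟨1, 0, 0⟩, ⟨859, 1024, 0⟩, ⟨0, 0, 1024⟩⟩, 1024, ⟨6, 4096, 1⟩⟩))
    (.leaf (.psd ⟨⟨⟨1024, 0, 0⟩, ⟨(-701), 1, 0⟩, ⟨0, 0, 1⟩⟩, ⟨⟨1, 0, 0⟩, ⟨701, 1024, 0⟩, ⟨0, 0, 1024⟩⟩, 1024, ⟨8, 4096, 1⟩⟩)))
    (.node 1
    (.node 0
    (.leaf (.psd ⟨⟨⟨1024, 0, 0⟩, ⟨(-610), 1, 0⟩, ⟨0, 0, 1⟩⟩, ⟨⟨1, 0, 0⟩, ⟨610, 1024, 0⟩, ⟨0, 0, 1024⟩⟩, 1024, ⟨8, 4096, 1⟩⟩))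
    (.leaf (.psd ⟨⟨⟨1024, 0, 0⟩, ⟨(-455), 1, 0⟩, ⟨0, 0, 1⟩⟩, ⟨⟨1, 0, 0⟩, ⟨455, 1024, 0⟩, ⟨0, 0, 1024⟩⟩, 1024, ⟨10, 4096, 1⟩⟩)))
    (.node 0
    (.leaf (.psd ⟨⟨⟨1024, 0, 0⟩, ⟨(-441), 1, 0⟩, ⟨0, 0, 1⟩⟩, ⟨⟨1, 0, 0⟩, ⟨441, 1024, 0⟩, ⟨0, 0, 1024⟩⟩, 1024, ⟨11, 4096, 1⟩⟩))
    (.node 3
    (.leaf (.psd ⟨⟨⟨1024, 0, 0⟩, ⟨(-322), 1, 0⟩, ⟨0, 0, 1⟩⟩, ⟨⟨1, 0, 0⟩, ⟨322, 1024, 0⟩, ⟨0, 0, 1024⟩⟩, 1024, ⟨15, 4096, 1⟩⟩))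
    (.leaf (.psd ⟨⟨⟨1024, 0, 0⟩, ⟨(-265), 1, 0⟩, ⟨0, 0, 1⟩⟩, ⟨⟨1, 0, 0⟩, ⟨265, 1024, 0⟩, ⟨0, 0, 1024⟩⟩, 1024, ⟨18, 4096, 1⟩⟩)))))))
    (.node 1
    (.leaf (.psd ⟨⟨⟨1024, 0, 0⟩, ⟨(-670), 1, 0⟩, ⟨0, 0, 1⟩⟩, ⟨⟨1, 0, 0⟩, ⟨670, 1024, 0⟩, ⟨0, 0, 1024⟩⟩, 1024, ⟨1973, 1048576, 1⟩⟩))
    (.node 0
    (.leaf (.psd ⟨⟨⟨1024, 0, 0⟩, ⟨(-539), 1, 0⟩, ⟨0, 0, 1⟩⟩, ⟨⟨1, 0, 0⟩, ⟨539, 1024, 0⟩, ⟨0, 0, 1024⟩⟩, 1024, ⟨9, 4096, 1⟩⟩))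
    (.node 1
    (.leaf (.psd ⟨⟨⟨1024, 0, 0⟩, ⟨(-382), 1, 0⟩, ⟨0, 0, 1⟩⟩, ⟨⟨1, 0, 0⟩, ⟨382, 1024, 0⟩, ⟨0, 0, 1024⟩⟩, 1024, ⟨13, 4096, 1⟩⟩))
    (.node 0
    (.leaf (.psd ⟨⟨⟨1024, 0, 0⟩, ⟨(-316), 1, 0⟩, ⟨0, 0, 1⟩⟩, ⟨⟨1, 0, 0⟩, ⟨316, 1024, 0⟩, ⟨0, 0, 1024⟩⟩, 1024, ⟨16, 4096, 1⟩⟩))
    (.leaf (.psd ⟨⟨⟨1024, 0, 0⟩, ⟨(-206), 1, 0⟩, ⟨0, 0, 1⟩⟩, ⟨⟨1, 0, 0⟩, ⟨206, 1024, 0⟩, ⟨0, 0, 1024⟩⟩, 1024, ⟨21, 4096, 1⟩⟩)))))))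
    (.node 1
    (.node 0
    (.node 3
    (.node 1
    (.leaf (.psd ⟨⟨⟨1024, 0, 0⟩, ⟨(-564), 1, 0⟩, ⟨0, 0, 1⟩⟩, ⟨⟨1, 0, 0⟩, ⟨564, 1024, 0⟩, ⟨0, 0, 1024⟩⟩, 1024, ⟨2251, 1048576, 1⟩⟩))
    (.node 0
    (.leaf (.psd ⟨⟨⟨1024, 0, 0⟩, ⟨(-471), 1, 0⟩, ⟨0, 0, 1⟩⟩, ⟨⟨1, 0, 0⟩, ⟨471, 1024, 0⟩, ⟨0, 0, 1024⟩⟩, 1024, ⟨10, 4096, 1⟩⟩))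
    (.node 3
    (.leaf (.psd ⟨⟨⟨1024, 0, 0⟩, ⟨(-355), 1, 0⟩, ⟨0, 0, 1⟩⟩, ⟨⟨1, 0, 0⟩, ⟨355, 1024, 0⟩, ⟨0, 0, 1024⟩⟩, 1024, ⟨14, 4096, 1⟩⟩))
    (.leaf (.psd ⟨⟨⟨1024, 0, 0⟩, ⟨(-294), 1, 0⟩, ⟨0, 0, 1⟩⟩, ⟨⟨1, 0, 0⟩, ⟨294, 1024, 0⟩, ⟨0, 0, 1024⟩⟩, 1024, ⟨17, 4096, 1⟩⟩)))))
    (.node 1
    (.leaf (.psd ⟨⟨⟨1024, 0, 0⟩, ⟨(-406), 1, 0⟩, ⟨0, 0, 1⟩⟩, ⟨⟨1, 0, 0⟩, ⟨406, 1024, 0⟩, ⟨0, 0, 1024⟩⟩, 1024, ⟨12, 4096, 1⟩⟩))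
    (.node 0
    (.leaf (.psd ⟨⟨⟨1024, 0, 0⟩, ⟨(-339), 1, 0⟩, ⟨0, 0, 1⟩⟩, ⟨⟨1, 0, 0⟩, ⟨339, 1024, 0⟩, ⟨0, 0, 1024⟩⟩, 1024, ⟨15, 4096, 1⟩⟩))
    (.leaf (.psd ⟨⟨⟨1024, 0, 0⟩, ⟨(-230), 1, 0⟩, ⟨0, 0, 1⟩⟩, ⟨⟨1, 0, 0⟩, ⟨230, 1024, 0⟩, ⟨0, 0, 1024⟩⟩, 1024, ⟨20, 4096, 1⟩⟩)))))
    (.node 1
    (.node 3
    (.node 0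
    (.leaf (.psd ⟨⟨⟨1024, 0, 0⟩, ⟨(-333), 1, 0⟩, ⟨0, 0, 1⟩⟩, ⟨⟨1, 0, 0⟩, ⟨333, 1024, 0⟩, ⟨0, 0, 1024⟩⟩, 1024, ⟨3530, 1048576, 1⟩⟩))
    (.leaf (.skip 6)))
    (.node 0
    (.leaf (.psd ⟨⟨⟨1024, 0, 0⟩, ⟨(-243), 1, 0⟩, ⟨0, 0, 1⟩⟩, ⟨⟨1, 0, 0⟩, ⟨243, 1024, 0⟩, ⟨0, 0, 1024⟩⟩, 1024, ⟨19, 4096, 1⟩⟩))
    (.leaf (.skip 6))))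
    (.leaf (.skip 6))))
    (.node 0
    (.node 1
    (.node 0
    (.node 3
    (.node 3
    (.leaf (.psd ⟨⟨⟨1024, 0, 0⟩, ⟨(-338), 1, 0⟩, ⟨0, 0, 1⟩⟩, ⟨⟨1, 0, 0⟩, ⟨338, 1024, 0⟩, ⟨0, 0, 1024⟩⟩, 1024, ⟨14, 4096, 1⟩⟩))
    (.leaf (.psd ⟨⟨⟨1024, 0, 0⟩, ⟨(-279), 1, 0⟩, ⟨0, 0, 1⟩⟩, ⟨⟨1, 0, 0⟩, ⟨279, 1024, 0⟩, ⟨0, 0, 1024⟩⟩, 1024, ⟨18, 4096, 1⟩⟩)))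
    (.leaf (.psd ⟨⟨⟨1024, 0, 0⟩, ⟨(-217), 1, 0⟩, ⟨0, 0, 1⟩⟩, ⟨⟨1, 0, 0⟩, ⟨217, 1024, 0⟩, ⟨0, 0, 1024⟩⟩, 1024, ⟨20, 4096, 1⟩⟩)))
    (.leaf (.skip 6)))
    (.leaf (.skip 6)))
    (.leaf (.skip 6)))))
    (.node 0
    (.node 1
    (.node 0
    (.node 3
    (.node 1
    (.node 0
    (.leaf (.psd ⟨⟨⟨1024, 0, 0⟩, ⟨(-584), 1, 0⟩, ⟨0, 0, 1⟩⟩, ⟨⟨1, 0, 0⟩, ⟨584, 1024, 0⟩, ⟨0, 0, 1024⟩⟩, 1024, ⟨8, 4096, 1⟩⟩))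
    (.leaf (.psd ⟨⟨⟨1024, 0, 0⟩, ⟨(-428), 1, 0⟩, ⟨0, 0, 1⟩⟩, ⟨⟨1, 0, 0⟩, ⟨428, 1024, 0⟩, ⟨0, 0, 1024⟩⟩, 1024, ⟨11, 4096, 1⟩⟩)))
    (.node 0
    (.leaf (.psd ⟨⟨⟨1024, 0, 0⟩, ⟨(-417), 1, 0⟩, ⟨0, 0, 1⟩⟩, ⟨⟨1, 0, 0⟩, ⟨417, 1024, 0⟩, ⟨0, 0, 1024⟩⟩, 1024, ⟨11, 4096, 1⟩⟩))
    (.node 1
    (.leaf (.psd ⟨⟨⟨1024, 0, 0⟩, ⟨(-302), 1, 0⟩, ⟨0, 0, 1⟩⟩, ⟨⟨1, 0, 0⟩, ⟨302, 1024, 0⟩, ⟨0, 0, 1024⟩⟩, 1024, ⟨15, 4096, 1⟩⟩))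
    (.node 0
    (.leaf (.psd ⟨⟨⟨1024, 0, 0⟩, ⟨(-256), 1, 0⟩, ⟨0, 0, 1⟩⟩, ⟨⟨1, 0, 0⟩, ⟨256, 1024, 0⟩, ⟨0, 0, 1024⟩⟩, 1024, ⟨17, 4096, 1⟩⟩))
    (.leaf (.skip 6))))))
    (.node 1
    (.leaf (.psd ⟨⟨⟨1024, 0, 0⟩, ⟨(-361), 1, 0⟩, ⟨0, 0, 1⟩⟩, ⟨⟨1, 0, 0⟩, ⟨361, 1024, 0⟩, ⟨0, 0, 1024⟩⟩, 1024, ⟨13, 4096, 1⟩⟩))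
    (.node 0
    (.leaf (.psd ⟨⟨⟨1024, 0, 0⟩, ⟨(-297), 1, 0⟩, ⟨0, 0, 1⟩⟩, ⟨⟨1, 0, 0⟩, ⟨297, 1024, 0⟩, ⟨0, 0, 1024⟩⟩, 1024, ⟨16, 4096, 1⟩⟩))
    (.leaf (.psd ⟨⟨⟨1024, 0, 0⟩, ⟨(-186), 1, 0⟩, ⟨0, 0, 1⟩⟩, ⟨⟨1, 0, 0⟩, ⟨186, 1024, 0⟩, ⟨0, 0, 1024⟩⟩, 1024, ⟨5863, 1048576, 1⟩⟩)))))
    (.node 1
    (.node 0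
    (.node 3
    (.node 3
    (.leaf (.psd ⟨⟨⟨1024, 0, 0⟩, ⟨(-307), 1, 0⟩, ⟨0, 0, 1⟩⟩, ⟨⟨1, 0, 0⟩, ⟨307, 1024, 0⟩, ⟨0, 0, 1024⟩⟩, 1024, ⟨4056, 1048576, 1⟩⟩))
    (.leaf (.psd ⟨⟨⟨1024, 0, 0⟩, ⟨(-252), 1, 0⟩, ⟨0, 0, 1⟩⟩, ⟨⟨1, 0, 0⟩, ⟨252, 1024, 0⟩, ⟨0, 0, 1024⟩⟩, 1024, ⟨19, 4096, 1⟩⟩)))
    (.leaf (.psd ⟨⟨⟨1024, 0, 0⟩, ⟨(-196), 1, 0⟩, ⟨0, 0, 1⟩⟩, ⟨⟨1, 0, 0⟩, ⟨196, 1024, 0⟩, ⟨0, 0, 1024⟩⟩, 1024, ⟨22, 4096, 1⟩⟩)))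
    (.leaf (.skip 6)))
    (.leaf (.skip 6))))
    (.node 0
    (.node 1
    (.node 0
    (.node 3
    (.node 1
    (.leaf (.psd ⟨⟨⟨1024, 0, 0⟩, ⟨(-291), 1, 0⟩, ⟨0, 0, 1⟩⟩, ⟨⟨1, 0, 0⟩, ⟨291, 1024, 0⟩, ⟨0, 0, 1024⟩⟩, 1024, ⟨15, 4096, 1⟩⟩))
    (.node 0
    (.leaf (.psd ⟨⟨⟨1024, 0, 0⟩, ⟨(-246), 1, 0⟩, ⟨0, 0, 1⟩⟩, ⟨⟨1, 0, 0⟩, ⟨246, 1024, 0⟩, ⟨0, 0, 1024⟩⟩, 1024, ⟨18, 4096, 1⟩⟩))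
    (.leaf (.skip 6))))
    (.leaf (.psd ⟨⟨⟨1024, 0, 0⟩, ⟨(-178), 1, 0⟩, ⟨0, 0, 1⟩⟩, ⟨⟨1, 0, 0⟩, ⟨178, 1024, 0⟩, ⟨0, 0, 1024⟩⟩, 1024, ⟨6008, 1048576, 1⟩⟩)))
    (.leaf (.skip 6)))
    (.node 0
    (.node 1
    (.node 3
    (.leaf (.skip 8))
    (.leaf (.psd ⟨⟨⟨1, (-4573), 0⟩, ⟨0, 1024, 0⟩, ⟨0, 0, 1⟩⟩, ⟨⟨1024, 4573, 0⟩, ⟨0, 1, 0⟩, ⟨0, 0, 1024⟩⟩, 1024, ⟨1048576, 210, 1⟩⟩)))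
    (.leaf (.skip 6)))
    (.leaf (.skip 6))))
    (.leaf (.skip 6))))
    (.leaf (.skip 6)))))

theorem chunk19 : Check.Good ⟨false, false, false⟩ cfg (reach cfg base [(3, true), (3, false), (1, false), (0, true), (0, true), (1, true), (3, false), (3, false), (0, true), (1, true), (0, true)]) :=
  Check.check_sound tree19 (by decide +kernel)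

/-- A subtree. -/
def tree20 : Check.Tree Check.Leaf :=
  .node 1
    (.node 0
    (.node 3
    (.node 3
    (.leaf (.psd ⟨⟨⟨1024, 0, 0⟩, ⟨(-1463), 1, 0⟩, ⟨0, 0, 1⟩⟩, ⟨⟨1, 0, 0⟩, ⟨1463, 1024, 0⟩, ⟨0, 0, 1024⟩⟩, 1024, ⟨912, 1048576, 1⟩⟩))
    (.leaf (.psd ⟨⟨⟨1024, 0, 0⟩, ⟨(-1163), 1, 0⟩, ⟨0, 0, 1⟩⟩, ⟨⟨1, 0, 0⟩, ⟨1163, 1024, 0⟩, ⟨0, 0, 1024⟩⟩, 1024, ⟨4, 4096, 1⟩⟩)))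
    (.leaf (.psd ⟨⟨⟨1024, 0, 0⟩, ⟨(-867), 1, 0⟩, ⟨0, 0, 1⟩⟩, ⟨⟨1, 0, 0⟩, ⟨867, 1024, 0⟩, ⟨0, 0, 1024⟩⟩, 1024, ⟨1438, 1048576, 1⟩⟩)))
    (.node 1
    (.node 3
    (.node 0
    (.leaf (.psd ⟨⟨⟨1024, 0, 0⟩, ⟨(-1012), 1, 0⟩, ⟨0, 0, 1⟩⟩, ⟨⟨1, 0, 0⟩, ⟨1012, 1024, 0⟩, ⟨0, 0, 1024⟩⟩, 1024, ⟨4, 4096, 1⟩⟩))
    (.node 3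
    (.leaf (.psd ⟨⟨⟨1024, 0, 0⟩, ⟨(-835), 1, 0⟩, ⟨0, 0, 1⟩⟩, ⟨⟨1, 0, 0⟩, ⟨835, 1024, 0⟩, ⟨0, 0, 1024⟩⟩, 1024, ⟨6, 4096, 1⟩⟩))
    (.leaf (.psd ⟨⟨⟨1024, 0, 0⟩, ⟨(-670), 1, 0⟩, ⟨0, 0, 1⟩⟩, ⟨⟨1, 0, 0⟩, ⟨670, 1024, 0⟩, ⟨0, 0, 1024⟩⟩, 1024, ⟨8, 4096, 1⟩⟩))))
    (.leaf (.psd ⟨⟨⟨1024, 0, 0⟩, ⟨(-599), 1, 0⟩, ⟨0, 0, 1⟩⟩, ⟨⟨1, 0, 0⟩, ⟨599, 1024, 0⟩, ⟨0, 0, 1024⟩⟩, 1024, ⟨2110, 1048576, 1⟩⟩)))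
    (.node 0
    (.node 3
    (.node 3
    (.leaf (.psd ⟨⟨⟨1024, 0, 0⟩, ⟨(-787), 1, 0⟩, ⟨0, 0, 1⟩⟩, ⟨⟨1, 0, 0⟩, ⟨787, 1024, 0⟩, ⟨0, 0, 1024⟩⟩, 1024, ⟨1776, 1048576, 1⟩⟩))
    (.leaf (.psd ⟨⟨⟨1024, 0, 0⟩, ⟨(-630), 1, 0⟩, ⟨0, 0, 1⟩⟩, ⟨⟨1, 0, 0⟩, ⟨630, 1024, 0⟩, ⟨0, 0, 1024⟩⟩, 1024, ⟨8, 4096, 1⟩⟩)))
    (.leaf (.psd ⟨⟨⟨1024, 0, 0⟩, ⟨(-473), 1, 0⟩, ⟨0, 0, 1⟩⟩, ⟨⟨1, 0, 0⟩, ⟨473, 1024, 0⟩, ⟨0, 0, 1024⟩⟩, 1024, ⟨10, 4096, 1⟩⟩)))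
    (.node 3
    (.node 1
    (.node 0
    (.leaf (.psd ⟨⟨⟨1024, 0, 0⟩, ⟨(-557), 1, 0⟩, ⟨0, 0, 1⟩⟩, ⟨⟨1, 0, 0⟩, ⟨557, 1024, 0⟩, ⟨0, 0, 1024⟩⟩, 1024, ⟨8, 4096, 1⟩⟩))
    (.leaf (.psd ⟨⟨⟨1024, 0, 0⟩, ⟨(-417), 1, 0⟩, ⟨0, 0, 1⟩⟩, ⟨⟨1, 0, 0⟩, ⟨417, 1024, 0⟩, ⟨0, 0, 1024⟩⟩, 1024, ⟨11, 4096, 1⟩⟩)))
    (.node 0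
    (.leaf (.psd ⟨⟨⟨1024, 0, 0⟩, ⟨(-396), 1, 0⟩, ⟨0, 0, 1⟩⟩, ⟨⟨1, 0, 0⟩, ⟨396, 1024, 0⟩, ⟨0, 0, 1024⟩⟩, 1024, ⟨3057, 1048576, 1⟩⟩))
    (.node 1
    (.leaf (.psd ⟨⟨⟨1024, 0, 0⟩, ⟨(-295), 1, 0⟩, ⟨0, 0, 1⟩⟩, ⟨⟨1, 0, 0⟩, ⟨295, 1024, 0⟩, ⟨0, 0, 1024⟩⟩, 1024, ⟨15, 4096, 1⟩⟩))
    (.leaf (.psd ⟨⟨⟨1024, 0, 0⟩, ⟨(-213), 1, 0⟩, ⟨0, 0, 1⟩⟩, ⟨⟨1, 0, 0⟩, ⟨213, 1024, 0⟩, ⟨0, 0, 1024⟩⟩, 1024, ⟨19, 4096, 1⟩⟩)))))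
    (.node 1
    (.leaf (.psd ⟨⟨⟨1024, 0, 0⟩, ⟨(-338), 1, 0⟩, ⟨0, 0, 1⟩⟩, ⟨⟨1, 0, 0⟩, ⟨338, 1024, 0⟩, ⟨0, 0, 1024⟩⟩, 1024, ⟨14, 4096, 1⟩⟩))
    (.node 0
    (.leaf (.psd ⟨⟨⟨1024, 0, 0⟩, ⟨(-274), 1, 0⟩, ⟨0, 0, 1⟩⟩, ⟨⟨1, 0, 0⟩, ⟨274, 1024, 0⟩, ⟨0, 0, 1024⟩⟩, 1024, ⟨17, 4096, 1⟩⟩))
    (.leaf (.psd ⟨⟨⟨1024, 0, 0⟩, ⟨(-177), 1, 0⟩, ⟨0, 0, 1⟩⟩, ⟨⟨1, 0, 0⟩, ⟨177, 1024, 0⟩, ⟨0, 0, 1024⟩⟩, 1024, ⟨22, 4096, 1⟩⟩))))))))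
    (.node 0
    (.node 1
    (.node 3
    (.node 0
    (.leaf (.psd ⟨⟨⟨1024, 0, 0⟩, ⟨(-942), 1, 0⟩, ⟨0, 0, 1⟩⟩, ⟨⟨1, 0, 0⟩, ⟨942, 1024, 0⟩, ⟨0, 0, 1024⟩⟩, 1024, ⟨1242, 1048576, 1⟩⟩))
    (.node 3
    (.leaf (.psd ⟨⟨⟨1024, 0, 0⟩, ⟨(-750), 1, 0⟩, ⟨0, 0, 1⟩⟩, ⟨⟨1, 0, 0⟩, ⟨750, 1024, 0⟩, ⟨0, 0, 1024⟩⟩, 1024, ⟨7, 4096, 1⟩⟩))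
    (.leaf (.psd ⟨⟨⟨1024, 0, 0⟩, ⟨(-600), 1, 0⟩, ⟨0, 0, 1⟩⟩, ⟨⟨1, 0, 0⟩, ⟨600, 1024, 0⟩, ⟨0, 0, 1024⟩⟩, 1024, ⟨9, 4096, 1⟩⟩))))
    (.node 0
    (.leaf (.psd ⟨⟨⟨1024, 0, 0⟩, ⟨(-644), 1, 0⟩, ⟨0, 0, 1⟩⟩, ⟨⟨1, 0, 0⟩, ⟨644, 1024, 0⟩, ⟨0, 0, 1024⟩⟩, 1024, ⟨7, 4096, 1⟩⟩))
    (.leaf (.psd ⟨⟨⟨1024, 0, 0⟩, ⟨(-450), 1, 0⟩, ⟨0, 0, 1⟩⟩, ⟨⟨1, 0, 0⟩, ⟨450, 1024, 0⟩, ⟨0, 0, 1024⟩⟩, 1024, ⟨10, 4096, 1⟩⟩))))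
    (.node 0
    (.node 3
    (.node 3
    (.leaf (.psd ⟨⟨⟨1024, 0, 0⟩, ⟨(-727), 1, 0⟩, ⟨0, 0, 1⟩⟩, ⟨⟨1, 0, 0⟩, ⟨727, 1024, 0⟩, ⟨0, 0, 1024⟩⟩, 1024, ⟨7, 4096, 1⟩⟩))
    (.leaf (.psd ⟨⟨⟨1024, 0, 0⟩, ⟨(-581), 1, 0⟩, ⟨0, 0, 1⟩⟩, ⟨⟨1, 0, 0⟩, ⟨581, 1024, 0⟩, ⟨0, 0, 1024⟩⟩, 1024, ⟨9, 4096, 1⟩⟩)))
    (.leaf (.psd ⟨⟨⟨1024, 0, 0⟩, ⟨(-435), 1, 0⟩, ⟨0, 0, 1⟩⟩, ⟨⟨1, 0, 0⟩, ⟨435, 1024, 0⟩, ⟨0, 0, 1024⟩⟩, 1024, ⟨10, 4096, 1⟩⟩)))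
    (.node 3
    (.node 1
    (.node 0
    (.leaf (.psd ⟨⟨⟨1024, 0, 0⟩, ⟨(-494), 1, 0⟩, ⟨0, 0, 1⟩⟩, ⟨⟨1, 0, 0⟩, ⟨494, 1024, 0⟩, ⟨0, 0, 1024⟩⟩, 1024, ⟨9, 4096, 1⟩⟩))
    (.leaf (.psd ⟨⟨⟨1024, 0, 0⟩, ⟨(-349), 1, 0⟩, ⟨0, 0, 1⟩⟩, ⟨⟨1, 0, 0⟩, ⟨349, 1024, 0⟩, ⟨0, 0, 1024⟩⟩, 1024, ⟨3318, 1048576, 1⟩⟩)))
    (.node 0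
    (.leaf (.psd ⟨⟨⟨1024, 0, 0⟩, ⟨(-340), 1, 0⟩, ⟨0, 0, 1⟩⟩, ⟨⟨1, 0, 0⟩, ⟨340, 1024, 0⟩, ⟨0, 0, 1024⟩⟩, 1024, ⟨13, 4096, 1⟩⟩))
    (.node 1
    (.leaf (.psd ⟨⟨⟨1024, 0, 0⟩, ⟨(-232), 1, 0⟩, ⟨0, 0, 1⟩⟩, ⟨⟨1, 0, 0⟩, ⟨232, 1024, 0⟩, ⟨0, 0, 1024⟩⟩, 1024, ⟨18, 4096, 1⟩⟩))
    (.leaf (.psd ⟨⟨⟨1, (-3179), 0⟩, ⟨0, 1024, 0⟩, ⟨0, 0, 1⟩⟩, ⟨⟨1024, 3179, 0⟩, ⟨0, 1, 0⟩, ⟨0, 0, 1024⟩⟩, 1024, ⟨1048576, 359, 1⟩⟩)))))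
    (.node 1
    (.leaf (.psd ⟨⟨⟨1024, 0, 0⟩, ⟨(-290), 1, 0⟩, ⟨0, 0, 1⟩⟩, ⟨⟨1, 0, 0⟩, ⟨290, 1024, 0⟩, ⟨0, 0, 1024⟩⟩, 1024, ⟨15, 4096, 1⟩⟩))
    (.node 0
    (.leaf (.psd ⟨⟨⟨1024, 0, 0⟩, ⟨(-233), 1, 0⟩, ⟨0, 0, 1⟩⟩, ⟨⟨1, 0, 0⟩, ⟨233, 1024, 0⟩, ⟨0, 0, 1024⟩⟩, 1024, ⟨18, 4096, 1⟩⟩))
    (.leaf (.psd ⟨⟨⟨1024, 0, 0⟩, ⟨(-133), 1, 0⟩, ⟨0, 0, 1⟩⟩, ⟨⟨1, 0, 0⟩, ⟨133, 1024, 0⟩, ⟨0, 0, 1024⟩⟩, 1024, ⟨26, 4096, 1⟩⟩)))))))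
    (.node 1
    (.node 0
    (.node 3
    (.node 1
    (.node 0
    (.leaf (.psd ⟨⟨⟨1024, 0, 0⟩, ⟨(-520), 1, 0⟩, ⟨0, 0, 1⟩⟩, ⟨⟨1, 0, 0⟩, ⟨520, 1024, 0⟩, ⟨0, 0, 1024⟩⟩, 1024, ⟨9, 4096, 1⟩⟩))
    (.leaf (.psd ⟨⟨⟨1024, 0, 0⟩, ⟨(-377), 1, 0⟩, ⟨0, 0, 1⟩⟩, ⟨⟨1, 0, 0⟩, ⟨377, 1024, 0⟩, ⟨0, 0, 1024⟩⟩, 1024, ⟨12, 4096, 1⟩⟩)))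
    (.node 0
    (.leaf (.psd ⟨⟨⟨1024, 0, 0⟩, ⟨(-362), 1, 0⟩, ⟨0, 0, 1⟩⟩, ⟨⟨1, 0, 0⟩, ⟨362, 1024, 0⟩, ⟨0, 0, 1024⟩⟩, 1024, ⟨3246, 1048576, 1⟩⟩))
    (.node 1
    (.leaf (.psd ⟨⟨⟨1024, 0, 0⟩, ⟨(-257), 1, 0⟩, ⟨0, 0, 1⟩⟩, ⟨⟨1, 0, 0⟩, ⟨257, 1024, 0⟩, ⟨0, 0, 1024⟩⟩, 1024, ⟨16, 4096, 1⟩⟩))
    (.leaf (.psd ⟨⟨⟨1, (-2948), 0⟩, ⟨0, 1024, 0⟩, ⟨0, 0, 1⟩⟩, ⟨⟨1024, 2948, 0⟩, ⟨0, 1, 0⟩, ⟨0, 0, 1024⟩⟩, 1024, ⟨1048576, 403, 1⟩⟩)))))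
    (.node 1
    (.leaf (.psd ⟨⟨⟨1024, 0, 0⟩, ⟨(-310), 1, 0⟩, ⟨0, 0, 1⟩⟩, ⟨⟨1, 0, 0⟩, ⟨310, 1024, 0⟩, ⟨0, 0, 1024⟩⟩, 1024, ⟨15, 4096, 1⟩⟩))
    (.node 0
    (.leaf (.psd ⟨⟨⟨1024, 0, 0⟩, ⟨(-250), 1, 0⟩, ⟨0, 0, 1⟩⟩, ⟨⟨1, 0, 0⟩, ⟨250, 1024, 0⟩, ⟨0, 0, 1024⟩⟩, 1024, ⟨18, 4096, 1⟩⟩))
    (.leaf (.psd ⟨⟨⟨1024, 0, 0⟩, ⟨(-151), 1, 0⟩, ⟨0, 0, 1⟩⟩, ⟨⟨1, 0, 0⟩, ⟨151, 1024, 0⟩, ⟨0, 0, 1024⟩⟩, 1024, ⟨24, 4096, 1⟩⟩)))))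
    (.node 1
    (.node 0
    (.node 3
    (.node 1
    (.leaf (.psd ⟨⟨⟨1024, 0, 0⟩, ⟨(-275), 1, 0⟩, ⟨0, 0, 1⟩⟩, ⟨⟨1, 0, 0⟩, ⟨275, 1024, 0⟩, ⟨0, 0, 1024⟩⟩, 1024, ⟨16, 4096, 1⟩⟩))
    (.leaf (.psd ⟨⟨⟨1, (-2792), 0⟩, ⟨0, 1024, 0⟩, ⟨0, 0, 1⟩⟩, ⟨⟨1024, 2792, 0⟩, ⟨0, 1, 0⟩, ⟨0, 0, 1024⟩⟩, 1024, ⟨1048576, 429, 1⟩⟩)))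
    (.leaf (.psd ⟨⟨⟨1024, 0, 0⟩, ⟨(-163), 1, 0⟩, ⟨0, 0, 1⟩⟩, ⟨⟨1, 0, 0⟩, ⟨163, 1024, 0⟩, ⟨0, 0, 1024⟩⟩, 1024, ⟨23, 4096, 1⟩⟩)))
    (.node 1
    (.leaf (.psd ⟨⟨⟨1, (-3894), 0⟩, ⟨0, 1024, 0⟩, ⟨0, 0, 1⟩⟩, ⟨⟨1024, 3894, 0⟩, ⟨0, 1, 0⟩, ⟨0, 0, 1024⟩⟩, 1024, ⟨1048576, 407, 1⟩⟩))
    (.leaf (.skip 6))))
    (.node 0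
    (.node 1
    (.node 0
    (.leaf (.psd ⟨⟨⟨1024, 0, 0⟩, ⟨(-117), 1, 0⟩, ⟨0, 0, 1⟩⟩, ⟨⟨1, 0, 0⟩, ⟨117, 1024, 0⟩, ⟨0, 0, 1024⟩⟩, 1024, ⟨22, 4096, 1⟩⟩))
    (.leaf (.skip 6)))
    (.leaf (.skip 6)))
    (.leaf (.skip 6)))))
    (.node 0
    (.node 1
    (.node 0
    (.node 3
    (.node 1
    (.leaf (.psd ⟨⟨⟨1024, 0, 0⟩, ⟨(-243), 1, 0⟩, ⟨0, 0, 1⟩⟩, ⟨⟨1, 0, 0⟩, ⟨243, 1024, 0⟩, ⟨0, 0, 1024⟩⟩, 1024, ⟨17, 4096, 1⟩⟩))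
    (.leaf (.psd ⟨⟨⟨1, (-3079), 0⟩, ⟨0, 1024, 0⟩, ⟨0, 0, 1⟩⟩, ⟨⟨1024, 3079, 0⟩, ⟨0, 1, 0⟩, ⟨0, 0, 1024⟩⟩, 1024, ⟨1048576, 380, 1⟩⟩)))
    (.leaf (.psd ⟨⟨⟨1024, 0, 0⟩, ⟨(-141), 1, 0⟩, ⟨0, 0, 1⟩⟩, ⟨⟨1, 0, 0⟩, ⟨141, 1024, 0⟩, ⟨0, 0, 1024⟩⟩, 1024, ⟨25, 4096, 1⟩⟩)))
    (.node 1
    (.node 0
    (.leaf (.psd ⟨⟨⟨1024, 0, 0⟩, ⟨(-105), 1, 0⟩, ⟨0, 0, 1⟩⟩, ⟨⟨1, 0, 0⟩, ⟨105, 1024, 0⟩, ⟨0, 0, 1024⟩⟩, 1024, ⟨6126, 1048576, 1⟩⟩))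
    (.leaf (.skip 6)))
    (.leaf (.skip 6))))
    (.node 0
    (.node 1
    (.node 0
    (.leaf (.psd ⟨⟨⟨1, (-4139), 0⟩, ⟨0, 1024, 0⟩, ⟨0, 0, 1⟩⟩, ⟨⟨1024, 4139, 0⟩, ⟨0, 1, 0⟩, ⟨0, 0, 1024⟩⟩, 1024, ⟨1048576, 389, 1⟩⟩))
    (.leaf (.skip 6)))
    (.node 0
    (.node 3
    (.node 1
    (.leaf (.psd ⟨⟨⟨1024, 0, 0⟩, ⟨(-61), 1, 0⟩, ⟨0, 0, 1⟩⟩, ⟨⟨1, 0, 0⟩, ⟨61, 1024, 0⟩, ⟨0, 0, 1024⟩⟩, 1024, ⟨42, 4096, 1⟩⟩))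
    (.leaf (.skip 6)))
    (.leaf (.psd ⟨⟨⟨1024, 0, 0⟩, ⟨(-29), 1, 0⟩, ⟨0, 0, 1⟩⟩, ⟨⟨1, 0, 0⟩, ⟨29, 1024, 0⟩, ⟨0, 0, 1024⟩⟩, 1024, ⟨54, 4096, 1⟩⟩)))
    (.leaf (.skip 6))))
    (.leaf (.skip 6))))
    (.leaf (.skip 6)))))

theorem chunk20 : Check.Good ⟨false, false, false⟩ cfg (reach cfg base [(3, true), (1, false), (0, true), (0, true), (1, true), (3, false), (3, false), (0, true), (1, true), (0, true)]) :=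
  Check.check_sound tree20 (by decide +kernel)

/-- A subtree. -/
def tree21 : Check.Tree Check.Leaf :=
  .node 1
    (.node 3
    (.node 3
    (.node 3
    (.node 1
    (.leaf (.psd ⟨⟨⟨1024, 0, 0⟩, ⟨(-6595), 1, 0⟩, ⟨0, 0, 1⟩⟩, ⟨⟨1, 0, 0⟩, ⟨6595, 1024, 0⟩, ⟨0, 0, 1024⟩⟩, 1024, ⟨164, 1048576, 1⟩⟩))
    (.node 0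
    (.leaf (.psd ⟨⟨⟨1024, 0, 0⟩, ⟨(-6309), 1, 0⟩, ⟨0, 0, 1⟩⟩, ⟨⟨1, 0, 0⟩, ⟨6309, 1024, 0⟩, ⟨0, 0, 1024⟩⟩, 1024, ⟨189, 1048576, 1⟩⟩))
    (.node 3
    (.node 1
    (.leaf (.psd ⟨⟨⟨1024, 0, 0⟩, ⟨(-3857), 1, 0⟩, ⟨0, 0, 1⟩⟩, ⟨⟨1, 0, 0⟩, ⟨3857, 1024, 0⟩, ⟨0, 0, 1024⟩⟩, 1024, ⟨1, 4096, 1⟩⟩))
    (.node 0
    (.leaf (.psd ⟨⟨⟨1024, 0, 0⟩, ⟨(-3643), 1, 0⟩, ⟨0, 0, 1⟩⟩, ⟨⟨1, 0, 0⟩, ⟨3643, 1024, 0⟩, ⟨0, 0, 1024⟩⟩, 1024, ⟨1, 4096, 1⟩⟩))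
    (.leaf (.skip 8))))
    (.node 1
    (.leaf (.psd ⟨⟨⟨1024, 0, 0⟩, ⟨(-3891), 1, 0⟩, ⟨0, 0, 1⟩⟩, ⟨⟨1, 0, 0⟩, ⟨3891, 1024, 0⟩, ⟨0, 0, 1024⟩⟩, 1024, ⟨357, 1048576, 1⟩⟩))
    (.node 0
    (.leaf (.psd ⟨⟨⟨1024, 0, 0⟩, ⟨(-3473), 1, 0⟩, ⟨0, 0, 1⟩⟩, ⟨⟨1, 0, 0⟩, ⟨3473, 1024, 0⟩, ⟨0, 0, 1024⟩⟩, 1024, ⟨411, 1048576, 1⟩⟩))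
    (.leaf (.skip 8)))))))
    (.node 1
    (.node 0
    (.leaf (.psd ⟨⟨⟨1024, 0, 0⟩, ⟨(-5744), 1, 0⟩, ⟨0, 0, 1⟩⟩, ⟨⟨1, 0, 0⟩, ⟨5744, 1024, 0⟩, ⟨0, 0, 1024⟩⟩, 1024, ⟨1, 4096, 1⟩⟩))
    (.leaf (.psd ⟨⟨⟨1024, 0, 0⟩, ⟨(-3916), 1, 0⟩, ⟨0, 0, 1⟩⟩, ⟨⟨1, 0, 0⟩, ⟨3916, 1024, 0⟩, ⟨0, 0, 1024⟩⟩, 1024, ⟨336, 1048576, 1⟩⟩)))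
    (.node 0
    (.node 3
    (.leaf (.psd ⟨⟨⟨1024, 0, 0⟩, ⟨(-4902), 1, 0⟩, ⟨0, 0, 1⟩⟩, ⟨⟨1, 0, 0⟩, ⟨4902, 1024, 0⟩, ⟨0, 0, 1024⟩⟩, 1024, ⟨1, 4096, 1⟩⟩))
    (.leaf (.psd ⟨⟨⟨1024, 0, 0⟩, ⟨(-3872), 1, 0⟩, ⟨0, 0, 1⟩⟩, ⟨⟨1, 0, 0⟩, ⟨3872, 1024, 0⟩, ⟨0, 0, 1024⟩⟩, 1024, ⟨377, 1048576, 1⟩⟩)))
    (.node 3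
    (.node 1
    (.leaf (.psd ⟨⟨⟨1024, 0, 0⟩, ⟨(-3156), 1, 0⟩, ⟨0, 0, 1⟩⟩, ⟨⟨1, 0, 0⟩, ⟨3156, 1024, 0⟩, ⟨0, 0, 1024⟩⟩, 1024, ⟨444, 1048576, 1⟩⟩))
    (.node 0
    (.leaf (.psd ⟨⟨⟨1024, 0, 0⟩, ⟨(-2695), 1, 0⟩, ⟨0, 0, 1⟩⟩, ⟨⟨1, 0, 0⟩, ⟨2695, 1024, 0⟩, ⟨0, 0, 1024⟩⟩, 1024, ⟨2, 4096, 1⟩⟩))
    (.leaf (.skip 8))))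
    (.node 0
    (.leaf (.psd ⟨⟨⟨1024, 0, 0⟩, ⟨(-2533), 1, 0⟩, ⟨0, 0, 1⟩⟩, ⟨⟨1, 0, 0⟩, ⟨2533, 1024, 0⟩, ⟨0, 0, 1024⟩⟩, 1024, ⟨573, 1048576, 1⟩⟩))
    (.node 1
    (.leaf (.psd ⟨⟨⟨1024, 0, 0⟩, ⟨(-2061), 1, 0⟩, ⟨0, 0, 1⟩⟩, ⟨⟨1, 0, 0⟩, ⟨2061, 1024, 0⟩, ⟨0, 0, 1024⟩⟩, 1024, ⟨712, 1048576, 1⟩⟩))
    (.leaf (.skip 8))))))))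
    (.node 3
    (.node 0
    (.node 1
    (.leaf (.psd ⟨⟨⟨1024, 0, 0⟩, ⟨(-4026), 1, 0⟩, ⟨0, 0, 1⟩⟩, ⟨⟨1, 0, 0⟩, ⟨4026, 1024, 0⟩, ⟨0, 0, 1024⟩⟩, 1024, ⟨1, 4096, 1⟩⟩))
    (.leaf (.psd ⟨⟨⟨1024, 0, 0⟩, ⟨(-2817), 1, 0⟩, ⟨0, 0, 1⟩⟩, ⟨⟨1, 0, 0⟩, ⟨2817, 1024, 0⟩, ⟨0, 0, 1024⟩⟩, 1024, ⟨473, 1048576, 1⟩⟩)))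
    (.node 1
    (.leaf (.psd ⟨⟨⟨1024, 0, 0⟩, ⟨(-2756), 1, 0⟩, ⟨0, 0, 1⟩⟩, ⟨⟨1, 0, 0⟩, ⟨2756, 1024, 0⟩, ⟨0, 0, 1024⟩⟩, 1024, ⟨492, 1048576, 1⟩⟩))
    (.node 0
    (.node 1
    (.leaf (.psd ⟨⟨⟨1024, 0, 0⟩, ⟨(-2147), 1, 0⟩, ⟨0, 0, 1⟩⟩, ⟨⟨1, 0, 0⟩, ⟨2147, 1024, 0⟩, ⟨0, 0, 1024⟩⟩, 1024, ⟨2, 4096, 1⟩⟩))
    (.leaf (.psd ⟨⟨⟨1024, 0, 0⟩, ⟨(-1512), 1, 0⟩, ⟨0, 0, 1⟩⟩, ⟨⟨1, 0, 0⟩, ⟨1512, 1024, 0⟩, ⟨0, 0, 1024⟩⟩, 1024, ⟨888, 1048576, 1⟩⟩)))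
    (.node 1
    (.leaf (.psd ⟨⟨⟨1024, 0, 0⟩, ⟨(-1505), 1, 0⟩, ⟨0, 0, 1⟩⟩, ⟨⟨1, 0, 0⟩, ⟨1505, 1024, 0⟩, ⟨0, 0, 1024⟩⟩, 1024, ⟨898, 1048576, 1⟩⟩))
    (.leaf (.skip 8))))))
    (.node 0
    (.node 1
    (.leaf (.psd ⟨⟨⟨1024, 0, 0⟩, ⟨(-3003), 1, 0⟩, ⟨0, 0, 1⟩⟩, ⟨⟨1, 0, 0⟩, ⟨3003, 1024, 0⟩, ⟨0, 0, 1024⟩⟩, 1024, ⟨463, 1048576, 1⟩⟩))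
    (.leaf (.psd ⟨⟨⟨1024, 0, 0⟩, ⟨(-2070), 1, 0⟩, ⟨0, 0, 1⟩⟩, ⟨⟨1, 0, 0⟩, ⟨2070, 1024, 0⟩, ⟨0, 0, 1024⟩⟩, 1024, ⟨681, 1048576, 1⟩⟩)))
    (.node 1
    (.leaf (.psd ⟨⟨⟨1024, 0, 0⟩, ⟨(-2058), 1, 0⟩, ⟨0, 0, 1⟩⟩, ⟨⟨1, 0, 0⟩, ⟨2058, 1024, 0⟩, ⟨0, 0, 1024⟩⟩, 1024, ⟨690, 1048576, 1⟩⟩))
    (.node 0
    (.node 1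
    (.leaf (.psd ⟨⟨⟨1024, 0, 0⟩, ⟨(-1585), 1, 0⟩, ⟨0, 0, 1⟩⟩, ⟨⟨1, 0, 0⟩, ⟨1585, 1024, 0⟩, ⟨0, 0, 1024⟩⟩, 1024, ⟨3, 4096, 1⟩⟩))
    (.leaf (.psd ⟨⟨⟨1024, 0, 0⟩, ⟨(-1108), 1, 0⟩, ⟨0, 0, 1⟩⟩, ⟨⟨1, 0, 0⟩, ⟨1108, 1024, 0⟩, ⟨0, 0, 1024⟩⟩, 1024, ⟨5, 4096, 1⟩⟩)))
    (.node 1
    (.leaf (.psd ⟨⟨⟨1024, 0, 0⟩, ⟨(-1110), 1, 0⟩, ⟨0, 0, 1⟩⟩, ⟨⟨1, 0, 0⟩, ⟨1110, 1024, 0⟩, ⟨0, 0, 1024⟩⟩, 1024, ⟨5, 4096, 1⟩⟩))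
    (.node 0
    (.leaf (.psd ⟨⟨⟨1024, 0, 0⟩, ⟨(-746), 1, 0⟩, ⟨0, 0, 1⟩⟩, ⟨⟨1, 0, 0⟩, ⟨746, 1024, 0⟩, ⟨0, 0, 1024⟩⟩, 1024, ⟨7, 4096, 1⟩⟩))
    (.leaf (.skip 8)))))))))
    (.node 3
    (.node 0
    (.node 1
    (.leaf (.psd ⟨⟨⟨1024, 0, 0⟩, ⟨(-2096), 1, 0⟩, ⟨0, 0, 1⟩⟩, ⟨⟨1, 0, 0⟩, ⟨2096, 1024, 0⟩, ⟨0, 0, 1024⟩⟩, 1024, ⟨617, 1048576, 1⟩⟩))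
    (.node 3
    (.leaf (.psd ⟨⟨⟨1024, 0, 0⟩, ⟨(-1621), 1, 0⟩, ⟨0, 0, 1⟩⟩, ⟨⟨1, 0, 0⟩, ⟨1621, 1024, 0⟩, ⟨0, 0, 1024⟩⟩, 1024, ⟨901, 1048576, 1⟩⟩))
    (.leaf (.psd ⟨⟨⟨1024, 0, 0⟩, ⟨(-1326), 1, 0⟩, ⟨0, 0, 1⟩⟩, ⟨⟨1, 0, 0⟩, ⟨1326, 1024, 0⟩, ⟨0, 0, 1024⟩⟩, 1024, ⟨4, 4096, 1⟩⟩))))
    (.node 1
    (.node 3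
    (.leaf (.psd ⟨⟨⟨1024, 0, 0⟩, ⟨(-1624), 1, 0⟩, ⟨0, 0, 1⟩⟩, ⟨⟨1, 0, 0⟩, ⟨1624, 1024, 0⟩, ⟨0, 0, 1024⟩⟩, 1024, ⟨904, 1048576, 1⟩⟩))
    (.leaf (.psd ⟨⟨⟨1024, 0, 0⟩, ⟨(-1333), 1, 0⟩, ⟨0, 0, 1⟩⟩, ⟨⟨1, 0, 0⟩, ⟨1333, 1024, 0⟩, ⟨0, 0, 1024⟩⟩, 1024, ⟨4, 4096, 1⟩⟩)))
    (.node 0
    (.node 1
    (.leaf (.psd ⟨⟨⟨1024, 0, 0⟩, ⟨(-1101), 1, 0⟩, ⟨0, 0, 1⟩⟩, ⟨⟨1, 0, 0⟩, ⟨1101, 1024, 0⟩, ⟨0, 0, 1024⟩⟩, 1024, ⟨4, 4096, 1⟩⟩))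
    (.node 3
    (.leaf (.psd ⟨⟨⟨1024, 0, 0⟩, ⟨(-868), 1, 0⟩, ⟨0, 0, 1⟩⟩, ⟨⟨1, 0, 0⟩, ⟨868, 1024, 0⟩, ⟨0, 0, 1024⟩⟩, 1024, ⟨6, 4096, 1⟩⟩))
    (.leaf (.psd ⟨⟨⟨1024, 0, 0⟩, ⟨(-711), 1, 0⟩, ⟨0, 0, 1⟩⟩, ⟨⟨1, 0, 0⟩, ⟨711, 1024, 0⟩, ⟨0, 0, 1024⟩⟩, 1024, ⟨8, 4096, 1⟩⟩))))
    (.node 1
    (.node 3
    (.leaf (.psd ⟨⟨⟨1024, 0, 0⟩, ⟨(-872), 1, 0⟩, ⟨0, 0, 1⟩⟩, ⟨⟨1, 0, 0⟩, ⟨872, 1024, 0⟩, ⟨0, 0, 1024⟩⟩, 1024, ⟨6, 4096, 1⟩⟩))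
    (.leaf (.psd ⟨⟨⟨1024, 0, 0⟩, ⟨(-715), 1, 0⟩, ⟨0, 0, 1⟩⟩, ⟨⟨1, 0, 0⟩, ⟨715, 1024, 0⟩, ⟨0, 0, 1024⟩⟩, 1024, ⟨8, 4096, 1⟩⟩)))
    (.node 0
    (.node 3
    (.leaf (.psd ⟨⟨⟨1024, 0, 0⟩, ⟨(-585), 1, 0⟩, ⟨0, 0, 1⟩⟩, ⟨⟨1, 0, 0⟩, ⟨585, 1024, 0⟩, ⟨0, 0, 1024⟩⟩, 1024, ⟨9, 4096, 1⟩⟩))
    (.leaf (.psd ⟨⟨⟨1024, 0, 0⟩, ⟨(-480), 1, 0⟩, ⟨0, 0, 1⟩⟩, ⟨⟨1, 0, 0⟩, ⟨480, 1024, 0⟩, ⟨0, 0, 1024⟩⟩, 1024, ⟨11, 4096, 1⟩⟩)))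
    (.leaf (.skip 8)))))))
    (.node 0
    (.node 1
    (.leaf (.psd ⟨⟨⟨1024, 0, 0⟩, ⟨(-1504), 1, 0⟩, ⟨0, 0, 1⟩⟩, ⟨⟨1, 0, 0⟩, ⟨1504, 1024, 0⟩, ⟨0, 0, 1024⟩⟩, 1024, ⟨3, 4096, 1⟩⟩))
    (.leaf (.psd ⟨⟨⟨1024, 0, 0⟩, ⟨(-1027), 1, 0⟩, ⟨0, 0, 1⟩⟩, ⟨⟨1, 0, 0⟩, ⟨1027, 1024, 0⟩, ⟨0, 0, 1024⟩⟩, 1024, ⟨1339, 1048576, 1⟩⟩)))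
    (.node 1
    (.leaf (.psd ⟨⟨⟨1024, 0, 0⟩, ⟨(-1035), 1, 0⟩, ⟨0, 0, 1⟩⟩, ⟨⟨1, 0, 0⟩, ⟨1035, 1024, 0⟩, ⟨0, 0, 1024⟩⟩, 1024, ⟨5, 4096, 1⟩⟩))
    (.node 0
    (.node 1
    (.leaf (.psd ⟨⟨⟨1024, 0, 0⟩, ⟨(-791), 1, 0⟩, ⟨0, 0, 1⟩⟩, ⟨⟨1, 0, 0⟩, ⟨791, 1024, 0⟩, ⟨0, 0, 1024⟩⟩, 1024, ⟨7, 4096, 1⟩⟩))
    (.leaf (.psd ⟨⟨⟨1024, 0, 0⟩, ⟨(-551), 1, 0⟩, ⟨0, 0, 1⟩⟩, ⟨⟨1, 0, 0⟩, ⟨551, 1024, 0⟩, ⟨0, 0, 1024⟩⟩, 1024, ⟨9, 4096, 1⟩⟩)))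
    (.node 1
    (.leaf (.psd ⟨⟨⟨1024, 0, 0⟩, ⟨(-555), 1, 0⟩, ⟨0, 0, 1⟩⟩, ⟨⟨1, 0, 0⟩, ⟨555, 1024, 0⟩, ⟨0, 0, 1024⟩⟩, 1024, ⟨9, 4096, 1⟩⟩))
    (.node 0
    (.leaf (.psd ⟨⟨⟨1024, 0, 0⟩, ⟨(-373), 1, 0⟩, ⟨0, 0, 1⟩⟩, ⟨⟨1, 0, 0⟩, ⟨373, 1024, 0⟩, ⟨0, 0, 1024⟩⟩, 1024, ⟨13, 4096, 1⟩⟩))
    (.leaf (.skip 8)))))))))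
    (.node 3
    (.node 0
    (.node 1
    (.node 3
    (.node 3
    (.node 3
    (.node 1
    (.leaf (.psd ⟨⟨⟨1024, 0, 0⟩, ⟨(-5457), 1, 0⟩, ⟨0, 0, 1⟩⟩, ⟨⟨1, 0, 0⟩, ⟨5457, 1024, 0⟩, ⟨0, 0, 1024⟩⟩, 1024, ⟨165, 1048576, 1⟩⟩))
    (.node 0
    (.leaf (.psd ⟨⟨⟨1024, 0, 0⟩, ⟨(-5169), 1, 0⟩, ⟨0, 0, 1⟩⟩, ⟨⟨1, 0, 0⟩, ⟨5169, 1024, 0⟩, ⟨0, 0, 1024⟩⟩, 1024, ⟨169, 1048576, 1⟩⟩))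
    (.leaf (.skip 8))))
    (.node 0
    (.leaf (.psd ⟨⟨⟨1024, 0, 0⟩, ⟨(-4742), 1, 0⟩, ⟨0, 0, 1⟩⟩, ⟨⟨1, 0, 0⟩, ⟨4742, 1024, 0⟩, ⟨0, 0, 1024⟩⟩, 1024, ⟨305, 1048576, 1⟩⟩))
    (.node 1
    (.leaf (.psd ⟨⟨⟨1024, 0, 0⟩, ⟨(-3760), 1, 0⟩, ⟨0, 0, 1⟩⟩, ⟨⟨1, 0, 0⟩, ⟨3760, 1024, 0⟩, ⟨0, 0, 1024⟩⟩, 1024, ⟨372, 1048576, 1⟩⟩))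
    (.leaf (.skip 8)))))
    (.node 3
    (.node 0
    (.leaf (.psd ⟨⟨⟨1024, 0, 0⟩, ⟨(-3461), 1, 0⟩, ⟨0, 0, 1⟩⟩, ⟨⟨1, 0, 0⟩, ⟨3461, 1024, 0⟩, ⟨0, 0, 1024⟩⟩, 1024, ⟨405, 1048576, 1⟩⟩))
    (.node 1
    (.leaf (.psd ⟨⟨⟨1024, 0, 0⟩, ⟨(-2792), 1, 0⟩, ⟨0, 0, 1⟩⟩, ⟨⟨1, 0, 0⟩, ⟨2792, 1024, 0⟩, ⟨0, 0, 1024⟩⟩, 1024, ⟨506, 1048576, 1⟩⟩))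
    (.leaf (.skip 8))))
    (.node 0
    (.leaf (.psd ⟨⟨⟨1024, 0, 0⟩, ⟨(-2631), 1, 0⟩, ⟨0, 0, 1⟩⟩, ⟨⟨1, 0, 0⟩, ⟨2631, 1024, 0⟩, ⟨0, 0, 1024⟩⟩, 1024, ⟨541, 1048576, 1⟩⟩))
    (.node 1
    (.leaf (.psd ⟨⟨⟨1024, 0, 0⟩, ⟨(-2137), 1, 0⟩, ⟨0, 0, 1⟩⟩, ⟨⟨1, 0, 0⟩, ⟨2137, 1024, 0⟩, ⟨0, 0, 1024⟩⟩, 1024, ⟨687, 1048576, 1⟩⟩))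
    (.leaf (.skip 8))))))
    (.node 3
    (.node 0
    (.node 1
    (.leaf (.psd ⟨⟨⟨1024, 0, 0⟩, ⟨(-2184), 1, 0⟩, ⟨0, 0, 1⟩⟩, ⟨⟨1, 0, 0⟩, ⟨2184, 1024, 0⟩, ⟨0, 0, 1024⟩⟩, 1024, ⟨2, 4096, 1⟩⟩))
    (.node 3
    (.leaf (.psd ⟨⟨⟨1024, 0, 0⟩, ⟨(-1726), 1, 0⟩, ⟨0, 0, 1⟩⟩, ⟨⟨1, 0, 0⟩, ⟨1726, 1024, 0⟩, ⟨0, 0, 1024⟩⟩, 1024, ⟨3, 4096, 1⟩⟩))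
    (.leaf (.psd ⟨⟨⟨1024, 0, 0⟩, ⟨(-1424), 1, 0⟩, ⟨0, 0, 1⟩⟩, ⟨⟨1, 0, 0⟩, ⟨1424, 1024, 0⟩, ⟨0, 0, 1024⟩⟩, 1024, ⟨4, 4096, 1⟩⟩))))
    (.node 1
    (.node 3
    (.leaf (.psd ⟨⟨⟨1024, 0, 0⟩, ⟨(-1708), 1, 0⟩, ⟨0, 0, 1⟩⟩, ⟨⟨1, 0, 0⟩, ⟨1708, 1024, 0⟩, ⟨0, 0, 1024⟩⟩, 1024, ⟨3, 4096, 1⟩⟩))
    (.leaf (.psd ⟨⟨⟨1024, 0, 0⟩, ⟨(-1415), 1, 0⟩, ⟨0, 0, 1⟩⟩, ⟨⟨1, 0, 0⟩, ⟨1415, 1024, 0⟩, ⟨0, 0, 1024⟩⟩, 1024, ⟨4, 4096, 1⟩⟩)))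
    (.leaf (.skip 8))))
    (.node 0
    (.node 1
    (.leaf (.psd ⟨⟨⟨1024, 0, 0⟩, ⟨(-1592), 1, 0⟩, ⟨0, 0, 1⟩⟩, ⟨⟨1, 0, 0⟩, ⟨1592, 1024, 0⟩, ⟨0, 0, 1024⟩⟩, 1024, ⟨3, 4096, 1⟩⟩))
    (.leaf (.psd ⟨⟨⟨1024, 0, 0⟩, ⟨(-1113), 1, 0⟩, ⟨0, 0, 1⟩⟩, ⟨⟨1, 0, 0⟩, ⟨1113, 1024, 0⟩, ⟨0, 0, 1024⟩⟩, 1024, ⟨5, 4096, 1⟩⟩)))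
    (.node 1
    (.leaf (.psd ⟨⟨⟨1024, 0, 0⟩, ⟨(-1109), 1, 0⟩, ⟨0, 0, 1⟩⟩, ⟨⟨1, 0, 0⟩, ⟨1109, 1024, 0⟩, ⟨0, 0, 1024⟩⟩, 1024, ⟨5, 4096, 1⟩⟩))
    (.node 0
    (.leaf (.psd ⟨⟨⟨1024, 0, 0⟩, ⟨(-746), 1, 0⟩, ⟨0, 0, 1⟩⟩, ⟨⟨1, 0, 0⟩, ⟨746, 1024, 0⟩, ⟨0, 0, 1024⟩⟩, 1024, ⟨1838, 1048576, 1⟩⟩))
    (.leaf (.skip 8)))))))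
    (.node 3
    (.leaf (.skip 8))
    (.node 0
    (.node 1
    (.node 3
    (.leaf (.skip 8))
    (.node 0
    (.leaf (.psd ⟨⟨⟨1024, 0, 0⟩, ⟨(-751), 1, 0⟩, ⟨0, 0, 1⟩⟩, ⟨⟨1, 0, 0⟩, ⟨751, 1024, 0⟩, ⟨0, 0, 1024⟩⟩, 1024, ⟨1827, 1048576, 1⟩⟩))
    (.leaf (.skip 8))))
    (.leaf (.skip 8)))
    (.leaf (.skip 8)))))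
    (.node 3
    (.leaf (.skip 8))
    (.node 1
    (.node 0
    (.node 1
    (.node 3
    (.leaf (.skip 8))
    (.node 0
    (.leaf (.psd ⟨⟨⟨1024, 0, 0⟩, ⟨(-744), 1, 0⟩, ⟨0, 0, 1⟩⟩, ⟨⟨1, 0, 0⟩, ⟨744, 1024, 0⟩, ⟨0, 0, 1024⟩⟩, 1024, ⟨1843, 1048576, 1⟩⟩))
    (.leaf (.skip 8))))
    (.leaf (.skip 8)))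
    (.leaf (.skip 8)))
    (.leaf (.skip 6)))))
    (.node 0
    (.node 1
    (.node 3
    (.node 0
    (.node 1
    (.leaf (.psd ⟨⟨⟨1024, 0, 0⟩, ⟨(-1099), 1, 0⟩, ⟨0, 0, 1⟩⟩, ⟨⟨1, 0, 0⟩, ⟨1099, 1024, 0⟩, ⟨0, 0, 1024⟩⟩, 1024, ⟨1208, 1048576, 1⟩⟩))
    (.node 3
    (.leaf (.psd ⟨⟨⟨1024, 0, 0⟩, ⟨(-868), 1, 0⟩, ⟨0, 0, 1⟩⟩, ⟨⟨1, 0, 0⟩, ⟨868, 1024, 0⟩, ⟨0, 0, 1024⟩⟩, 1024, ⟨6, 4096, 1⟩⟩))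
    (.leaf (.psd ⟨⟨⟨1024, 0, 0⟩, ⟨(-709), 1, 0⟩, ⟨0, 0, 1⟩⟩, ⟨⟨1, 0, 0⟩, ⟨709, 1024, 0⟩, ⟨0, 0, 1024⟩⟩, 1024, ⟨8, 4096, 1⟩⟩))))
    (.node 1
    (.node 3
    (.leaf (.psd ⟨⟨⟨1024, 0, 0⟩, ⟨(-866), 1, 0⟩, ⟨0, 0, 1⟩⟩, ⟨⟨1, 0, 0⟩, ⟨866, 1024, 0⟩, ⟨0, 0, 1024⟩⟩, 1024, ⟨6, 4096, 1⟩⟩))
    (.leaf (.psd ⟨⟨⟨1024, 0, 0⟩, ⟨(-709), 1, 0⟩, ⟨0, 0, 1⟩⟩, ⟨⟨1, 0, 0⟩, ⟨709, 1024, 0⟩, ⟨0, 0, 1024⟩⟩, 1024, ⟨8, 4096, 1⟩⟩)))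
    (.node 0
    (.node 3
    (.leaf (.psd ⟨⟨⟨1024, 0, 0⟩, ⟨(-582), 1, 0⟩, ⟨0, 0, 1⟩⟩, ⟨⟨1, 0, 0⟩, ⟨582, 1024, 0⟩, ⟨0, 0, 1024⟩⟩, 1024, ⟨9, 4096, 1⟩⟩))
    (.leaf (.psd ⟨⟨⟨1024, 0, 0⟩, ⟨(-476), 1, 0⟩, ⟨0, 0, 1⟩⟩, ⟨⟨1, 0, 0⟩, ⟨476, 1024, 0⟩, ⟨0, 0, 1024⟩⟩, 1024, ⟨11, 4096, 1⟩⟩)))
    (.leaf (.skip 8)))))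
    (.node 0
    (.node 1
    (.leaf (.psd ⟨⟨⟨1024, 0, 0⟩, ⟨(-787), 1, 0⟩, ⟨0, 0, 1⟩⟩, ⟨⟨1, 0, 0⟩, ⟨787, 1024, 0⟩, ⟨0, 0, 1024⟩⟩, 1024, ⟨7, 4096, 1⟩⟩))
    (.leaf (.psd ⟨⟨⟨1024, 0, 0⟩, ⟨(-549), 1, 0⟩, ⟨0, 0, 1⟩⟩, ⟨⟨1, 0, 0⟩, ⟨549, 1024, 0⟩, ⟨0, 0, 1024⟩⟩, 1024, ⟨9, 4096, 1⟩⟩)))
    (.node 1
    (.leaf (.psd ⟨⟨⟨1024, 0, 0⟩, ⟨(-549), 1, 0⟩, ⟨0, 0, 1⟩⟩, ⟨⟨1, 0, 0⟩, ⟨549, 1024, 0⟩, ⟨0, 0, 1024⟩⟩, 1024, ⟨9, 4096, 1⟩⟩))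
    (.node 0
    (.leaf (.psd ⟨⟨⟨1024, 0, 0⟩, ⟨(-369), 1, 0⟩, ⟨0, 0, 1⟩⟩, ⟨⟨1, 0, 0⟩, ⟨369, 1024, 0⟩, ⟨0, 0, 1024⟩⟩, 1024, ⟨3519, 1048576, 1⟩⟩))
    (.leaf (.skip 8))))))
    (.node 0
    (.node 1
    (.node 3
    (.node 0
    (.node 3
    (.leaf (.psd ⟨⟨⟨1024, 0, 0⟩, ⟨(-586), 1, 0⟩, ⟨0, 0, 1⟩⟩, ⟨⟨1, 0, 0⟩, ⟨586, 1024, 0⟩, ⟨0, 0, 1024⟩⟩, 1024, ⟨9, 4096, 1⟩⟩))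
    (.leaf (.psd ⟨⟨⟨1024, 0, 0⟩, ⟨(-479), 1, 0⟩, ⟨0, 0, 1⟩⟩, ⟨⟨1, 0, 0⟩, ⟨479, 1024, 0⟩, ⟨0, 0, 1024⟩⟩, 1024, ⟨11, 4096, 1⟩⟩)))
    (.leaf (.skip 8)))
    (.node 0
    (.leaf (.psd ⟨⟨⟨1024, 0, 0⟩, ⟨(-371), 1, 0⟩, ⟨0, 0, 1⟩⟩, ⟨⟨1, 0, 0⟩, ⟨371, 1024, 0⟩, ⟨0, 0, 1024⟩⟩, 1024, ⟨13, 4096, 1⟩⟩))
    (.leaf (.skip 8))))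
    (.leaf (.skip 8)))
    (.leaf (.skip 8))))
    (.node 1
    (.node 0
    (.node 1
    (.node 3
    (.node 0
    (.node 3
    (.leaf (.psd ⟨⟨⟨1024, 0, 0⟩, ⟨(-582), 1, 0⟩, ⟨0, 0, 1⟩⟩, ⟨⟨1, 0, 0⟩, ⟨582, 1024, 0⟩, ⟨0, 0, 1024⟩⟩, 1024, ⟨9, 4096, 1⟩⟩))
    (.leaf (.psd ⟨⟨⟨1024, 0, 0⟩, ⟨(-477), 1, 0⟩, ⟨0, 0, 1⟩⟩, ⟨⟨1, 0, 0⟩, ⟨477, 1024, 0⟩, ⟨0, 0, 1024⟩⟩, 1024, ⟨11, 4096, 1⟩⟩)))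
    (.leaf (.skip 8)))
    (.node 0
    (.leaf (.psd ⟨⟨⟨1024, 0, 0⟩, ⟨(-370), 1, 0⟩, ⟨0, 0, 1⟩⟩, ⟨⟨1, 0, 0⟩, ⟨370, 1024, 0⟩, ⟨0, 0, 1024⟩⟩, 1024, ⟨3520, 1048576, 1⟩⟩))
    (.leaf (.skip 8))))
    (.leaf (.skip 8)))
    (.leaf (.skip 8)))
    (.leaf (.skip 6)))))

theorem chunk21 : Check.Good ⟨false, false, false⟩ cfg (reach cfg base [(0, false), (0, false), (1, false), (3, false), (3, false), (1, true), (0, true), (0, true), (1, true), (3, false), (3, false), (0, true), (1, true), (0, true)]) :=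
  Check.check_sound tree21 (by decide +kernel)

/-- A subtree. -/
def tree22 : Check.Tree Check.Leaf :=
  .node 3
    (.node 1
    (.node 1
    (.node 0
    (.node 3
    (.node 3
    (.node 3
    (.node 1
    (.leaf (.psd ⟨⟨⟨1024, 0, 0⟩, ⟨(-2665), 1, 0⟩, ⟨0, 0, 1⟩⟩, ⟨⟨1, 0, 0⟩, ⟨2665, 1024, 0⟩, ⟨0, 0, 1024⟩⟩, 1024, ⟨1, 4096, 1⟩⟩))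
    (.node 0
    (.leaf (.psd ⟨⟨⟨1024, 0, 0⟩, ⟨(-2479), 1, 0⟩, ⟨0, 0, 1⟩⟩, ⟨⟨1, 0, 0⟩, ⟨2479, 1024, 0⟩, ⟨0, 0, 1024⟩⟩, 1024, ⟨1, 4096, 1⟩⟩))
    (.leaf (.skip 8))))
    (.node 1
    (.leaf (.psd ⟨⟨⟨1024, 0, 0⟩, ⟨(-3181), 1, 0⟩, ⟨0, 0, 1⟩⟩, ⟨⟨1, 0, 0⟩, ⟨3181, 1024, 0⟩, ⟨0, 0, 1024⟩⟩, 1024, ⟨1, 4096, 1⟩⟩))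
    (.node 0
    (.leaf (.psd ⟨⟨⟨1024, 0, 0⟩, ⟨(-2878), 1, 0⟩, ⟨0, 0, 1⟩⟩, ⟨⟨1, 0, 0⟩, ⟨2878, 1024, 0⟩, ⟨0, 0, 1024⟩⟩, 1024, ⟨1, 4096, 1⟩⟩))
    (.leaf (.skip 8)))))
    (.node 3
    (.node 1
    (.leaf (.psd ⟨⟨⟨1024, 0, 0⟩, ⟨(-2856), 1, 0⟩, ⟨0, 0, 1⟩⟩, ⟨⟨1, 0, 0⟩, ⟨2856, 1024, 0⟩, ⟨0, 0, 1024⟩⟩, 1024, ⟨492, 1048576, 1⟩⟩))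
    (.node 0
    (.leaf (.psd ⟨⟨⟨1024, 0, 0⟩, ⟨(-2474), 1, 0⟩, ⟨0, 0, 1⟩⟩, ⟨⟨1, 0, 0⟩, ⟨2474, 1024, 0⟩, ⟨0, 0, 1024⟩⟩, 1024, ⟨2, 4096, 1⟩⟩))
    (.leaf (.skip 8))))
    (.node 1
    (.leaf (.psd ⟨⟨⟨1024, 0, 0⟩, ⟨(-2390), 1, 0⟩, ⟨0, 0, 1⟩⟩, ⟨⟨1, 0, 0⟩, ⟨2390, 1024, 0⟩, ⟨0, 0, 1024⟩⟩, 1024, ⟨2, 4096, 1⟩⟩))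
    (.node 0
    (.leaf (.psd ⟨⟨⟨1024, 0, 0⟩, ⟨(-2018), 1, 0⟩, ⟨0, 0, 1⟩⟩, ⟨⟨1, 0, 0⟩, ⟨2018, 1024, 0⟩, ⟨0, 0, 1024⟩⟩, 1024, ⟨724, 1048576, 1⟩⟩))
    (.leaf (.skip 8))))))
    (.node 3
    (.node 1
    (.node 0
    (.leaf (.psd ⟨⟨⟨1024, 0, 0⟩, ⟨(-2109), 1, 0⟩, ⟨0, 0, 1⟩⟩, ⟨⟨1, 0, 0⟩, ⟨2109, 1024, 0⟩, ⟨0, 0, 1024⟩⟩, 1024, ⟨2, 4096, 1⟩⟩))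
    (.leaf (.psd ⟨⟨⟨1024, 0, 0⟩, ⟨(-1492), 1, 0⟩, ⟨0, 0, 1⟩⟩, ⟨⟨1, 0, 0⟩, ⟨1492, 1024, 0⟩, ⟨0, 0, 1024⟩⟩, 1024, ⟨915, 1048576, 1⟩⟩)))
    (.node 0
    (.leaf (.psd ⟨⟨⟨1024, 0, 0⟩, ⟨(-1498), 1, 0⟩, ⟨0, 0, 1⟩⟩, ⟨⟨1, 0, 0⟩, ⟨1498, 1024, 0⟩, ⟨0, 0, 1024⟩⟩, 1024, ⟨906, 1048576, 1⟩⟩))
    (.leaf (.skip 8))))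
    (.node 1
    (.leaf (.psd ⟨⟨⟨1024, 0, 0⟩, ⟨(-1357), 1, 0⟩, ⟨0, 0, 1⟩⟩, ⟨⟨1, 0, 0⟩, ⟨1357, 1024, 0⟩, ⟨0, 0, 1024⟩⟩, 1024, ⟨1013, 1048576, 1⟩⟩))
    (.node 0
    (.leaf (.psd ⟨⟨⟨1024, 0, 0⟩, ⟨(-1114), 1, 0⟩, ⟨0, 0, 1⟩⟩, ⟨⟨1, 0, 0⟩, ⟨1114, 1024, 0⟩, ⟨0, 0, 1024⟩⟩, 1024, ⟨5, 4096, 1⟩⟩))
    (.node 1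
    (.leaf (.psd ⟨⟨⟨1024, 0, 0⟩, ⟨(-762), 1, 0⟩, ⟨0, 0, 1⟩⟩, ⟨⟨1, 0, 0⟩, ⟨762, 1024, 0⟩, ⟨0, 0, 1024⟩⟩, 1024, ⟨7, 4096, 1⟩⟩))
    (.leaf (.skip 8)))))))
    (.node 3
    (.leaf (.skip 8))
    (.node 1
    (.node 0
    (.node 3
    (.leaf (.skip 8))
    (.node 1
    (.leaf (.psd ⟨⟨⟨1024, 0, 0⟩, ⟨(-773), 1, 0⟩, ⟨0, 0, 1⟩⟩, ⟨⟨1, 0, 0⟩, ⟨773, 1024, 0⟩, ⟨0, 0, 1024⟩⟩, 1024, ⟨7, 4096, 1⟩⟩))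
    (.leaf (.skip 8))))
    (.leaf (.skip 8)))
    (.leaf (.skip 8)))))
    (.node 3
    (.leaf (.skip 8))
    (.node 0
    (.node 1
    (.node 0
    (.node 3
    (.leaf (.skip 8))
    (.node 1
    (.leaf (.psd ⟨⟨⟨1024, 0, 0⟩, ⟨(-753), 1, 0⟩, ⟨0, 0, 1⟩⟩, ⟨⟨1, 0, 0⟩, ⟨753, 1024, 0⟩, ⟨0, 0, 1024⟩⟩, 1024, ⟨7, 4096, 1⟩⟩))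
    (.leaf (.skip 8))))
    (.leaf (.skip 8)))
    (.leaf (.skip 8)))
    (.leaf (.skip 6)))))
    (.leaf (.skip 6)))
    (.node 1
    (.node 1
    (.node 0
    (.node 3
    (.node 1
    (.node 0
    (.leaf (.psd ⟨⟨⟨1024, 0, 0⟩, ⟨(-1113), 1, 0⟩, ⟨0, 0, 1⟩⟩, ⟨⟨1, 0, 0⟩, ⟨1113, 1024, 0⟩, ⟨0, 0, 1024⟩⟩, 1024, ⟨4, 4096, 1⟩⟩))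
    (.leaf (.psd ⟨⟨⟨1024, 0, 0⟩, ⟨(-787), 1, 0⟩, ⟨0, 0, 1⟩⟩, ⟨⟨1, 0, 0⟩, ⟨787, 1024, 0⟩, ⟨0, 0, 1024⟩⟩, 1024, ⟨1656, 1048576, 1⟩⟩)))
    (.node 0
    (.node 3
    (.leaf (.psd ⟨⟨⟨1024, 0, 0⟩, ⟨(-878), 1, 0⟩, ⟨0, 0, 1⟩⟩, ⟨⟨1, 0, 0⟩, ⟨878, 1024, 0⟩, ⟨0, 0, 1024⟩⟩, 1024, ⟨6, 4096, 1⟩⟩))
    (.leaf (.psd ⟨⟨⟨1024, 0, 0⟩, ⟨(-722), 1, 0⟩, ⟨0, 0, 1⟩⟩, ⟨⟨1, 0, 0⟩, ⟨722, 1024, 0⟩, ⟨0, 0, 1024⟩⟩, 1024, ⟨8, 4096, 1⟩⟩)))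
    (.node 1
    (.node 3
    (.leaf (.psd ⟨⟨⟨1024, 0, 0⟩, ⟨(-602), 1, 0⟩, ⟨0, 0, 1⟩⟩, ⟨⟨1, 0, 0⟩, ⟨602, 1024, 0⟩, ⟨0, 0, 1024⟩⟩, 1024, ⟨9, 4096, 1⟩⟩))
    (.leaf (.psd ⟨⟨⟨1024, 0, 0⟩, ⟨(-496), 1, 0⟩, ⟨0, 0, 1⟩⟩, ⟨⟨1, 0, 0⟩, ⟨496, 1024, 0⟩, ⟨0, 0, 1024⟩⟩, 1024, ⟨11, 4096, 1⟩⟩)))
    (.leaf (.skip 8)))))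
    (.node 1
    (.node 0
    (.leaf (.psd ⟨⟨⟨1024, 0, 0⟩, ⟨(-803), 1, 0⟩, ⟨0, 0, 1⟩⟩, ⟨⟨1, 0, 0⟩, ⟨803, 1024, 0⟩, ⟨0, 0, 1024⟩⟩, 1024, ⟨6, 4096, 1⟩⟩))
    (.leaf (.psd ⟨⟨⟨1024, 0, 0⟩, ⟨(-569), 1, 0⟩, ⟨0, 0, 1⟩⟩, ⟨⟨1, 0, 0⟩, ⟨569, 1024, 0⟩, ⟨0, 0, 1024⟩⟩, 1024, ⟨9, 4096, 1⟩⟩)))
    (.node 0
    (.leaf (.psd ⟨⟨⟨1024, 0, 0⟩, ⟨(-561), 1, 0⟩, ⟨0, 0, 1⟩⟩, ⟨⟨1, 0, 0⟩, ⟨561, 1024, 0⟩, ⟨0, 0, 1024⟩⟩, 1024, ⟨9, 4096, 1⟩⟩))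
    (.node 1
    (.leaf (.psd ⟨⟨⟨1024, 0, 0⟩, ⟨(-386), 1, 0⟩, ⟨0, 0, 1⟩⟩, ⟨⟨1, 0, 0⟩, ⟨386, 1024, 0⟩, ⟨0, 0, 1024⟩⟩, 1024, ⟨13, 4096, 1⟩⟩))
    (.leaf (.skip 8))))))
    (.node 1
    (.node 0
    (.node 3
    (.node 1
    (.node 0
    (.leaf (.psd ⟨⟨⟨1024, 0, 0⟩, ⟨(-626), 1, 0⟩, ⟨0, 0, 1⟩⟩, ⟨⟨1, 0, 0⟩, ⟨626, 1024, 0⟩, ⟨0, 0, 1024⟩⟩, 1024, ⟨8, 4096, 1⟩⟩))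
    (.leaf (.skip 8)))
    (.leaf (.skip 8)))
    (.node 1
    (.leaf (.psd ⟨⟨⟨1024, 0, 0⟩, ⟨(-396), 1, 0⟩, ⟨0, 0, 1⟩⟩, ⟨⟨1, 0, 0⟩, ⟨396, 1024, 0⟩, ⟨0, 0, 1024⟩⟩, 1024, ⟨13, 4096, 1⟩⟩))
    (.leaf (.skip 8))))
    (.leaf (.skip 8)))
    (.leaf (.skip 8))))
    (.node 0
    (.node 1
    (.node 0
    (.node 3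
    (.node 1
    (.node 3
    (.leaf (.psd ⟨⟨⟨1024, 0, 0⟩, ⟨(-593), 1, 0⟩, ⟨0, 0, 1⟩⟩, ⟨⟨1, 0, 0⟩, ⟨593, 1024, 0⟩, ⟨0, 0, 1024⟩⟩, 1024, ⟨9, 4096, 1⟩⟩))
    (.leaf (.psd ⟨⟨⟨1024, 0, 0⟩, ⟨(-487), 1, 0⟩, ⟨0, 0, 1⟩⟩, ⟨⟨1, 0, 0⟩, ⟨487, 1024, 0⟩, ⟨0, 0, 1024⟩⟩, 1024, ⟨11, 4096, 1⟩⟩)))
    (.leaf (.skip 8)))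
    (.node 1
    (.leaf (.psd ⟨⟨⟨1024, 0, 0⟩, ⟨(-379), 1, 0⟩, ⟨0, 0, 1⟩⟩, ⟨⟨1, 0, 0⟩, ⟨379, 1024, 0⟩, ⟨0, 0, 1024⟩⟩, 1024, ⟨13, 4096, 1⟩⟩))
    (.leaf (.skip 8))))
    (.leaf (.skip 8)))
    (.leaf (.skip 8)))
    (.leaf (.skip 6))))
    (.leaf (.skip 6)))

theorem chunk22 : Check.Good ⟨false, false, false⟩ cfg (reach cfg base [(0, true), (0, false), (1, false), (3, false), (3, false), (1, true), (0, true), (0, true), (1, true), (3, false), (3, false), (0, true), (1, true), (0, true)]) :=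
  Check.check_sound tree22 (by decide +kernel)

/-- A subtree. -/
def tree23 : Check.Tree Check.Leaf :=
  .leaf (.skip 6)

theorem chunk23 : Check.Good ⟨false, false, false⟩ cfg (reach cfg base [(0, true), (1, false), (3, false), (3, false), (1, true), (0, true), (0, true), (1, true), (3, false), (3, false), (0, true), (1, true), (0, true)]) :=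
  Check.check_sound tree23 (by decide +kernel)

/-- A subtree. -/
def tree24 : Check.Tree Check.Leaf :=
  .leaf (.skip 6)

theorem chunk24 : Check.Good ⟨false, false, false⟩ cfg (reach cfg base [(1, true), (3, false), (3, false), (1, true), (0, true), (0, true), (1, true), (3, false), (3, false), (0, true), (1, true), (0, true)]) :=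
  Check.check_sound tree24 (by decide +kernel)

/-- A subtree. -/
def tree25 : Check.Tree Check.Leaf :=
  .node 0
    (.node 1
    (.node 1
    (.node 0
    (.node 3
    (.node 0
    (.node 1
    (.leaf (.psd ⟨⟨⟨1024, 0, 0⟩, ⟨(-1022), 1, 0⟩, ⟨0, 0, 1⟩⟩, ⟨⟨1, 0, 0⟩, ⟨1022, 1024, 0⟩, ⟨0, 0, 1024⟩⟩, 1024, ⟨1237, 1048576, 1⟩⟩))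
    (.node 3
    (.leaf (.psd ⟨⟨⟨1024, 0, 0⟩, ⟨(-794), 1, 0⟩, ⟨0, 0, 1⟩⟩, ⟨⟨1, 0, 0⟩, ⟨794, 1024, 0⟩, ⟨0, 0, 1024⟩⟩, 1024, ⟨7, 4096, 1⟩⟩))
    (.leaf (.psd ⟨⟨⟨1024, 0, 0⟩, ⟨(-644), 1, 0⟩, ⟨0, 0, 1⟩⟩, ⟨⟨1, 0, 0⟩, ⟨644, 1024, 0⟩, ⟨0, 0, 1024⟩⟩, 1024, ⟨8, 4096, 1⟩⟩))))
    (.node 1
    (.node 3
    (.leaf (.psd ⟨⟨⟨1024, 0, 0⟩, ⟨(-801), 1, 0⟩, ⟨0, 0, 1⟩⟩, ⟨⟨1, 0, 0⟩, ⟨801, 1024, 0⟩, ⟨0, 0, 1024⟩⟩, 1024, ⟨1788, 1048576, 1⟩⟩))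
    (.leaf (.psd ⟨⟨⟨1024, 0, 0⟩, ⟨(-650), 1, 0⟩, ⟨0, 0, 1⟩⟩, ⟨⟨1, 0, 0⟩, ⟨650, 1024, 0⟩, ⟨0, 0, 1024⟩⟩, 1024, ⟨8, 4096, 1⟩⟩)))
    (.node 0
    (.node 1
    (.leaf (.psd ⟨⟨⟨1024, 0, 0⟩, ⟨(-539), 1, 0⟩, ⟨0, 0, 1⟩⟩, ⟨⟨1, 0, 0⟩, ⟨539, 1024, 0⟩, ⟨0, 0, 1024⟩⟩, 1024, ⟨9, 4096, 1⟩⟩))
    (.leaf (.psd ⟨⟨⟨1024, 0, 0⟩, ⟨(-376), 1, 0⟩, ⟨0, 0, 1⟩⟩, ⟨⟨1, 0, 0⟩, ⟨376, 1024, 0⟩, ⟨0, 0, 1024⟩⟩, 1024, ⟨3217, 1048576, 1⟩⟩)))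
    (.node 1
    (.leaf (.psd ⟨⟨⟨1024, 0, 0⟩, ⟨(-379), 1, 0⟩, ⟨0, 0, 1⟩⟩, ⟨⟨1, 0, 0⟩, ⟨379, 1024, 0⟩, ⟨0, 0, 1024⟩⟩, 1024, ⟨3202, 1048576, 1⟩⟩))
    (.node 0
    (.leaf (.psd ⟨⟨⟨1024, 0, 0⟩, ⟨(-255), 1, 0⟩, ⟨0, 0, 1⟩⟩, ⟨⟨1, 0, 0⟩, ⟨255, 1024, 0⟩, ⟨0, 0, 1024⟩⟩, 1024, ⟨4457, 1048576, 1⟩⟩))
    (.node 1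
    (.leaf (.psd ⟨⟨⟨1024, 0, 0⟩, ⟨(-215), 1, 0⟩, ⟨0, 0, 1⟩⟩, ⟨⟨1, 0, 0⟩, ⟨215, 1024, 0⟩, ⟨0, 0, 1024⟩⟩, 1024, ⟨20, 4096, 1⟩⟩))
    (.leaf (.skip 8))))))))
    (.node 0
    (.node 1
    (.leaf (.psd ⟨⟨⟨1024, 0, 0⟩, ⟨(-721), 1, 0⟩, ⟨0, 0, 1⟩⟩, ⟨⟨1, 0, 0⟩, ⟨721, 1024, 0⟩, ⟨0, 0, 1024⟩⟩, 1024, ⟨7, 4096, 1⟩⟩))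
    (.leaf (.psd ⟨⟨⟨1024, 0, 0⟩, ⟨(-493), 1, 0⟩, ⟨0, 0, 1⟩⟩, ⟨⟨1, 0, 0⟩, ⟨493, 1024, 0⟩, ⟨0, 0, 1024⟩⟩, 1024, ⟨10, 4096, 1⟩⟩)))
    (.node 1
    (.leaf (.psd ⟨⟨⟨1024, 0, 0⟩, ⟨(-498), 1, 0⟩, ⟨0, 0, 1⟩⟩, ⟨⟨1, 0, 0⟩, ⟨498, 1024, 0⟩, ⟨0, 0, 1024⟩⟩, 1024, ⟨10, 4096, 1⟩⟩))
    (.node 0
    (.leaf (.psd ⟨⟨⟨1024, 0, 0⟩, ⟨(-324), 1, 0⟩, ⟨0, 0, 1⟩⟩, ⟨⟨1, 0, 0⟩, ⟨324, 1024, 0⟩, ⟨0, 0, 1024⟩⟩, 1024, ⟨3794, 1048576, 1⟩⟩))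
    (.node 1
    (.leaf (.psd ⟨⟨⟨1024, 0, 0⟩, ⟨(-269), 1, 0⟩, ⟨0, 0, 1⟩⟩, ⟨⟨1, 0, 0⟩, ⟨269, 1024, 0⟩, ⟨0, 0, 1024⟩⟩, 1024, ⟨18, 4096, 1⟩⟩))
    (.node 0
    (.leaf (.psd ⟨⟨⟨1024, 0, 0⟩, ⟨(-181), 1, 0⟩, ⟨0, 0, 1⟩⟩, ⟨⟨1, 0, 0⟩, ⟨181, 1024, 0⟩, ⟨0, 0, 1024⟩⟩, 1024, ⟨24, 4096, 1⟩⟩))
    (.leaf (.psd ⟨⟨⟨1024, 0, 0⟩, ⟨(-124), 1, 0⟩, ⟨0, 0, 1⟩⟩, ⟨⟨1, 0, 0⟩, ⟨124, 1024, 0⟩, ⟨0, 0, 1024⟩⟩, 1024, ⟨30, 4096, 1⟩⟩))))))))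
    (.node 1
    (.node 0
    (.node 3
    (.node 1
    (.node 0
    (.leaf (.psd ⟨⟨⟨1024, 0, 0⟩, ⟨(-549), 1, 0⟩, ⟨0, 0, 1⟩⟩, ⟨⟨1, 0, 0⟩, ⟨549, 1024, 0⟩, ⟨0, 0, 1024⟩⟩, 1024, ⟨9, 4096, 1⟩⟩))
    (.leaf (.psd ⟨⟨⟨1024, 0, 0⟩, ⟨(-390), 1, 0⟩, ⟨0, 0, 1⟩⟩, ⟨⟨1, 0, 0⟩, ⟨390, 1024, 0⟩, ⟨0, 0, 1024⟩⟩, 1024, ⟨12, 4096, 1⟩⟩)))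
    (.node 0
    (.leaf (.psd ⟨⟨⟨1024, 0, 0⟩, ⟨(-384), 1, 0⟩, ⟨0, 0, 1⟩⟩, ⟨⟨1, 0, 0⟩, ⟨384, 1024, 0⟩, ⟨0, 0, 1024⟩⟩, 1024, ⟨3179, 1048576, 1⟩⟩))
    (.node 1
    (.leaf (.psd ⟨⟨⟨1024, 0, 0⟩, ⟨(-265), 1, 0⟩, ⟨0, 0, 1⟩⟩, ⟨⟨1, 0, 0⟩, ⟨265, 1024, 0⟩, ⟨0, 0, 1024⟩⟩, 1024, ⟨17, 4096, 1⟩⟩))
    (.node 0
    (.leaf (.psd ⟨⟨⟨1024, 0, 0⟩, ⟨(-222), 1, 0⟩, ⟨0, 0, 1⟩⟩, ⟨⟨1, 0, 0⟩, ⟨222, 1024, 0⟩, ⟨0, 0, 1024⟩⟩, 1024, ⟨20, 4096, 1⟩⟩))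
    (.leaf (.skip 8))))))
    (.node 1
    (.leaf (.psd ⟨⟨⟨1024, 0, 0⟩, ⟨(-333), 1, 0⟩, ⟨0, 0, 1⟩⟩, ⟨⟨1, 0, 0⟩, ⟨333, 1024, 0⟩, ⟨0, 0, 1024⟩⟩, 1024, ⟨3753, 1048576, 1⟩⟩))
    (.node 0
    (.leaf (.psd ⟨⟨⟨1024, 0, 0⟩, ⟨(-272), 1, 0⟩, ⟨0, 0, 1⟩⟩, ⟨⟨1, 0, 0⟩, ⟨272, 1024, 0⟩, ⟨0, 0, 1024⟩⟩, 1024, ⟨17, 4096, 1⟩⟩))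
    (.leaf (.psd ⟨⟨⟨1, (-3242), 0⟩, ⟨0, 1024, 0⟩, ⟨0, 0, 1⟩⟩, ⟨⟨1024, 3242, 0⟩, ⟨0, 1, 0⟩, ⟨0, 0, 1024⟩⟩, 1024, ⟨1073741824, 337824, 50⟩⟩)))))
    (.node 1
    (.node 0
    (.node 3
    (.node 1
    (.leaf (.psd ⟨⟨⟨1024, 0, 0⟩, ⟨(-272), 1, 0⟩, ⟨0, 0, 1⟩⟩, ⟨⟨1, 0, 0⟩, ⟨272, 1024, 0⟩, ⟨0, 0, 1024⟩⟩, 1024, ⟨4279, 1048576, 1⟩⟩))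
    (.node 0
    (.leaf (.psd ⟨⟨⟨1024, 0, 0⟩, ⟨(-229), 1, 0⟩, ⟨0, 0, 1⟩⟩, ⟨⟨1, 0, 0⟩, ⟨229, 1024, 0⟩, ⟨0, 0, 1024⟩⟩, 1024, ⟨19, 4096, 1⟩⟩))
    (.leaf (.skip 8))))
    (.leaf (.psd ⟨⟨⟨1, (-3185), 0⟩, ⟨0, 1024, 0⟩, ⟨0, 0, 1⟩⟩, ⟨⟨1024, 3185, 0⟩, ⟨0, 1, 0⟩, ⟨0, 0, 1024⟩⟩, 1024, ⟨1048576, 338, 1⟩⟩)))
    (.node 1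
    (.node 3
    (.leaf (.skip 8))
    (.node 0
    (.leaf (.psd ⟨⟨⟨1024, 0, 0⟩, ⟨(-110), 1, 0⟩, ⟨0, 0, 1⟩⟩, ⟨⟨1, 0, 0⟩, ⟨110, 1024, 0⟩, ⟨0, 0, 1024⟩⟩, 1024, ⟨34, 4096, 1⟩⟩))
    (.leaf (.skip 6))))
    (.leaf (.skip 6))))
    (.node 0
    (.node 1
    (.node 3
    (.leaf (.skip 8))
    (.node 0
    (.leaf (.psd ⟨⟨⟨1024, 0, 0⟩, ⟨(-104), 1, 0⟩, ⟨0, 0, 1⟩⟩, ⟨⟨1, 0, 0⟩, ⟨104, 1024, 0⟩, ⟨0, 0, 1024⟩⟩, 1024, ⟨35, 4096, 1⟩⟩))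
    (.leaf (.skip 6))))
    (.leaf (.skip 6)))
    (.leaf (.skip 6)))))
    (.node 0
    (.node 1
    (.node 0
    (.node 3
    (.node 1
    (.leaf (.psd ⟨⟨⟨1024, 0, 0⟩, ⟨(-260), 1, 0⟩, ⟨0, 0, 1⟩⟩, ⟨⟨1, 0, 0⟩, ⟨260, 1024, 0⟩, ⟨0, 0, 1024⟩⟩, 1024, ⟨17, 4096, 1⟩⟩))
    (.node 0
    (.leaf (.psd ⟨⟨⟨1024, 0, 0⟩, ⟨(-217), 1, 0⟩, ⟨0, 0, 1⟩⟩, ⟨⟨1, 0, 0⟩, ⟨217, 1024, 0⟩, ⟨0, 0, 1024⟩⟩, 1024, ⟨20, 4096, 1⟩⟩))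
    (.leaf (.skip 8))))
    (.node 1
    (.leaf (.psd ⟨⟨⟨1024, 0, 0⟩, ⟨(-185), 1, 0⟩, ⟨0, 0, 1⟩⟩, ⟨⟨1, 0, 0⟩, ⟨185, 1024, 0⟩, ⟨0, 0, 1024⟩⟩, 1024, ⟨24, 4096, 1⟩⟩))
    (.leaf (.psd ⟨⟨⟨1024, 0, 0⟩, ⟨(-126), 1, 0⟩, ⟨0, 0, 1⟩⟩, ⟨⟨1, 0, 0⟩, ⟨126, 1024, 0⟩, ⟨0, 0, 1024⟩⟩, 1024, ⟨30, 4096, 1⟩⟩))))
    (.node 1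
    (.node 0
    (.leaf (.psd ⟨⟨⟨1, (-4236), 0⟩, ⟨0, 1024, 0⟩, ⟨0, 0, 1⟩⟩, ⟨⟨1024, 4236, 0⟩, ⟨0, 1, 0⟩, ⟨0, 0, 1024⟩⟩, 1024, ⟨1048576, 361, 1⟩⟩))
    (.leaf (.skip 6)))
    (.leaf (.skip 6))))
    (.node 0
    (.node 1
    (.node 0
    (.leaf (.psd ⟨⟨⟨1, (-4308), 0⟩, ⟨0, 1024, 0⟩, ⟨0, 0, 1⟩⟩, ⟨⟨1024, 4308, 0⟩, ⟨0, 1, 0⟩, ⟨0, 0, 1024⟩⟩, 1024, ⟨1048576, 353, 1⟩⟩))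
    (.leaf (.skip 6)))
    (.leaf (.skip 8)))
    (.leaf (.skip 6))))
    (.leaf (.skip 6)))))
    (.node 0
    (.node 0
    (.node 1
    (.node 3
    (.node 0
    (.node 1
    (.leaf (.psd ⟨⟨⟨1024, 0, 0⟩, ⟨(-536), 1, 0⟩, ⟨0, 0, 1⟩⟩, ⟨⟨1, 0, 0⟩, ⟨536, 1024, 0⟩, ⟨0, 0, 1024⟩⟩, 1024, ⟨9, 4096, 1⟩⟩))
    (.leaf (.psd ⟨⟨⟨1024, 0, 0⟩, ⟨(-374), 1, 0⟩, ⟨0, 0, 1⟩⟩, ⟨⟨1, 0, 0⟩, ⟨374, 1024, 0⟩, ⟨0, 0, 1024⟩⟩, 1024, ⟨3217, 1048576, 1⟩⟩)))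
    (.node 1
    (.leaf (.psd ⟨⟨⟨1024, 0, 0⟩, ⟨(-374), 1, 0⟩, ⟨0, 0, 1⟩⟩, ⟨⟨1, 0, 0⟩, ⟨374, 1024, 0⟩, ⟨0, 0, 1024⟩⟩, 1024, ⟨3221, 1048576, 1⟩⟩))
    (.node 0
    (.leaf (.psd ⟨⟨⟨1024, 0, 0⟩, ⟨(-252), 1, 0⟩, ⟨0, 0, 1⟩⟩, ⟨⟨1, 0, 0⟩, ⟨252, 1024, 0⟩, ⟨0, 0, 1024⟩⟩, 1024, ⟨4477, 1048576, 1⟩⟩))
    (.node 1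
    (.leaf (.psd ⟨⟨⟨1024, 0, 0⟩, ⟨(-212), 1, 0⟩, ⟨0, 0, 1⟩⟩, ⟨⟨1, 0, 0⟩, ⟨212, 1024, 0⟩, ⟨0, 0, 1024⟩⟩, 1024, ⟨20, 4096, 1⟩⟩))
    (.leaf (.skip 8))))))
    (.node 0
    (.leaf (.psd ⟨⟨⟨1024, 0, 0⟩, ⟨(-322), 1, 0⟩, ⟨0, 0, 1⟩⟩, ⟨⟨1, 0, 0⟩, ⟨322, 1024, 0⟩, ⟨0, 0, 1024⟩⟩, 1024, ⟨3805, 1048576, 1⟩⟩))
    (.node 1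
    (.leaf (.psd ⟨⟨⟨1024, 0, 0⟩, ⟨(-265), 1, 0⟩, ⟨0, 0, 1⟩⟩, ⟨⟨1, 0, 0⟩, ⟨265, 1024, 0⟩, ⟨0, 0, 1024⟩⟩, 1024, ⟨18, 4096, 1⟩⟩))
    (.node 0
    (.leaf (.psd ⟨⟨⟨1024, 0, 0⟩, ⟨(-179), 1, 0⟩, ⟨0, 0, 1⟩⟩, ⟨⟨1, 0, 0⟩, ⟨179, 1024, 0⟩, ⟨0, 0, 1024⟩⟩, 1024, ⟨24, 4096, 1⟩⟩))
    (.leaf (.psd ⟨⟨⟨1024, 0, 0⟩, ⟨(-122), 1, 0⟩, ⟨0, 0, 1⟩⟩, ⟨⟨1, 0, 0⟩, ⟨122, 1024, 0⟩, ⟨0, 0, 1024⟩⟩, 1024, ⟨31, 4096, 1⟩⟩))))))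
    (.node 0
    (.node 1
    (.node 3
    (.node 0
    (.leaf (.psd ⟨⟨⟨1024, 0, 0⟩, ⟨(-253), 1, 0⟩, ⟨0, 0, 1⟩⟩, ⟨⟨1, 0, 0⟩, ⟨253, 1024, 0⟩, ⟨0, 0, 1024⟩⟩, 1024, ⟨4460, 1048576, 1⟩⟩))
    (.node 1
    (.leaf (.psd ⟨⟨⟨1024, 0, 0⟩, ⟨(-212), 1, 0⟩, ⟨0, 0, 1⟩⟩, ⟨⟨1, 0, 0⟩, ⟨212, 1024, 0⟩, ⟨0, 0, 1024⟩⟩, 1024, ⟨20, 4096, 1⟩⟩))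
    (.leaf (.skip 8))))
    (.node 0
    (.leaf (.psd ⟨⟨⟨1024, 0, 0⟩, ⟨(-180), 1, 0⟩, ⟨0, 0, 1⟩⟩, ⟨⟨1, 0, 0⟩, ⟨180, 1024, 0⟩, ⟨0, 0, 1024⟩⟩, 1024, ⟨24, 4096, 1⟩⟩))
    (.leaf (.psd ⟨⟨⟨1024, 0, 0⟩, ⟨(-122), 1, 0⟩, ⟨0, 0, 1⟩⟩, ⟨⟨1, 0, 0⟩, ⟨122, 1024, 0⟩, ⟨0, 0, 1024⟩⟩, 1024, ⟨30, 4096, 1⟩⟩))))
    (.node 0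
    (.node 1
    (.leaf (.psd ⟨⟨⟨1, (-4309), 0⟩, ⟨0, 1024, 0⟩, ⟨0, 0, 1⟩⟩, ⟨⟨1024, 4309, 0⟩, ⟨0, 1, 0⟩, ⟨0, 0, 1024⟩⟩, 1024, ⟨1048576, 347, 1⟩⟩))
    (.leaf (.skip 8)))
    (.leaf (.skip 8))))
    (.node 1
    (.node 0
    (.node 1
    (.leaf (.psd ⟨⟨⟨1, (-4352), 0⟩, ⟨0, 1024, 0⟩, ⟨0, 0, 1⟩⟩, ⟨⟨1024, 4352, 0⟩, ⟨0, 1, 0⟩, ⟨0, 0, 1024⟩⟩, 1024, ⟨1048576, 343, 1⟩⟩))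
    (.leaf (.skip 8)))
    (.leaf (.skip 8)))
    (.leaf (.skip 6)))))
    (.node 1
    (.node 1
    (.node 0
    (.node 3
    (.node 0
    (.leaf (.psd ⟨⟨⟨1024, 0, 0⟩, ⟨(-253), 1, 0⟩, ⟨0, 0, 1⟩⟩, ⟨⟨1, 0, 0⟩, ⟨253, 1024, 0⟩, ⟨0, 0, 1024⟩⟩, 1024, ⟨4478, 1048576, 1⟩⟩))
    (.node 1
    (.leaf (.psd ⟨⟨⟨1024, 0, 0⟩, ⟨(-213), 1, 0⟩, ⟨0, 0, 1⟩⟩, ⟨⟨1, 0, 0⟩, ⟨213, 1024, 0⟩, ⟨0, 0, 1024⟩⟩, 1024, ⟨20, 4096, 1⟩⟩))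
    (.leaf (.skip 8))))
    (.node 0
    (.leaf (.psd ⟨⟨⟨1024, 0, 0⟩, ⟨(-180), 1, 0⟩, ⟨0, 0, 1⟩⟩, ⟨⟨1, 0, 0⟩, ⟨180, 1024, 0⟩, ⟨0, 0, 1024⟩⟩, 1024, ⟨24, 4096, 1⟩⟩))
    (.leaf (.psd ⟨⟨⟨1024, 0, 0⟩, ⟨(-122), 1, 0⟩, ⟨0, 0, 1⟩⟩, ⟨⟨1, 0, 0⟩, ⟨122, 1024, 0⟩, ⟨0, 0, 1024⟩⟩, 1024, ⟨30, 4096, 1⟩⟩))))
    (.node 1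
    (.node 0
    (.leaf (.psd ⟨⟨⟨1, (-4352), 0⟩, ⟨0, 1024, 0⟩, ⟨0, 0, 1⟩⟩, ⟨⟨1024, 4352, 0⟩, ⟨0, 1, 0⟩, ⟨0, 0, 1024⟩⟩, 1024, ⟨1048576, 346, 1⟩⟩))
    (.leaf (.skip 8)))
    (.leaf (.skip 8))))
    (.node 0
    (.node 0
    (.node 1
    (.leaf (.psd ⟨⟨⟨1, (-4366), 0⟩, ⟨0, 1024, 0⟩, ⟨0, 0, 1⟩⟩, ⟨⟨1024, 4366, 0⟩, ⟨0, 1, 0⟩, ⟨0, 0, 1024⟩⟩, 1024, ⟨1048576, 343, 1⟩⟩))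
    (.leaf (.skip 8)))
    (.leaf (.skip 8)))
    (.leaf (.skip 6))))
    (.leaf (.skip 6))))
    (.leaf (.skip 6))))
    (.leaf (.skip 6)))
    (.leaf (.skip 6))

theorem chunk25 : Check.Good ⟨false, false, false⟩ cfg (reach cfg base [(3, true), (3, false), (1, true), (0, true), (0, true), (1, true), (3, false), (3, false), (0, true), (1, true), (0, true)]) :=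
  Check.check_sound tree25 (by decide +kernel)

end Vale.Agent.P211.Cert.Pair.PairOuterL
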