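import Vale.Agent.P211.Cert.Pair.Data.PairOuterL.Part3

/-!
P211, data: the root `outerL` of the form across the gradient, generated from the exact search.
-/

namespace Vale.Agent.P211.Cert.Pair.PairOuterL

open Vale.Agent.P098.Check6 (Face St ofChunks reach)
open Vale.Agent.P098.Cert6.Kron (RootPar)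

/-- A subtree. -/
def tree26 : Check.Tree Check.Leaf :=
  .node 0
    (.node 1
    (.node 1
    (.node 0
    (.node 3
    (.node 0
    (.node 1
    (.leaf (.psd ⟨⟨⟨1024, 0, 0⟩, ⟨(-480), 1, 0⟩, ⟨0, 0, 1⟩⟩, ⟨⟨1, 0, 0⟩, ⟨480, 1024, 0⟩, ⟨0, 0, 1024⟩⟩, 1024, ⟨9, 4096, 1⟩⟩))
    (.leaf (.psd ⟨⟨⟨1024, 0, 0⟩, ⟨(-329), 1, 0⟩, ⟨0, 0, 1⟩⟩, ⟨⟨1, 0, 0⟩, ⟨329, 1024, 0⟩, ⟨0, 0, 1024⟩⟩, 1024, ⟨3428, 1048576, 1⟩⟩)))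
    (.node 1
    (.leaf (.psd ⟨⟨⟨1024, 0, 0⟩, ⟨(-333), 1, 0⟩, ⟨0, 0, 1⟩⟩, ⟨⟨1, 0, 0⟩, ⟨333, 1024, 0⟩, ⟨0, 0, 1024⟩⟩, 1024, ⟨3413, 1048576, 1⟩⟩))
    (.node 1
    (.leaf (.psd ⟨⟨⟨1024, 0, 0⟩, ⟨(-218), 1, 0⟩, ⟨0, 0, 1⟩⟩, ⟨⟨1, 0, 0⟩, ⟨218, 1024, 0⟩, ⟨0, 0, 1024⟩⟩, 1024, ⟨4768, 1048576, 1⟩⟩))
    (.leaf (.psd ⟨⟨⟨1, (-3270), 0⟩, ⟨0, 1024, 0⟩, ⟨0, 0, 1⟩⟩, ⟨⟨1024, 3270, 0⟩, ⟨0, 1, 0⟩, ⟨0, 0, 1024⟩⟩, 1024, ⟨1073741824, 344899, 46⟩⟩)))))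
    (.node 0
    (.leaf (.psd ⟨⟨⟨1024, 0, 0⟩, ⟨(-278), 1, 0⟩, ⟨0, 0, 1⟩⟩, ⟨⟨1, 0, 0⟩, ⟨278, 1024, 0⟩, ⟨0, 0, 1024⟩⟩, 1024, ⟨15, 4096, 1⟩⟩))
    (.node 1
    (.leaf (.psd ⟨⟨⟨1024, 0, 0⟩, ⟨(-229), 1, 0⟩, ⟨0, 0, 1⟩⟩, ⟨⟨1, 0, 0⟩, ⟨229, 1024, 0⟩, ⟨0, 0, 1024⟩⟩, 1024, ⟨19, 4096, 1⟩⟩))
    (.leaf (.psd ⟨⟨⟨1, (-3365), 0⟩, ⟨0, 1024, 0⟩, ⟨0, 0, 1⟩⟩, ⟨⟨1024, 3365, 0⟩, ⟨0, 1, 0⟩, ⟨0, 0, 1024⟩⟩, 1024, ⟨1048576, 351, 1⟩⟩)))))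
    (.node 1
    (.node 0
    (.node 3
    (.node 1
    (.leaf (.psd ⟨⟨⟨1024, 0, 0⟩, ⟨(-223), 1, 0⟩, ⟨0, 0, 1⟩⟩, ⟨⟨1, 0, 0⟩, ⟨223, 1024, 0⟩, ⟨0, 0, 1024⟩⟩, 1024, ⟨18, 4096, 1⟩⟩))
    (.leaf (.psd ⟨⟨⟨1, (-3243), 0⟩, ⟨0, 1024, 0⟩, ⟨0, 0, 1⟩⟩, ⟨⟨1024, 3243, 0⟩, ⟨0, 1, 0⟩, ⟨0, 0, 1024⟩⟩, 1024, ⟨1048576, 350, 1⟩⟩)))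
    (.leaf (.psd ⟨⟨⟨1, (-3352), 0⟩, ⟨0, 1024, 0⟩, ⟨0, 0, 1⟩⟩, ⟨⟨1024, 3352, 0⟩, ⟨0, 1, 0⟩, ⟨0, 0, 1024⟩⟩, 1024, ⟨1048576, 357, 1⟩⟩)))
    (.node 1
    (.node 0
    (.leaf (.psd ⟨⟨⟨1, (-4226), 0⟩, ⟨0, 1024, 0⟩, ⟨0, 0, 1⟩⟩, ⟨⟨1024, 4226, 0⟩, ⟨0, 1, 0⟩, ⟨0, 0, 1024⟩⟩, 1024, ⟨4096, 1, 1⟩⟩))
    (.node 3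
    (.node 1
    (.leaf (.psd ⟨⟨⟨1, (-5059), 0⟩, ⟨0, 1024, 0⟩, ⟨0, 0, 1⟩⟩, ⟨⟨1024, 5059, 0⟩, ⟨0, 1, 0⟩, ⟨0, 0, 1024⟩⟩, 1024, ⟨1048576, 119, 1⟩⟩))
    (.leaf (.skip 6)))
    (.leaf (.psd ⟨⟨⟨1024, 0, 0⟩, ⟨(-25), 1, 0⟩, ⟨0, 0, 1⟩⟩, ⟨⟨1, 0, 0⟩, ⟨25, 1024, 0⟩, ⟨0, 0, 1024⟩⟩, 1024, ⟨55, 4096, 1⟩⟩))))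
    (.node 0
    (.node 3
    (.node 1
    (.leaf (.psd ⟨⟨⟨1, (-5068), 0⟩, ⟨0, 1024, 0⟩, ⟨0, 0, 1⟩⟩, ⟨⟨1024, 5068, 0⟩, ⟨0, 1, 0⟩, ⟨0, 0, 1024⟩⟩, 1024, ⟨1048576, 91, 1⟩⟩))
    (.leaf (.skip 6)))
    (.leaf (.psd ⟨⟨⟨1024, 0, 0⟩, ⟨(-22), 1, 0⟩, ⟨0, 0, 1⟩⟩, ⟨⟨1, 0, 0⟩, ⟨22, 1024, 0⟩, ⟨0, 0, 1024⟩⟩, 1024, ⟨57, 4096, 1⟩⟩)))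
    (.leaf (.skip 6)))))
    (.node 0
    (.node 1
    (.node 0
    (.leaf (.psd ⟨⟨⟨1, (-4269), 0⟩, ⟨0, 1024, 0⟩, ⟨0, 0, 1⟩⟩, ⟨⟨1024, 4269, 0⟩, ⟨0, 1, 0⟩, ⟨0, 0, 1024⟩⟩, 1024, ⟨4096, 1, 1⟩⟩))
    (.node 3
    (.node 1
    (.node 0
    (.leaf (.psd ⟨⟨⟨1024, 0, 0⟩, ⟨(-68), 1, 0⟩, ⟨0, 0, 1⟩⟩, ⟨⟨1, 0, 0⟩, ⟨68, 1024, 0⟩, ⟨0, 0, 1024⟩⟩, 1024, ⟨38, 4096, 1⟩⟩))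
    (.leaf (.skip 6)))
    (.leaf (.skip 6)))
    (.leaf (.psd ⟨⟨⟨1024, 0, 0⟩, ⟨(-20), 1, 0⟩, ⟨0, 0, 1⟩⟩, ⟨⟨1, 0, 0⟩, ⟨20, 1024, 0⟩, ⟨0, 0, 1024⟩⟩, 1024, ⟨58, 4096, 1⟩⟩))))
    (.node 0
    (.node 3
    (.node 1
    (.node 0
    (.leaf (.psd ⟨⟨⟨1024, 0, 0⟩, ⟨(-65), 1, 0⟩, ⟨0, 0, 1⟩⟩, ⟨⟨1, 0, 0⟩, ⟨65, 1024, 0⟩, ⟨0, 0, 1024⟩⟩, 1024, ⟨39, 4096, 1⟩⟩))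
    (.leaf (.skip 6)))
    (.node 0
    (.leaf (.psd ⟨⟨⟨1024, 0, 0⟩, ⟨(-26), 1, 0⟩, ⟨0, 0, 1⟩⟩, ⟨⟨1, 0, 0⟩, ⟨26, 1024, 0⟩, ⟨0, 0, 1024⟩⟩, 1024, ⟨67, 4096, 1⟩⟩))
    (.leaf (.skip 6))))
    (.leaf (.psd ⟨⟨⟨1024, 0, 0⟩, ⟨(-18), 1, 0⟩, ⟨0, 0, 1⟩⟩, ⟨⟨1, 0, 0⟩, ⟨18, 1024, 0⟩, ⟨0, 0, 1024⟩⟩, 1024, ⟨15269, 1048576, 1⟩⟩)))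
    (.leaf (.skip 6))))
    (.leaf (.skip 6)))))
    (.node 0
    (.node 0
    (.node 1
    (.node 3
    (.node 0
    (.leaf (.psd ⟨⟨⟨1024, 0, 0⟩, ⟨(-215), 1, 0⟩, ⟨0, 0, 1⟩⟩, ⟨⟨1, 0, 0⟩, ⟨215, 1024, 0⟩, ⟨0, 0, 1024⟩⟩, 1024, ⟨4775, 1048576, 1⟩⟩))
    (.node 1
    (.leaf (.psd ⟨⟨⟨1024, 0, 0⟩, ⟨(-178), 1, 0⟩, ⟨0, 0, 1⟩⟩, ⟨⟨1, 0, 0⟩, ⟨178, 1024, 0⟩, ⟨0, 0, 1024⟩⟩, 1024, ⟨22, 4096, 1⟩⟩))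
    (.leaf (.psd ⟨⟨⟨1024, 0, 0⟩, ⟨(-101), 1, 0⟩, ⟨0, 0, 1⟩⟩, ⟨⟨1, 0, 0⟩, ⟨101, 1024, 0⟩, ⟨0, 0, 1024⟩⟩, 1024, ⟨31, 4096, 1⟩⟩))))
    (.leaf (.psd ⟨⟨⟨1, (-3355), 0⟩, ⟨0, 1024, 0⟩, ⟨0, 0, 1⟩⟩, ⟨⟨1024, 3355, 0⟩, ⟨0, 1, 0⟩, ⟨0, 0, 1024⟩⟩, 1024, ⟨4096, 1, 1⟩⟩)))
    (.node 0
    (.node 1
    (.leaf (.psd ⟨⟨⟨1, (-4243), 0⟩, ⟨0, 1024, 0⟩, ⟨0, 0, 1⟩⟩, ⟨⟨1024, 4243, 0⟩, ⟨0, 1, 0⟩, ⟨0, 0, 1024⟩⟩, 1024, ⟨4096, 1, 1⟩⟩))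
    (.node 3
    (.node 0
    (.node 1
    (.leaf (.psd ⟨⟨⟨1024, 0, 0⟩, ⟨(-63), 1, 0⟩, ⟨0, 0, 1⟩⟩, ⟨⟨1, 0, 0⟩, ⟨63, 1024, 0⟩, ⟨0, 0, 1024⟩⟩, 1024, ⟨39, 4096, 1⟩⟩))
    (.leaf (.psd ⟨⟨⟨1024, 0, 0⟩, ⟨(-25), 1, 0⟩, ⟨0, 0, 1⟩⟩, ⟨⟨1, 0, 0⟩, ⟨25, 1024, 0⟩, ⟨0, 0, 1024⟩⟩, 1024, ⟨69, 4096, 1⟩⟩)))
    (.node 1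
    (.leaf (.psd ⟨⟨⟨1024, 0, 0⟩, ⟨(-24), 1, 0⟩, ⟨0, 0, 1⟩⟩, ⟨⟨1, 0, 0⟩, ⟨24, 1024, 0⟩, ⟨0, 0, 1024⟩⟩, 1024, ⟨17889, 1048576, 1⟩⟩))
    (.leaf (.skip 6))))
    (.node 0
    (.leaf (.psd ⟨⟨⟨1024, 0, 0⟩, ⟨(-30), 1, 0⟩, ⟨0, 0, 1⟩⟩, ⟨⟨1, 0, 0⟩, ⟨30, 1024, 0⟩, ⟨0, 0, 1024⟩⟩, 1024, ⟨56, 4096, 1⟩⟩))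
    (.leaf (.psd ⟨⟨⟨1024, 0, 0⟩, ⟨(-3), 1, 0⟩, ⟨0, 0, 1⟩⟩, ⟨⟨1, 0, 0⟩, ⟨3, 1024, 0⟩, ⟨0, 0, 1024⟩⟩, 1024, ⟨79, 4096, 1⟩⟩)))))
    (.node 1
    (.node 3
    (.node 0
    (.node 1
    (.leaf (.psd ⟨⟨⟨1024, 0, 0⟩, ⟨(-63), 1, 0⟩, ⟨0, 0, 1⟩⟩, ⟨⟨1, 0, 0⟩, ⟨63, 1024, 0⟩, ⟨0, 0, 1024⟩⟩, 1024, ⟨40, 4096, 1⟩⟩))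
    (.leaf (.psd ⟨⟨⟨1024, 0, 0⟩, ⟨(-24), 1, 0⟩, ⟨0, 0, 1⟩⟩, ⟨⟨1, 0, 0⟩, ⟨24, 1024, 0⟩, ⟨0, 0, 1024⟩⟩, 1024, ⟨70, 4096, 1⟩⟩)))
    (.node 1
    (.leaf (.psd ⟨⟨⟨1024, 0, 0⟩, ⟨(-24), 1, 0⟩, ⟨0, 0, 1⟩⟩, ⟨⟨1, 0, 0⟩, ⟨24, 1024, 0⟩, ⟨0, 0, 1024⟩⟩, 1024, ⟨70, 4096, 1⟩⟩))
    (.leaf (.skip 6))))
    (.node 0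
    (.leaf (.psd ⟨⟨⟨1024, 0, 0⟩, ⟨(-30), 1, 0⟩, ⟨0, 0, 1⟩⟩, ⟨⟨1, 0, 0⟩, ⟨30, 1024, 0⟩, ⟨0, 0, 1024⟩⟩, 1024, ⟨57, 4096, 1⟩⟩))
    (.leaf (.psd ⟨⟨⟨1024, 0, 0⟩, ⟨(-3), 1, 0⟩, ⟨0, 0, 1⟩⟩, ⟨⟨1, 0, 0⟩, ⟨3, 1024, 0⟩, ⟨0, 0, 1024⟩⟩, 1024, ⟨79, 4096, 1⟩⟩))))
    (.leaf (.skip 6)))))
    (.node 1
    (.node 1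
    (.node 0
    (.leaf (.psd ⟨⟨⟨1, (-4272), 0⟩, ⟨0, 1024, 0⟩, ⟨0, 0, 1⟩⟩, ⟨⟨1024, 4272, 0⟩, ⟨0, 1, 0⟩, ⟨0, 0, 1024⟩⟩, 1024, ⟨4096, 1, 1⟩⟩))
    (.node 3
    (.node 1
    (.node 0
    (.leaf (.psd ⟨⟨⟨1024, 0, 0⟩, ⟨(-64), 1, 0⟩, ⟨0, 0, 1⟩⟩, ⟨⟨1, 0, 0⟩, ⟨64, 1024, 0⟩, ⟨0, 0, 1024⟩⟩, 1024, ⟨39, 4096, 1⟩⟩))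
    (.leaf (.psd ⟨⟨⟨1024, 0, 0⟩, ⟨(-25), 1, 0⟩, ⟨0, 0, 1⟩⟩, ⟨⟨1, 0, 0⟩, ⟨25, 1024, 0⟩, ⟨0, 0, 1024⟩⟩, 1024, ⟨68, 4096, 1⟩⟩)))
    (.node 0
    (.leaf (.psd ⟨⟨⟨1024, 0, 0⟩, ⟨(-25), 1, 0⟩, ⟨0, 0, 1⟩⟩, ⟨⟨1, 0, 0⟩, ⟨25, 1024, 0⟩, ⟨0, 0, 1024⟩⟩, 1024, ⟨69, 4096, 1⟩⟩))
    (.leaf (.skip 6))))
    (.node 1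
    (.leaf (.psd ⟨⟨⟨1024, 0, 0⟩, ⟨(-30), 1, 0⟩, ⟨0, 0, 1⟩⟩, ⟨⟨1, 0, 0⟩, ⟨30, 1024, 0⟩, ⟨0, 0, 1024⟩⟩, 1024, ⟨56, 4096, 1⟩⟩))
    (.leaf (.psd ⟨⟨⟨1024, 0, 0⟩, ⟨(-4), 1, 0⟩, ⟨0, 0, 1⟩⟩, ⟨⟨1, 0, 0⟩, ⟨4, 1024, 0⟩, ⟨0, 0, 1024⟩⟩, 1024, ⟨77, 4096, 1⟩⟩)))))
    (.node 0
    (.node 3
    (.node 0
    (.node 1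
    (.leaf (.psd ⟨⟨⟨1024, 0, 0⟩, ⟨(-63), 1, 0⟩, ⟨0, 0, 1⟩⟩, ⟨⟨1, 0, 0⟩, ⟨63, 1024, 0⟩, ⟨0, 0, 1024⟩⟩, 1024, ⟨40, 4096, 1⟩⟩))
    (.leaf (.psd ⟨⟨⟨1024, 0, 0⟩, ⟨(-24), 1, 0⟩, ⟨0, 0, 1⟩⟩, ⟨⟨1, 0, 0⟩, ⟨24, 1024, 0⟩, ⟨0, 0, 1024⟩⟩, 1024, ⟨70, 4096, 1⟩⟩)))
    (.node 1
    (.leaf (.psd ⟨⟨⟨1024, 0, 0⟩, ⟨(-24), 1, 0⟩, ⟨0, 0, 1⟩⟩, ⟨⟨1, 0, 0⟩, ⟨24, 1024, 0⟩, ⟨0, 0, 1024⟩⟩, 1024, ⟨69, 4096, 1⟩⟩))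
    (.leaf (.skip 6))))
    (.node 0
    (.leaf (.psd ⟨⟨⟨1024, 0, 0⟩, ⟨(-30), 1, 0⟩, ⟨0, 0, 1⟩⟩, ⟨⟨1, 0, 0⟩, ⟨30, 1024, 0⟩, ⟨0, 0, 1024⟩⟩, 1024, ⟨57, 4096, 1⟩⟩))
    (.leaf (.psd ⟨⟨⟨1024, 0, 0⟩, ⟨(-3), 1, 0⟩, ⟨0, 0, 1⟩⟩, ⟨⟨1, 0, 0⟩, ⟨3, 1024, 0⟩, ⟨0, 0, 1024⟩⟩, 1024, ⟨78, 4096, 1⟩⟩))))
    (.leaf (.skip 6))))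
    (.leaf (.skip 6))))
    (.leaf (.skip 6))))
    (.leaf (.skip 6)))
    (.leaf (.skip 6))

theorem chunk26 : Check.Good ⟨false, false, false⟩ cfg (reach cfg base [(3, true), (1, true), (0, true), (0, true), (1, true), (3, false), (3, false), (0, true), (1, true), (0, true)]) :=
  Check.check_sound tree26 (by decide +kernel)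

/-- A subtree. -/
def tree27 : Check.Tree Check.Leaf :=
  .node 0
    (.node 1
    (.leaf (.psd ⟨⟨⟨1024, 0, 0⟩, ⟨(-1138), 1, 0⟩, ⟨0, 0, 1⟩⟩, ⟨⟨1, 0, 0⟩, ⟨1138, 1024, 0⟩, ⟨0, 0, 1024⟩⟩, 1024, ⟨2, 4096, 1⟩⟩))
    (.node 0
    (.leaf (.psd ⟨⟨⟨1024, 0, 0⟩, ⟨(-1087), 1, 0⟩, ⟨0, 0, 1⟩⟩, ⟨⟨1, 0, 0⟩, ⟨1087, 1024, 0⟩, ⟨0, 0, 1024⟩⟩, 1024, ⟨899, 1048576, 1⟩⟩))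
    (.node 1
    (.node 3
    (.leaf (.psd ⟨⟨⟨1024, 0, 0⟩, ⟨(-1224), 1, 0⟩, ⟨0, 0, 1⟩⟩, ⟨⟨1, 0, 0⟩, ⟨1224, 1024, 0⟩, ⟨0, 0, 1024⟩⟩, 1024, ⟨3, 4096, 1⟩⟩))
    (.leaf (.psd ⟨⟨⟨1024, 0, 0⟩, ⟨(-775), 1, 0⟩, ⟨0, 0, 1⟩⟩, ⟨⟨1, 0, 0⟩, ⟨775, 1024, 0⟩, ⟨0, 0, 1024⟩⟩, 1024, ⟨5, 4096, 1⟩⟩)))
    (.node 3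
    (.node 0
    (.leaf (.psd ⟨⟨⟨1024, 0, 0⟩, ⟨(-923), 1, 0⟩, ⟨0, 0, 1⟩⟩, ⟨⟨1, 0, 0⟩, ⟨923, 1024, 0⟩, ⟨0, 0, 1024⟩⟩, 1024, ⟨4, 4096, 1⟩⟩))
    (.node 1
    (.leaf (.psd ⟨⟨⟨1024, 0, 0⟩, ⟨(-784), 1, 0⟩, ⟨0, 0, 1⟩⟩, ⟨⟨1, 0, 0⟩, ⟨784, 1024, 0⟩, ⟨0, 0, 1024⟩⟩, 1024, ⟨5, 4096, 1⟩⟩))
    (.leaf (.psd ⟨⟨⟨1024, 0, 0⟩, ⟨(-552), 1, 0⟩, ⟨0, 0, 1⟩⟩, ⟨⟨1, 0, 0⟩, ⟨552, 1024, 0⟩, ⟨0, 0, 1024⟩⟩, 1024, ⟨1911, 1048576, 1⟩⟩))))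
    (.leaf (.psd ⟨⟨⟨1024, 0, 0⟩, ⟨(-506), 1, 0⟩, ⟨0, 0, 1⟩⟩, ⟨⟨1, 0, 0⟩, ⟨506, 1024, 0⟩, ⟨0, 0, 1024⟩⟩, 1024, ⟨8, 4096, 1⟩⟩))))))
    (.node 1
    (.node 0
    (.leaf (.psd ⟨⟨⟨1024, 0, 0⟩, ⟨(-1019), 1, 0⟩, ⟨0, 0, 1⟩⟩, ⟨⟨1, 0, 0⟩, ⟨1019, 1024, 0⟩, ⟨0, 0, 1024⟩⟩, 1024, ⟨947, 1048576, 1⟩⟩))
    (.node 1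
    (.leaf (.psd ⟨⟨⟨1024, 0, 0⟩, ⟨(-968), 1, 0⟩, ⟨0, 0, 1⟩⟩, ⟨⟨1, 0, 0⟩, ⟨968, 1024, 0⟩, ⟨0, 0, 1024⟩⟩, 1024, ⟨935, 1048576, 1⟩⟩))
    (.node 3
    (.node 0
    (.leaf (.psd ⟨⟨⟨1024, 0, 0⟩, ⟨(-947), 1, 0⟩, ⟨0, 0, 1⟩⟩, ⟨⟨1, 0, 0⟩, ⟨947, 1024, 0⟩, ⟨0, 0, 1024⟩⟩, 1024, ⟨1150, 1048576, 1⟩⟩))
    (.node 1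
    (.leaf (.psd ⟨⟨⟨1024, 0, 0⟩, ⟨(-878), 1, 0⟩, ⟨0, 0, 1⟩⟩, ⟨⟨1, 0, 0⟩, ⟨878, 1024, 0⟩, ⟨0, 0, 1024⟩⟩, 1024, ⟨4, 4096, 1⟩⟩))
    (.leaf (.psd ⟨⟨⟨1024, 0, 0⟩, ⟨(-594), 1, 0⟩, ⟨0, 0, 1⟩⟩, ⟨⟨1, 0, 0⟩, ⟨594, 1024, 0⟩, ⟨0, 0, 1024⟩⟩, 1024, ⟨1859, 1048576, 1⟩⟩))))
    (.leaf (.psd ⟨⟨⟨1024, 0, 0⟩, ⟨(-528), 1, 0⟩, ⟨0, 0, 1⟩⟩, ⟨⟨1, 0, 0⟩, ⟨528, 1024, 0⟩, ⟨0, 0, 1024⟩⟩, 1024, ⟨2112, 1048576, 1⟩⟩)))))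
    (.node 0
    (.node 1
    (.node 3
    (.node 0
    (.leaf (.psd ⟨⟨⟨1024, 0, 0⟩, ⟨(-894), 1, 0⟩, ⟨0, 0, 1⟩⟩, ⟨⟨1, 0, 0⟩, ⟨894, 1024, 0⟩, ⟨0, 0, 1024⟩⟩, 1024, ⟨1194, 1048576, 1⟩⟩))
    (.node 1
    (.leaf (.psd ⟨⟨⟨1024, 0, 0⟩, ⟨(-786), 1, 0⟩, ⟨0, 0, 1⟩⟩, ⟨⟨1, 0, 0⟩, ⟨786, 1024, 0⟩, ⟨0, 0, 1024⟩⟩, 1024, ⟨5, 4096, 1⟩⟩))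
    (.node 0
    (.leaf (.psd ⟨⟨⟨1024, 0, 0⟩, ⟨(-591), 1, 0⟩, ⟨0, 0, 1⟩⟩, ⟨⟨1, 0, 0⟩, ⟨591, 1024, 0⟩, ⟨0, 0, 1024⟩⟩, 1024, ⟨6, 4096, 1⟩⟩))
    (.leaf (.psd ⟨⟨⟨1024, 0, 0⟩, ⟨(-467), 1, 0⟩, ⟨0, 0, 1⟩⟩, ⟨⟨1, 0, 0⟩, ⟨467, 1024, 0⟩, ⟨0, 0, 1024⟩⟩, 1024, ⟨8, 4096, 1⟩⟩)))))
    (.leaf (.psd ⟨⟨⟨1024, 0, 0⟩, ⟨(-491), 1, 0⟩, ⟨0, 0, 1⟩⟩, ⟨⟨1, 0, 0⟩, ⟨491, 1024, 0⟩, ⟨0, 0, 1024⟩⟩, 1024, ⟨2146, 1048576, 1⟩⟩)))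
    (.node 0
    (.node 1
    (.node 3
    (.leaf (.psd ⟨⟨⟨1024, 0, 0⟩, ⟨(-530), 1, 0⟩, ⟨0, 0, 1⟩⟩, ⟨⟨1, 0, 0⟩, ⟨530, 1024, 0⟩, ⟨0, 0, 1024⟩⟩, 1024, ⟨1984, 1048576, 1⟩⟩))
    (.leaf (.psd ⟨⟨⟨1024, 0, 0⟩, ⟨(-336), 1, 0⟩, ⟨0, 0, 1⟩⟩, ⟨⟨1, 0, 0⟩, ⟨336, 1024, 0⟩, ⟨0, 0, 1024⟩⟩, 1024, ⟨11, 4096, 1⟩⟩)))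
    (.node 0
    (.leaf (.psd ⟨⟨⟨1, (-1413), 0⟩, ⟨0, 1024, 0⟩, ⟨0, 0, 1⟩⟩, ⟨⟨1024, 1413, 0⟩, ⟨0, 1, 0⟩, ⟨0, 0, 1024⟩⟩, 1024, ⟨1048576, 736, 1⟩⟩))
    (.node 1
    (.leaf (.psd ⟨⟨⟨1024, 0, 0⟩, ⟨(-212), 1, 0⟩, ⟨0, 0, 1⟩⟩, ⟨⟨1, 0, 0⟩, ⟨212, 1024, 0⟩, ⟨0, 0, 1024⟩⟩, 1024, ⟨3060, 1048576, 1⟩⟩))
    (.leaf (.psd ⟨⟨⟨1, (-2406), 0⟩, ⟨0, 1024, 0⟩, ⟨0, 0, 1⟩⟩, ⟨⟨1024, 2406, 0⟩, ⟨0, 1, 0⟩, ⟨0, 0, 1024⟩⟩, 1024, ⟨1048576, 426, 1⟩⟩)))))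
    (.node 1
    (.node 0
    (.node 3
    (.node 1
    (.leaf (.psd ⟨⟨⟨1024, 0, 0⟩, ⟨(-401), 1, 0⟩, ⟨0, 0, 1⟩⟩, ⟨⟨1, 0, 0⟩, ⟨401, 1024, 0⟩, ⟨0, 0, 1024⟩⟩, 1024, ⟨9, 4096, 1⟩⟩))
    (.leaf (.psd ⟨⟨⟨1024, 0, 0⟩, ⟨(-274), 1, 0⟩, ⟨0, 0, 1⟩⟩, ⟨⟨1, 0, 0⟩, ⟨274, 1024, 0⟩, ⟨0, 0, 1024⟩⟩, 1024, ⟨13, 4096, 1⟩⟩)))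
    (.leaf (.psd ⟨⟨⟨1024, 0, 0⟩, ⟨(-212), 1, 0⟩, ⟨0, 0, 1⟩⟩, ⟨⟨1, 0, 0⟩, ⟨212, 1024, 0⟩, ⟨0, 0, 1024⟩⟩, 1024, ⟨15, 4096, 1⟩⟩)))
    (.node 1
    (.leaf (.psd ⟨⟨⟨1, (-1841), 0⟩, ⟨0, 1024, 0⟩, ⟨0, 0, 1⟩⟩, ⟨⟨1024, 1841, 0⟩, ⟨0, 1, 0⟩, ⟨0, 0, 1024⟩⟩, 1024, ⟨1048576, 672, 1⟩⟩))
    (.leaf (.psd ⟨⟨⟨1, (-2506), 0⟩, ⟨0, 1024, 0⟩, ⟨0, 0, 1⟩⟩, ⟨⟨1024, 2506, 0⟩, ⟨0, 1, 0⟩, ⟨0, 0, 1024⟩⟩, 1024, ⟨1048576, 368, 1⟩⟩))))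
    (.node 0
    (.node 1
    (.leaf (.psd ⟨⟨⟨1, (-2462), 0⟩, ⟨0, 1024, 0⟩, ⟨0, 0, 1⟩⟩, ⟨⟨1024, 2462, 0⟩, ⟨0, 1, 0⟩, ⟨0, 0, 1024⟩⟩, 1024, ⟨1048576, 386, 1⟩⟩))
    (.node 0
    (.node 1
    (.leaf (.psd ⟨⟨⟨1024, 0, 0⟩, ⟨(-62), 1, 0⟩, ⟨0, 0, 1⟩⟩, ⟨⟨1, 0, 0⟩, ⟨62, 1024, 0⟩, ⟨0, 0, 1024⟩⟩, 1024, ⟨22, 4096, 1⟩⟩))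
    (.node 3
    (.node 0
    (.leaf (.psd ⟨⟨⟨1024, 0, 0⟩, ⟨(-39), 1, 0⟩, ⟨0, 0, 1⟩⟩, ⟨⟨1, 0, 0⟩, ⟨39, 1024, 0⟩, ⟨0, 0, 1024⟩⟩, 1024, ⟨41, 4096, 1⟩⟩))
    (.node 1
    (.leaf (.psd ⟨⟨⟨1024, 0, 0⟩, ⟨(-20), 1, 0⟩, ⟨0, 0, 1⟩⟩, ⟨⟨1, 0, 0⟩, ⟨20, 1024, 0⟩, ⟨0, 0, 1024⟩⟩, 1024, ⟨50, 4096, 1⟩⟩))
    (.leaf (.psd ⟨⟨⟨1024, 0, 0⟩, ⟨13, 1, 0⟩, ⟨0, 0, 1⟩⟩, ⟨⟨1, 0, 0⟩, ⟨(-13), 1024, 0⟩, ⟨0, 0, 1024⟩⟩, 1024, ⟨79, 4096, 1⟩⟩))))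
    (.leaf (.psd ⟨⟨⟨1024, 0, 0⟩, ⟨(-8), 1, 0⟩, ⟨0, 0, 1⟩⟩, ⟨⟨1, 0, 0⟩, ⟨8, 1024, 0⟩, ⟨0, 0, 1024⟩⟩, 1024, ⟨44, 4096, 1⟩⟩))))
    (.node 1
    (.node 3
    (.node 0
    (.leaf (.psd ⟨⟨⟨1024, 0, 0⟩, ⟨(-33), 1, 0⟩, ⟨0, 0, 1⟩⟩, ⟨⟨1, 0, 0⟩, ⟨33, 1024, 0⟩, ⟨0, 0, 1024⟩⟩, 1024, ⟨43, 4096, 1⟩⟩))
    (.node 1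
    (.leaf (.psd ⟨⟨⟨1024, 0, 0⟩, ⟨(-15), 1, 0⟩, ⟨0, 0, 1⟩⟩, ⟨⟨1, 0, 0⟩, ⟨15, 1024, 0⟩, ⟨0, 0, 1024⟩⟩, 1024, ⟨54, 4096, 1⟩⟩))
    (.leaf (.psd ⟨⟨⟨1024, 0, 0⟩, ⟨18, 1, 0⟩, ⟨0, 0, 1⟩⟩, ⟨⟨1, 0, 0⟩, ⟨(-18), 1024, 0⟩, ⟨0, 0, 1024⟩⟩, 1024, ⟨20914, 1048576, 1⟩⟩))))
    (.leaf (.psd ⟨⟨⟨1024, 0, 0⟩, ⟨(-5), 1, 0⟩, ⟨0, 0, 1⟩⟩, ⟨⟨1, 0, 0⟩, ⟨5, 1024, 0⟩, ⟨0, 0, 1024⟩⟩, 1024, ⟨45, 4096, 1⟩⟩)))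
    (.node 3
    (.node 0
    (.node 1
    (.leaf (.psd ⟨⟨⟨1024, 0, 0⟩, ⟨16, 1, 0⟩, ⟨0, 0, 1⟩⟩, ⟨⟨1, 0, 0⟩, ⟨(-16), 1024, 0⟩, ⟨0, 0, 1024⟩⟩, 1024, ⟨81, 4096, 1⟩⟩))
    (.leaf (.skip 6)))
    (.leaf (.skip 6)))
    (.node 0
    (.leaf (.psd ⟨⟨⟨1024, 0, 0⟩, ⟨26, 1, 0⟩, ⟨0, 0, 1⟩⟩, ⟨⟨1, 0, 0⟩, ⟨(-26), 1024, 0⟩, ⟨0, 0, 1024⟩⟩, 1024, ⟨64, 4096, 1⟩⟩))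
    (.leaf (.skip 6)))))))
    (.node 1
    (.node 0
    (.node 1
    (.leaf (.psd ⟨⟨⟨1024, 0, 0⟩, ⟨(-56), 1, 0⟩, ⟨0, 0, 1⟩⟩, ⟨⟨1, 0, 0⟩, ⟨56, 1024, 0⟩, ⟨0, 0, 1024⟩⟩, 1024, ⟨25, 4096, 1⟩⟩))
    (.node 3
    (.node 0
    (.leaf (.psd ⟨⟨⟨1024, 0, 0⟩, ⟨(-29), 1, 0⟩, ⟨0, 0, 1⟩⟩, ⟨⟨1, 0, 0⟩, ⟨29, 1024, 0⟩, ⟨0, 0, 1024⟩⟩, 1024, ⟨45, 4096, 1⟩⟩))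
    (.node 1
    (.leaf (.psd ⟨⟨⟨1024, 0, 0⟩, ⟨(-11), 1, 0⟩, ⟨0, 0, 1⟩⟩, ⟨⟨1, 0, 0⟩, ⟨11, 1024, 0⟩, ⟨0, 0, 1024⟩⟩, 1024, ⟨57, 4096, 1⟩⟩))
    (.node 3
    (.node 0
    (.leaf (.psd ⟨⟨⟨1024, 0, 0⟩, ⟨14, 1, 0⟩, ⟨0, 0, 1⟩⟩, ⟨⟨1, 0, 0⟩, ⟨(-14), 1024, 0⟩, ⟨0, 0, 1024⟩⟩, 1024, ⟨85, 4096, 1⟩⟩))
    (.leaf (.skip 6)))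
    (.leaf (.psd ⟨⟨⟨1024, 0, 0⟩, ⟨21, 1, 0⟩, ⟨0, 0, 1⟩⟩, ⟨⟨1, 0, 0⟩, ⟨(-21), 1024, 0⟩, ⟨0, 0, 1024⟩⟩, 1024, ⟨74, 4096, 1⟩⟩)))))
    (.leaf (.psd ⟨⟨⟨1024, 0, 0⟩, ⟨(-2), 1, 0⟩, ⟨0, 0, 1⟩⟩, ⟨⟨1, 0, 0⟩, ⟨2, 1024, 0⟩, ⟨0, 0, 1024⟩⟩, 1024, ⟨46, 4096, 1⟩⟩))))
    (.node 1
    (.node 3
    (.node 0
    (.leaf (.psd ⟨⟨⟨1024, 0, 0⟩, ⟨(-27), 1, 0⟩, ⟨0, 0, 1⟩⟩, ⟨⟨1, 0, 0⟩, ⟨27, 1024, 0⟩, ⟨0, 0, 1024⟩⟩, 1024, ⟨47, 4096, 1⟩⟩))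
    (.node 1
    (.leaf (.psd ⟨⟨⟨1024, 0, 0⟩, ⟨(-9), 1, 0⟩, ⟨0, 0, 1⟩⟩, ⟨⟨1, 0, 0⟩, ⟨9, 1024, 0⟩, ⟨0, 0, 1024⟩⟩, 1024, ⟨59, 4096, 1⟩⟩))
    (.node 3
    (.node 0
    (.leaf (.psd ⟨⟨⟨1024, 0, 0⟩, ⟨17, 1, 0⟩, ⟨0, 0, 1⟩⟩, ⟨⟨1, 0, 0⟩, ⟨(-17), 1024, 0⟩, ⟨0, 0, 1024⟩⟩, 1024, ⟨88, 4096, 1⟩⟩))
    (.leaf (.skip 6)))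
    (.leaf (.psd ⟨⟨⟨1024, 0, 0⟩, ⟨23, 1, 0⟩, ⟨0, 0, 1⟩⟩, ⟨⟨1, 0, 0⟩, ⟨(-23), 1024, 0⟩, ⟨0, 0, 1024⟩⟩, 1024, ⟨75, 4096, 1⟩⟩)))))
    (.leaf (.psd ⟨⟨⟨1024, 0, 0⟩, ⟨(-1), 1, 0⟩, ⟨0, 0, 1⟩⟩, ⟨⟨1, 0, 0⟩, ⟨1, 1024, 0⟩, ⟨0, 0, 1024⟩⟩, 1024, ⟨47, 4096, 1⟩⟩)))
    (.node 3
    (.node 0
    (.node 1
    (.node 3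
    (.node 0
    (.leaf (.psd ⟨⟨⟨1024, 0, 0⟩, ⟨16, 1, 0⟩, ⟨0, 0, 1⟩⟩, ⟨⟨1, 0, 0⟩, ⟨(-16), 1024, 0⟩, ⟨0, 0, 1024⟩⟩, 1024, ⟨87, 4096, 1⟩⟩))
    (.leaf (.skip 6)))
    (.leaf (.psd ⟨⟨⟨1024, 0, 0⟩, ⟨22, 1, 0⟩, ⟨0, 0, 1⟩⟩, ⟨⟨1, 0, 0⟩, ⟨(-22), 1024, 0⟩, ⟨0, 0, 1024⟩⟩, 1024, ⟨74, 4096, 1⟩⟩)))
    (.leaf (.skip 6)))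
    (.leaf (.skip 6)))
    (.node 3
    (.node 0
    (.leaf (.psd ⟨⟨⟨1024, 0, 0⟩, ⟨33, 1, 0⟩, ⟨0, 0, 1⟩⟩, ⟨⟨1, 0, 0⟩, ⟨(-33), 1024, 0⟩, ⟨0, 0, 1024⟩⟩, 1024, ⟨69, 4096, 1⟩⟩))
    (.leaf (.skip 6)))
    (.leaf (.psd ⟨⟨⟨1024, 0, 0⟩, ⟨40, 1, 0⟩, ⟨0, 0, 1⟩⟩, ⟨⟨1, 0, 0⟩, ⟨(-40), 1024, 0⟩, ⟨0, 0, 1024⟩⟩, 1024, ⟨63, 4096, 1⟩⟩))))))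
    (.node 3
    (.node 0
    (.node 1
    (.node 0
    (.node 1
    (.node 3
    (.node 0
    (.leaf (.psd ⟨⟨⟨1024, 0, 0⟩, ⟨12, 1, 0⟩, ⟨0, 0, 1⟩⟩, ⟨⟨1, 0, 0⟩, ⟨(-12), 1024, 0⟩, ⟨0, 0, 1024⟩⟩, 1024, ⟨83, 4096, 1⟩⟩))
    (.leaf (.skip 6)))
    (.leaf (.psd ⟨⟨⟨1024, 0, 0⟩, ⟨19, 1, 0⟩, ⟨0, 0, 1⟩⟩, ⟨⟨1, 0, 0⟩, ⟨(-19), 1024, 0⟩, ⟨0, 0, 1024⟩⟩, 1024, ⟨72, 4096, 1⟩⟩)))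
    (.leaf (.skip 6)))
    (.leaf (.skip 6)))
    (.leaf (.skip 6)))
    (.leaf (.skip 6)))
    (.node 0
    (.node 1
    (.node 0
    (.leaf (.psd ⟨⟨⟨1024, 0, 0⟩, ⟨29, 1, 0⟩, ⟨0, 0, 1⟩⟩, ⟨⟨1, 0, 0⟩, ⟨(-29), 1024, 0⟩, ⟨0, 0, 1024⟩⟩, 1024, ⟨66, 4096, 1⟩⟩))
    (.leaf (.skip 6)))
    (.leaf (.skip 6)))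
    (.leaf (.skip 6)))))))))
    (.node 1
    (.node 1
    (.node 0
    (.node 3
    (.node 1
    (.leaf (.psd ⟨⟨⟨1024, 0, 0⟩, ⟨(-618), 1, 0⟩, ⟨0, 0, 1⟩⟩, ⟨⟨1, 0, 0⟩, ⟨618, 1024, 0⟩, ⟨0, 0, 1024⟩⟩, 1024, ⟨6, 4096, 1⟩⟩))
    (.leaf (.psd ⟨⟨⟨1024, 0, 0⟩, ⟨(-483), 1, 0⟩, ⟨0, 0, 1⟩⟩, ⟨⟨1, 0, 0⟩, ⟨483, 1024, 0⟩, ⟨0, 0, 1024⟩⟩, 1024, ⟨8, 4096, 1⟩⟩)))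
    (.leaf (.psd ⟨⟨⟨1024, 0, 0⟩, ⟨(-349), 1, 0⟩, ⟨0, 0, 1⟩⟩, ⟨⟨1, 0, 0⟩, ⟨349, 1024, 0⟩, ⟨0, 0, 1024⟩⟩, 1024, ⟨11, 4096, 1⟩⟩)))
    (.node 1
    (.node 3
    (.node 0
    (.leaf (.psd ⟨⟨⟨1024, 0, 0⟩, ⟨(-442), 1, 0⟩, ⟨0, 0, 1⟩⟩, ⟨⟨1, 0, 0⟩, ⟨442, 1024, 0⟩, ⟨0, 0, 1024⟩⟩, 1024, ⟨9, 4096, 1⟩⟩))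
    (.leaf (.psd ⟨⟨⟨1024, 0, 0⟩, ⟨(-324), 1, 0⟩, ⟨0, 0, 1⟩⟩, ⟨⟨1, 0, 0⟩, ⟨324, 1024, 0⟩, ⟨0, 0, 1024⟩⟩, 1024, ⟨12, 4096, 1⟩⟩)))
    (.leaf (.psd ⟨⟨⟨1024, 0, 0⟩, ⟨(-245), 1, 0⟩, ⟨0, 0, 1⟩⟩, ⟨⟨1, 0, 0⟩, ⟨245, 1024, 0⟩, ⟨0, 0, 1024⟩⟩, 1024, ⟨14, 4096, 1⟩⟩)))
    (.node 0
    (.leaf (.psd ⟨⟨⟨1, (-1820), 0⟩, ⟨0, 1024, 0⟩, ⟨0, 0, 1⟩⟩, ⟨⟨1024, 1820, 0⟩, ⟨0, 1, 0⟩, ⟨0, 0, 1024⟩⟩, 1024, ⟨1048576, 702, 1⟩⟩))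
    (.leaf (.psd ⟨⟨⟨1, (-2571), 0⟩, ⟨0, 1024, 0⟩, ⟨0, 0, 1⟩⟩, ⟨⟨1024, 2571, 0⟩, ⟨0, 1, 0⟩, ⟨0, 0, 1024⟩⟩, 1024, ⟨1048576, 461, 1⟩⟩)))))
    (.node 0
    (.node 1
    (.node 3
    (.node 0
    (.leaf (.psd ⟨⟨⟨1024, 0, 0⟩, ⟨(-410), 1, 0⟩, ⟨0, 0, 1⟩⟩, ⟨⟨1, 0, 0⟩, ⟨410, 1024, 0⟩, ⟨0, 0, 1024⟩⟩, 1024, ⟨9, 4096, 1⟩⟩))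
    (.leaf (.psd ⟨⟨⟨1024, 0, 0⟩, ⟨(-287), 1, 0⟩, ⟨0, 0, 1⟩⟩, ⟨⟨1, 0, 0⟩, ⟨287, 1024, 0⟩, ⟨0, 0, 1024⟩⟩, 1024, ⟨13, 4096, 1⟩⟩)))
    (.leaf (.psd ⟨⟨⟨1024, 0, 0⟩, ⟨(-221), 1, 0⟩, ⟨0, 0, 1⟩⟩, ⟨⟨1, 0, 0⟩, ⟨221, 1024, 0⟩, ⟨0, 0, 1024⟩⟩, 1024, ⟨15, 4096, 1⟩⟩)))
    (.node 0
    (.leaf (.psd ⟨⟨⟨1, (-1852), 0⟩, ⟨0, 1024, 0⟩, ⟨0, 0, 1⟩⟩, ⟨⟨1024, 1852, 0⟩, ⟨0, 1, 0⟩, ⟨0, 0, 1024⟩⟩, 1024, ⟨1048576, 674, 1⟩⟩))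
    (.leaf (.psd ⟨⟨⟨1, (-2574), 0⟩, ⟨0, 1024, 0⟩, ⟨0, 0, 1⟩⟩, ⟨⟨1024, 2574, 0⟩, ⟨0, 1, 0⟩, ⟨0, 0, 1024⟩⟩, 1024, ⟨1048576, 404, 1⟩⟩))))
    (.node 1
    (.node 0
    (.leaf (.psd ⟨⟨⟨1, (-2587), 0⟩, ⟨0, 1024, 0⟩, ⟨0, 0, 1⟩⟩, ⟨⟨1024, 2587, 0⟩, ⟨0, 1, 0⟩, ⟨0, 0, 1024⟩⟩, 1024, ⟨1048576, 425, 1⟩⟩))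
    (.node 1
    (.leaf (.psd ⟨⟨⟨1, (-2804), 0⟩, ⟨0, 1024, 0⟩, ⟨0, 0, 1⟩⟩, ⟨⟨1024, 2804, 0⟩, ⟨0, 1, 0⟩, ⟨0, 0, 1024⟩⟩, 1024, ⟨1048576, 82, 1⟩⟩))
    (.node 0
    (.node 3
    (.leaf (.psd ⟨⟨⟨1, (-2962), 0⟩, ⟨0, 1024, 0⟩, ⟨0, 0, 1⟩⟩, ⟨⟨1024, 2962, 0⟩, ⟨0, 1, 0⟩, ⟨0, 0, 1024⟩⟩, 1024, ⟨1048576, 57, 1⟩⟩))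
    (.leaf (.psd ⟨⟨⟨1024, 0, 0⟩, ⟨(-19), 1, 0⟩, ⟨0, 0, 1⟩⟩, ⟨⟨1, 0, 0⟩, ⟨19, 1024, 0⟩, ⟨0, 0, 1024⟩⟩, 1024, ⟨41, 4096, 1⟩⟩)))
    (.leaf (.skip 6)))))
    (.node 0
    (.node 1
    (.node 0
    (.leaf (.psd ⟨⟨⟨1024, 0, 0⟩, ⟨(-66), 1, 0⟩, ⟨0, 0, 1⟩⟩, ⟨⟨1, 0, 0⟩, ⟨66, 1024, 0⟩, ⟨0, 0, 1024⟩⟩, 1024, ⟨22, 4096, 1⟩⟩))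
    (.node 3
    (.node 1
    (.leaf (.psd ⟨⟨⟨1024, 0, 0⟩, ⟨(-43), 1, 0⟩, ⟨0, 0, 1⟩⟩, ⟨⟨1, 0, 0⟩, ⟨43, 1024, 0⟩, ⟨0, 0, 1024⟩⟩, 1024, ⟨39, 4096, 1⟩⟩))
    (.leaf (.skip 6)))
    (.leaf (.psd ⟨⟨⟨1024, 0, 0⟩, ⟨(-13), 1, 0⟩, ⟨0, 0, 1⟩⟩, ⟨⟨1, 0, 0⟩, ⟨13, 1024, 0⟩, ⟨0, 0, 1024⟩⟩, 1024, ⟨42, 4096, 1⟩⟩))))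
    (.node 0
    (.node 3
    (.node 1
    (.leaf (.psd ⟨⟨⟨1024, 0, 0⟩, ⟨(-36), 1, 0⟩, ⟨0, 0, 1⟩⟩, ⟨⟨1, 0, 0⟩, ⟨36, 1024, 0⟩, ⟨0, 0, 1024⟩⟩, 1024, ⟨42, 4096, 1⟩⟩))
    (.leaf (.psd ⟨⟨⟨1024, 0, 0⟩, ⟨(-1), 1, 0⟩, ⟨0, 0, 1⟩⟩, ⟨⟨1, 0, 0⟩, ⟨1, 1024, 0⟩, ⟨0, 0, 1024⟩⟩, 1024, ⟨57, 4096, 1⟩⟩)))
    (.leaf (.psd ⟨⟨⟨1024, 0, 0⟩, ⟨(-8), 1, 0⟩, ⟨0, 0, 1⟩⟩, ⟨⟨1, 0, 0⟩, ⟨8, 1024, 0⟩, ⟨0, 0, 1024⟩⟩, 1024, ⟨44, 4096, 1⟩⟩)))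
    (.leaf (.skip 6))))
    (.leaf (.skip 6))))))
    (.node 1
    (.node 0
    (.node 1
    (.node 0
    (.leaf (.psd ⟨⟨⟨1, (-2545), 0⟩, ⟨0, 1024, 0⟩, ⟨0, 0, 1⟩⟩, ⟨⟨1024, 2545, 0⟩, ⟨0, 1, 0⟩, ⟨0, 0, 1024⟩⟩, 1024, ⟨1048576, 373, 1⟩⟩))
    (.node 1
    (.node 0
    (.leaf (.psd ⟨⟨⟨1024, 0, 0⟩, ⟨(-58), 1, 0⟩, ⟨0, 0, 1⟩⟩, ⟨⟨1, 0, 0⟩, ⟨58, 1024, 0⟩, ⟨0, 0, 1024⟩⟩, 1024, ⟨25, 4096, 1⟩⟩))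
    (.node 3
    (.node 1
    (.leaf (.psd ⟨⟨⟨1024, 0, 0⟩, ⟨(-32), 1, 0⟩, ⟨0, 0, 1⟩⟩, ⟨⟨1, 0, 0⟩, ⟨32, 1024, 0⟩, ⟨0, 0, 1024⟩⟩, 1024, ⟨44, 4096, 1⟩⟩))
    (.node 0
    (.leaf (.psd ⟨⟨⟨1024, 0, 0⟩, ⟨(-13), 1, 0⟩, ⟨0, 0, 1⟩⟩, ⟨⟨1, 0, 0⟩, ⟨13, 1024, 0⟩, ⟨0, 0, 1024⟩⟩, 1024, ⟨55, 4096, 1⟩⟩))
    (.leaf (.skip 6))))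
    (.leaf (.psd ⟨⟨⟨1024, 0, 0⟩, ⟨(-5), 1, 0⟩, ⟨0, 0, 1⟩⟩, ⟨⟨1, 0, 0⟩, ⟨5, 1024, 0⟩, ⟨0, 0, 1024⟩⟩, 1024, ⟨46, 4096, 1⟩⟩))))
    (.node 3
    (.node 0
    (.node 1
    (.leaf (.psd ⟨⟨⟨1024, 0, 0⟩, ⟨(-28), 1, 0⟩, ⟨0, 0, 1⟩⟩, ⟨⟨1, 0, 0⟩, ⟨28, 1024, 0⟩, ⟨0, 0, 1024⟩⟩, 1024, ⟨46, 4096, 1⟩⟩))
    (.node 0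
    (.leaf (.psd ⟨⟨⟨1024, 0, 0⟩, ⟨(-10), 1, 0⟩, ⟨0, 0, 1⟩⟩, ⟨⟨1, 0, 0⟩, ⟨10, 1024, 0⟩, ⟨0, 0, 1024⟩⟩, 1024, ⟨58, 4096, 1⟩⟩))
    (.leaf (.skip 6))))
    (.leaf (.skip 6)))
    (.node 0
    (.leaf (.psd ⟨⟨⟨1024, 0, 0⟩, ⟨(-2), 1, 0⟩, ⟨0, 0, 1⟩⟩, ⟨⟨1, 0, 0⟩, ⟨2, 1024, 0⟩, ⟨0, 0, 1024⟩⟩, 1024, ⟨47, 4096, 1⟩⟩))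
    (.leaf (.skip 6))))))
    (.node 0
    (.node 0
    (.node 1
    (.leaf (.psd ⟨⟨⟨1024, 0, 0⟩, ⟨(-55), 1, 0⟩, ⟨0, 0, 1⟩⟩, ⟨⟨1, 0, 0⟩, ⟨55, 1024, 0⟩, ⟨0, 0, 1024⟩⟩, 1024, ⟨26, 4096, 1⟩⟩))
    (.node 3
    (.node 0
    (.leaf (.psd ⟨⟨⟨1024, 0, 0⟩, ⟨(-25), 1, 0⟩, ⟨0, 0, 1⟩⟩, ⟨⟨1, 0, 0⟩, ⟨25, 1024, 0⟩, ⟨0, 0, 1024⟩⟩, 1024, ⟨47, 4096, 1⟩⟩))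
    (.node 1
    (.leaf (.psd ⟨⟨⟨1024, 0, 0⟩, ⟨(-8), 1, 0⟩, ⟨0, 0, 1⟩⟩, ⟨⟨1, 0, 0⟩, ⟨8, 1024, 0⟩, ⟨0, 0, 1024⟩⟩, 1024, ⟨59, 4096, 1⟩⟩))
    (.leaf (.skip 6))))
    (.leaf (.psd ⟨⟨⟨1, 0, 0⟩, ⟨0, 1, 0⟩, ⟨0, 0, 1⟩⟩, ⟨⟨1, 0, 0⟩, ⟨0, 1, 0⟩, ⟨0, 0, 1⟩⟩, 1, ⟨4096, 341, 1⟩⟩))))
    (.node 1
    (.node 3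
    (.node 0
    (.leaf (.psd ⟨⟨⟨1024, 0, 0⟩, ⟨(-26), 1, 0⟩, ⟨0, 0, 1⟩⟩, ⟨⟨1, 0, 0⟩, ⟨26, 1024, 0⟩, ⟨0, 0, 1024⟩⟩, 1024, ⟨47, 4096, 1⟩⟩))
    (.node 1
    (.leaf (.psd ⟨⟨⟨1024, 0, 0⟩, ⟨(-9), 1, 0⟩, ⟨0, 0, 1⟩⟩, ⟨⟨1, 0, 0⟩, ⟨9, 1024, 0⟩, ⟨0, 0, 1024⟩⟩, 1024, ⟨58, 4096, 1⟩⟩))
    (.leaf (.skip 6))))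
    (.leaf (.psd ⟨⟨⟨1024, 0, 0⟩, ⟨(-1), 1, 0⟩, ⟨0, 0, 1⟩⟩, ⟨⟨1, 0, 0⟩, ⟨1, 1024, 0⟩, ⟨0, 0, 1024⟩⟩, 1024, ⟨47, 4096, 1⟩⟩)))
    (.leaf (.skip 6))))
    (.leaf (.skip 6))))
    (.leaf (.skip 6)))
    (.leaf (.skip 6))))))

theorem chunk27 : Check.Good ⟨false, false, false⟩ cfg (reach cfg base [(3, true), (3, false), (0, true), (1, true), (0, true)]) :=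
  Check.check_sound tree27 (by decide +kernel)

/-- A subtree. -/
def tree28 : Check.Tree Check.Leaf :=
  .node 3
    (.node 0
    (.leaf (.psd ⟨⟨⟨1024, 0, 0⟩, ⟨(-454), 1, 0⟩, ⟨0, 0, 1⟩⟩, ⟨⟨1, 0, 0⟩, ⟨454, 1024, 0⟩, ⟨0, 0, 1024⟩⟩, 1024, ⟨2156, 1048576, 1⟩⟩))
    (.node 1
    (.leaf (.psd ⟨⟨⟨1024, 0, 0⟩, ⟨(-396), 1, 0⟩, ⟨0, 0, 1⟩⟩, ⟨⟨1, 0, 0⟩, ⟨396, 1024, 0⟩, ⟨0, 0, 1024⟩⟩, 1024, ⟨9, 4096, 1⟩⟩))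
    (.node 0
    (.node 1
    (.leaf (.psd ⟨⟨⟨1024, 0, 0⟩, ⟨(-269), 1, 0⟩, ⟨0, 0, 1⟩⟩, ⟨⟨1, 0, 0⟩, ⟨269, 1024, 0⟩, ⟨0, 0, 1024⟩⟩, 1024, ⟨9, 4096, 1⟩⟩))
    (.node 0
    (.leaf (.psd ⟨⟨⟨1, (-1134), 0⟩, ⟨0, 1024, 0⟩, ⟨0, 0, 1⟩⟩, ⟨⟨1024, 1134, 0⟩, ⟨0, 1, 0⟩, ⟨0, 0, 1024⟩⟩, 1024, ⟨4096, 1, 1⟩⟩))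
    (.node 1
    (.leaf (.psd ⟨⟨⟨1024, 0, 0⟩, ⟨(-85), 1, 0⟩, ⟨0, 0, 1⟩⟩, ⟨⟨1, 0, 0⟩, ⟨85, 1024, 0⟩, ⟨0, 0, 1024⟩⟩, 1024, ⟨19, 4096, 1⟩⟩))
    (.node 0
    (.leaf (.psd ⟨⟨⟨1024, 0, 0⟩, ⟨(-12), 1, 0⟩, ⟨0, 0, 1⟩⟩, ⟨⟨1, 0, 0⟩, ⟨12, 1024, 0⟩, ⟨0, 0, 1024⟩⟩, 1024, ⟨29, 4096, 1⟩⟩))
    (.node 1
    (.leaf (.psd ⟨⟨⟨1024, 0, 0⟩, ⟨14, 1, 0⟩, ⟨0, 0, 1⟩⟩, ⟨⟨1, 0, 0⟩, ⟨(-14), 1024, 0⟩, ⟨0, 0, 1024⟩⟩, 1024, ⟨37, 4096, 1⟩⟩))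
    (.node 3
    (.node 0
    (.leaf (.psd ⟨⟨⟨1024, 0, 0⟩, ⟨51, 1, 0⟩, ⟨0, 0, 1⟩⟩, ⟨⟨1, 0, 0⟩, ⟨(-51), 1024, 0⟩, ⟨0, 0, 1024⟩⟩, 1024, ⟨64, 4096, 1⟩⟩))
    (.leaf (.skip 6)))
    (.leaf (.psd ⟨⟨⟨1024, 0, 0⟩, ⟨62, 1, 0⟩, ⟨0, 0, 1⟩⟩, ⟨⟨1, 0, 0⟩, ⟨(-62), 1024, 0⟩, ⟨0, 0, 1024⟩⟩, 1024, ⟨53, 4096, 1⟩⟩))))))))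
    (.node 1
    (.node 1
    (.leaf (.psd ⟨⟨⟨1, (-1234), 0⟩, ⟨0, 1024, 0⟩, ⟨0, 0, 1⟩⟩, ⟨⟨1024, 1234, 0⟩, ⟨0, 1, 0⟩, ⟨0, 0, 1024⟩⟩, 1024, ⟨4096, 1, 1⟩⟩))
    (.node 0
    (.leaf (.psd ⟨⟨⟨1024, 0, 0⟩, ⟨(-90), 1, 0⟩, ⟨0, 0, 1⟩⟩, ⟨⟨1, 0, 0⟩, ⟨90, 1024, 0⟩, ⟨0, 0, 1024⟩⟩, 1024, ⟨18, 4096, 1⟩⟩))
    (.node 1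
    (.leaf (.psd ⟨⟨⟨1024, 0, 0⟩, ⟨(-25), 1, 0⟩, ⟨0, 0, 1⟩⟩, ⟨⟨1, 0, 0⟩, ⟨25, 1024, 0⟩, ⟨0, 0, 1024⟩⟩, 1024, ⟨28, 4096, 1⟩⟩))
    (.node 0
    (.leaf (.psd ⟨⟨⟨1024, 0, 0⟩, ⟨6, 1, 0⟩, ⟨0, 0, 1⟩⟩, ⟨⟨1, 0, 0⟩, ⟨(-6), 1024, 0⟩, ⟨0, 0, 1024⟩⟩, 1024, ⟨36, 4096, 1⟩⟩))
    (.leaf (.skip 6))))))
    (.node 0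
    (.node 1
    (.node 1
    (.leaf (.psd ⟨⟨⟨1024, 0, 0⟩, ⟨(-13), 1, 0⟩, ⟨0, 0, 1⟩⟩, ⟨⟨1, 0, 0⟩, ⟨13, 1024, 0⟩, ⟨0, 0, 1024⟩⟩, 1024, ⟨30, 4096, 1⟩⟩))
    (.node 0
    (.leaf (.psd ⟨⟨⟨1024, 0, 0⟩, ⟨14, 1, 0⟩, ⟨0, 0, 1⟩⟩, ⟨⟨1, 0, 0⟩, ⟨(-14), 1024, 0⟩, ⟨0, 0, 1024⟩⟩, 1024, ⟨38, 4096, 1⟩⟩))
    (.leaf (.skip 6))))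
    (.leaf (.skip 6)))
    (.leaf (.skip 6)))))))
    (.node 1
    (.leaf (.psd ⟨⟨⟨1024, 0, 0⟩, ⟨(-79), 1, 0⟩, ⟨0, 0, 1⟩⟩, ⟨⟨1, 0, 0⟩, ⟨79, 1024, 0⟩, ⟨0, 0, 1024⟩⟩, 1024, ⟨3, 4096, 1⟩⟩))
    (.node 0
    (.leaf (.psd ⟨⟨⟨1024, 0, 0⟩, ⟨(-107), 1, 0⟩, ⟨0, 0, 1⟩⟩, ⟨⟨1, 0, 0⟩, ⟨107, 1024, 0⟩, ⟨0, 0, 1024⟩⟩, 1024, ⟨4, 4096, 1⟩⟩))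
    (.node 0
    (.node 3
    (.leaf (.psd ⟨⟨⟨1024, 0, 0⟩, ⟨(-64), 1, 0⟩, ⟨0, 0, 1⟩⟩, ⟨⟨1, 0, 0⟩, ⟨64, 1024, 0⟩, ⟨0, 0, 1024⟩⟩, 1024, ⟨17, 4096, 1⟩⟩))
    (.node 3
    (.leaf (.psd ⟨⟨⟨1024, 0, 0⟩, ⟨13, 1, 0⟩, ⟨0, 0, 1⟩⟩, ⟨⟨1, 0, 0⟩, ⟨(-13), 1024, 0⟩, ⟨0, 0, 1024⟩⟩, 1024, ⟨13, 4096, 1⟩⟩))
    (.node 1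
    (.leaf (.psd ⟨⟨⟨1024, 0, 0⟩, ⟨113, 1, 0⟩, ⟨0, 0, 1⟩⟩, ⟨⟨1, 0, 0⟩, ⟨(-113), 1024, 0⟩, ⟨0, 0, 1024⟩⟩, 1024, ⟨3, 4096, 1⟩⟩))
    (.node 3
    (.leaf (.psd ⟨⟨⟨1024, 0, 0⟩, ⟨92, 1, 0⟩, ⟨0, 0, 1⟩⟩, ⟨⟨1, 0, 0⟩, ⟨(-92), 1024, 0⟩, ⟨0, 0, 1024⟩⟩, 1024, ⟨7, 4096, 1⟩⟩))
    (.node 0
    (.leaf (.psd ⟨⟨⟨1024, 0, 0⟩, ⟨161, 1, 0⟩, ⟨0, 0, 1⟩⟩, ⟨⟨1, 0, 0⟩, ⟨(-161), 1024, 0⟩, ⟨0, 0, 1024⟩⟩, 1024, ⟨3, 4096, 1⟩⟩))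
    (.node 1
    (.leaf (.psd ⟨⟨⟨1024, 0, 0⟩, ⟨138, 1, 0⟩, ⟨0, 0, 1⟩⟩, ⟨⟨1, 0, 0⟩, ⟨(-138), 1024, 0⟩, ⟨0, 0, 1024⟩⟩, 1024, ⟨2, 4096, 1⟩⟩))
    (.node 3
    (.leaf (.psd ⟨⟨⟨1024, 0, 0⟩, ⟨119, 1, 0⟩, ⟨0, 0, 1⟩⟩, ⟨⟨1, 0, 0⟩, ⟨(-119), 1024, 0⟩, ⟨0, 0, 1024⟩⟩, 1024, ⟨3, 4096, 1⟩⟩))
    (.node 0
    (.leaf (.psd ⟨⟨⟨1024, 0, 0⟩, ⟨127, 1, 0⟩, ⟨0, 0, 1⟩⟩, ⟨⟨1, 0, 0⟩, ⟨(-127), 1024, 0⟩, ⟨0, 0, 1024⟩⟩, 1024, ⟨1, 4096, 1⟩⟩))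
    (.node 1
    (.leaf (.psd ⟨⟨⟨1024, 0, 0⟩, ⟨101, 1, 0⟩, ⟨0, 0, 1⟩⟩, ⟨⟨1, 0, 0⟩, ⟨(-101), 1024, 0⟩, ⟨0, 0, 1024⟩⟩, 1024, ⟨1, 4096, 1⟩⟩))
    (.node 3
    (.leaf (.psd ⟨⟨⟨1024, 0, 0⟩, ⟨83, 1, 0⟩, ⟨0, 0, 1⟩⟩, ⟨⟨1, 0, 0⟩, ⟨(-83), 1024, 0⟩, ⟨0, 0, 1024⟩⟩, 1024, ⟨2, 4096, 1⟩⟩))
    (.node 0
    (.leaf (.psd ⟨⟨⟨1024, 0, 0⟩, ⟨16, 1, 0⟩, ⟨0, 0, 1⟩⟩, ⟨⟨1, 0, 0⟩, ⟨(-16), 1024, 0⟩, ⟨0, 0, 1024⟩⟩, 1024, ⟨1, 4096, 1⟩⟩))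
    (.leaf (.skip 6)))))))))))))
    (.node 1
    (.node 3
    (.leaf (.psd ⟨⟨⟨1024, 0, 0⟩, ⟨(-28), 1, 0⟩, ⟨0, 0, 1⟩⟩, ⟨⟨1, 0, 0⟩, ⟨28, 1024, 0⟩, ⟨0, 0, 1024⟩⟩, 1024, ⟨20, 4096, 1⟩⟩))
    (.node 3
    (.leaf (.psd ⟨⟨⟨1024, 0, 0⟩, ⟨20, 1, 0⟩, ⟨0, 0, 1⟩⟩, ⟨⟨1, 0, 0⟩, ⟨(-20), 1024, 0⟩, ⟨0, 0, 1024⟩⟩, 1024, ⟨14, 4096, 1⟩⟩))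
    (.node 3
    (.leaf (.psd ⟨⟨⟨1024, 0, 0⟩, ⟨61, 1, 0⟩, ⟨0, 0, 1⟩⟩, ⟨⟨1, 0, 0⟩, ⟨(-61), 1024, 0⟩, ⟨0, 0, 1024⟩⟩, 1024, ⟨8, 4096, 1⟩⟩))
    (.node 0
    (.leaf (.psd ⟨⟨⟨1024, 0, 0⟩, ⟨123, 1, 0⟩, ⟨0, 0, 1⟩⟩, ⟨⟨1, 0, 0⟩, ⟨(-123), 1024, 0⟩, ⟨0, 0, 1024⟩⟩, 1024, ⟨3, 4096, 1⟩⟩))
    (.node 1
    (.leaf (.psd ⟨⟨⟨1024, 0, 0⟩, ⟨84, 1, 0⟩, ⟨0, 0, 1⟩⟩, ⟨⟨1, 0, 0⟩, ⟨(-84), 1024, 0⟩, ⟨0, 0, 1024⟩⟩, 1024, ⟨2, 4096, 1⟩⟩))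
    (.node 3
    (.leaf (.psd ⟨⟨⟨1024, 0, 0⟩, ⟨78, 1, 0⟩, ⟨0, 0, 1⟩⟩, ⟨⟨1, 0, 0⟩, ⟨(-78), 1024, 0⟩, ⟨0, 0, 1024⟩⟩, 1024, ⟨3, 4096, 1⟩⟩))
    (.node 0
    (.leaf (.psd ⟨⟨⟨1024, 0, 0⟩, ⟨74, 1, 0⟩, ⟨0, 0, 1⟩⟩, ⟨⟨1, 0, 0⟩, ⟨(-74), 1024, 0⟩, ⟨0, 0, 1024⟩⟩, 1024, ⟨1, 4096, 1⟩⟩))
    (.node 1
    (.leaf (.psd ⟨⟨⟨1024, 0, 0⟩, ⟨34, 1, 0⟩, ⟨0, 0, 1⟩⟩, ⟨⟨1, 0, 0⟩, ⟨(-34), 1024, 0⟩, ⟨0, 0, 1024⟩⟩, 1024, ⟨1, 4096, 1⟩⟩))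
    (.leaf (.skip 6))))))))))
    (.node 3
    (.node 1
    (.node 0
    (.leaf (.psd ⟨⟨⟨1024, 0, 0⟩, ⟨40, 1, 0⟩, ⟨0, 0, 1⟩⟩, ⟨⟨1, 0, 0⟩, ⟨(-40), 1024, 0⟩, ⟨0, 0, 1024⟩⟩, 1024, ⟨24, 4096, 1⟩⟩))
    (.leaf (.skip 6)))
    (.leaf (.skip 6)))
    (.node 3
    (.node 1
    (.leaf (.psd ⟨⟨⟨1024, 0, 0⟩, ⟨88, 1, 0⟩, ⟨0, 0, 1⟩⟩, ⟨⟨1, 0, 0⟩, ⟨(-88), 1024, 0⟩, ⟨0, 0, 1024⟩⟩, 1024, ⟨26, 4096, 1⟩⟩))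
    (.leaf (.skip 6)))
    (.node 3
    (.node 1
    (.leaf (.psd ⟨⟨⟨1024, 0, 0⟩, ⟨104, 1, 0⟩, ⟨0, 0, 1⟩⟩, ⟨⟨1, 0, 0⟩, ⟨(-104), 1024, 0⟩, ⟨0, 0, 1024⟩⟩, 1024, ⟨12, 4096, 1⟩⟩))
    (.leaf (.skip 6)))
    (.node 3
    (.node 0
    (.leaf (.psd ⟨⟨⟨1024, 0, 0⟩, ⟨107, 1, 0⟩, ⟨0, 0, 1⟩⟩, ⟨⟨1, 0, 0⟩, ⟨(-107), 1024, 0⟩, ⟨0, 0, 1024⟩⟩, 1024, ⟨3, 4096, 1⟩⟩))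
    (.leaf (.skip 6)))
    (.node 0
    (.node 1
    (.node 0
    (.leaf (.psd ⟨⟨⟨1024, 0, 0⟩, ⟨107, 1, 0⟩, ⟨0, 0, 1⟩⟩, ⟨⟨1, 0, 0⟩, ⟨(-107), 1024, 0⟩, ⟨0, 0, 1024⟩⟩, 1024, ⟨1, 4096, 1⟩⟩))
    (.node 1
    (.leaf (.psd ⟨⟨⟨1024, 0, 0⟩, ⟨75, 1, 0⟩, ⟨0, 0, 1⟩⟩, ⟨⟨1, 0, 0⟩, ⟨(-75), 1024, 0⟩, ⟨0, 0, 1024⟩⟩, 1024, ⟨1, 4096, 1⟩⟩))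
    (.leaf (.skip 6))))
    (.leaf (.skip 6)))
    (.leaf (.skip 6)))))))))))

theorem chunk28 : Check.Good ⟨false, false, false⟩ cfg (reach cfg base [(3, true), (0, true), (1, true), (0, true)]) :=
  Check.check_sound tree28 (by decide +kernel)

end Vale.Agent.P211.Cert.Pair.PairOuterL
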